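import Vale.Agent.P207Z.Dyn
import Vale.Agent.P207Z.Erg.Inv

/-!
# P207: ergodic tools on `Sys`, first part: transfer, constants, returns
-/

set_option linter.all false

open Set Filter Topology Metric MeasureTheory Asymptotics
open scoped ContDiff

noncomputable section

namespace Vale.Agent.P207Z

variable {Γ X B E V : Type} [Group Γ] [Countable Γ] [MetricSpace X] [ProperSpace X]
  [MulAction Γ X] [IsIsometricSMul Γ X] [MeasurableSpace X] [BorelSpace X]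
  [TopologicalSpace B] [CompactSpace B] [T2Space B] [SecondCountableTopology B] [MulAction Γ B]
  [ContinuousConstSMul Γ B] [MeasurableSpace B] [BorelSpace B]
  [NormedAddCommGroup E] [InnerProductSpace ℝ E] [FiniteDimensional ℝ E]
  [NormedAddCommGroup V] [NormedSpace ℝ V] [FiniteDimensional ℝ V]
  {F G W : Type} [NormedAddCommGroup F] [NormedSpace ℝ F] [FiniteDimensional ℝ F]
  [NormedAddCommGroup G] [NormedSpace ℝ G] [FiniteDimensional ℝ G]
  [NormedAddCommGroup W] [NormedSpace ℝ W]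

variable {S : Sys Γ X B E V} {Y : Type} [MeasurableSpace Y] [MulAction Γ Y]

open MET

namespace Prob

variable (P : Prob S Y)

/-! ### transfer between `X` and `Y` -/

theorem mcs (P : Prob S Y) : MeasurableConstSMul Γ Y := ⟨P.smul_meas⟩

theorem gsys : GSys Γ P.m P.Z P.ψ :=
  ⟨⟨P.ψ_zero, P.ψ_add⟩, fun n => P.ψ_pres n, fun t g y => P.ψ_smul g t y, P.fund, by
    rw [P.Z_one]; exact ENNReal.one_ne_top⟩

theorem fr_π (x : X) : S.pt (P.fr (P.π x)) = S.pt x ∧ S.lv (P.fr (P.π x)) = S.lv x :=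
  (P.π_eq _ _).1 (P.π_fr _)

theorem fr_ψ (t : ℝ) (y : Y) :
    S.pt (P.fr (P.ψ t y)) = S.pt (P.fr y) ∧ S.lv (P.fr (P.ψ t y)) = S.lv (P.fr y) + t := by
  have h := P.fr_π (S.φ t (P.fr y))
  rwa [P.π_φ, P.π_fr, S.pt_φ, S.lv_φ] at h

theorem qmp : Measure.QuasiMeasurePreserving P.fr P.m S.μ :=
  ⟨P.fr_meas, Measure.AbsolutelyContinuous.mk fun s hs h0 => by
    rw [Measure.map_apply P.fr_meas hs]
    exact measure_eq_zero_iff_ae_notMem.2 (P.ae_fr _ (measure_eq_zero_iff_ae_notMem.1 h0))⟩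

/-- the point of level `t` on the geodesic of `x` -/
def N (t : ℝ) (x : X) : Y := P.π (S.φ ((t - S.lv x + S.lp x) / 2) x)

theorem N_meas (t : ℝ) : Measurable (P.N t) :=
  P.π_meas.comp (S.φ_cont.comp ((((continuous_const.sub S.lv_cont).add S.lp_cont).div_const
    2).prodMk continuous_id)).measurable

theorem pt_N (t : ℝ) (x : X) : S.pt (P.fr (P.N t x)) = S.pt x :=
  (P.fr_π _).1.trans (S.pt_φ _ _)

theorem lift {Q : Y → Prop} (h : ∀ᵐ y ∂P.m, Q y) : ∃ t, ∀ᵐ x ∂S.μ, Q (P.N t x) := by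
  obtain ⟨t, ht⟩ := (P.ae_lv Q h).exists
  refine ⟨t, (Sys.ae_φ ht).mono fun x hx => hx _ ?_⟩
  rw [S.lv_φ, S.lp_φ]
  ring

theorem ae_of_fr {Q : X → Prop} (h : ∀ᵐ y ∂P.m, Q (P.fr y)) :
    ∀ᵐ x ∂S.μ, ∃ x0, S.pt x0 = S.pt x ∧ Q x0 := by
  obtain ⟨t, ht⟩ := P.lift h
  exact ht.mono fun x hx => ⟨_, P.pt_N t x, hx⟩

theorem ferg : FErg (X := Iv Γ Y) P.ψ (muI Γ P.m P.Z) := by
  haveI := P.mcs
  haveI := P.inv
  intro f hf hi
  have h1 := aemeasurable_of_iv P.fund hf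
  have h2 : ∀ᵐ y ∂P.m, ∀ g : Γ, f (g • (y : Y) : Y) = f y := by
    filter_upwards [(ae_muI P.fund).1 hf.ae_eq_mk,
      ae_smul_all (Γ := Γ) ((ae_muI P.fund).1 hf.ae_eq_mk)] with x h1 h2 g
    exact (h2 g).trans ((inv_of_iv (Y := Y) hf.measurable_mk g x).trans h1.symm)
  obtain ⟨c, hc⟩ := exists_eventuallyEq_const_of_forall_separating (l := ae P.m)
    (f := fun y : Y => f y) MeasurableSet fun U hU => by
      have e : ∀ᵐ y ∂P.m, (∀ g : Γ, f (g • (y : Y) : Y) ∈ U) ↔ f y ∈ U := h2.mono fun y hy => by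
        simp only [hy, forall_const]
      refine (P.erg {y | ∀ g : Γ, f (g • (y : Y) : Y) ∈ U}
        ((h1.nullMeasurable hU).congr (eventuallyEq_set.2 e).symm) (fun g y => ?_)
        fun t y => ?_).symm.imp (fun h => ?_) fun h => ?_
      · simp only [mem_setOf_eq, smul_smul]
        exact ⟨fun h k => by simpa using h (k * g⁻¹), fun h k => h _⟩
      · exact forall_congr' fun g => by rw [← P.ψ_smul, hi t (g • y : Y)]
      · filter_upwards [e, mem_ae_iff.2 h] with y h3 h4 using h3.1 h4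
      · filter_upwards [e, measure_eq_zero_iff_ae_notMem.1 h] with y h3 h4 using mt h3.2 h4
  exact ⟨c, (ae_muI P.fund).2 hc⟩

end Prob

/-! ### invariant objects are constant -/

theorem Prob.zero_one (P : Prob S Y) {Q : X → Prop} (hm : NullMeasurableSet {x | Q x} S.μ)
    (hp : ∀ᵐ x ∂S.μ, ∀ y, S.pt y = S.pt x → (Q y ↔ Q x))
    (hs : ∀ g : Γ, ∀ᵐ x ∂S.μ, Q (g • x) ↔ Q x) :
    (∀ᵐ x ∂S.μ, Q x) ∨ ∀ᵐ x ∂S.μ, ¬ Q x := by
  let Q' : X → Prop := fun x => ∀ (g : Γ) y, S.pt y = S.pt x → Q (g • y)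
  have e : ∀ᵐ x ∂S.μ, Q' x ↔ Q x := by
    filter_upwards [hp, Sys.ae_pt (ae_all_iff.2 hs)] with x h1 h2
    exact ⟨fun h => by simpa using h 1 x rfl, fun h g y hy => (h2 y hy g).2 ((h1 y hy).2 h)⟩
  have e1 : ∀ x y, S.pt x = S.pt y → (Q' x ↔ Q' y) := fun x y h => by simp only [Q', h]
  have e2 : ∀ (k : Γ) x, Q' x → Q' (k • x) := fun k x h g y hy => by
    have := h (g * k) (k⁻¹ • y) ((S.pt_smul_iff k).1 (by rwa [smul_inv_smul]))
    rwa [smul_smul, mul_inv_cancel_right] at this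
  refine (P.erg {y | Q' (P.fr y)} ((hm.preimage P.qmp).congr
    (eventuallyEq_set.2 (P.ae_fr _ e)).symm) (fun g y => ?_)
    fun t y => e1 _ _ (P.fr_ψ t y).1).symm.imp (fun h => ?_) fun h => ?_
  · change Q' (P.fr (g • y)) ↔ Q' (P.fr y)
    rw [P.fr_smul]
    exact ⟨fun h => by simpa using e2 g⁻¹ _ h, e2 g _⟩
  · filter_upwards [e, P.ae_of_fr (Q := Q') (mem_ae_iff.2 h)] with x h1 ⟨y, h2, h3⟩
    exact h1.1 ((e1 _ _ h2).1 h3)
  · filter_upwards [e, P.ae_of_fr (Q := fun x => ¬ Q' x) (measure_eq_zero_iff_ae_notMem.1 h)]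
      with x h1 ⟨y, h2, h3⟩
    exact fun h4 => h3 ((e1 _ _ h2).2 (h1.2 h4))

theorem Prob.const (P : Prob S Y) {f : X → ℝ} (hm : AEMeasurable f S.μ)
    (hp : ∀ᵐ x ∂S.μ, ∀ y, S.pt y = S.pt x → f y = f x)
    (hs : ∀ g : Γ, ∀ᵐ x ∂S.μ, f (g • x) = f x) : ∃ c, ∀ᵐ x ∂S.μ, f x = c :=
  exists_eventuallyEq_const_of_forall_separating (l := ae S.μ) (f := f) MeasurableSet fun U hU =>
    P.zero_one (hm.nullMeasurable hU) (hp.mono fun x h y hy => by rw [h y hy])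
      fun g => (hs g).mono fun x h => by rw [h]

theorem Prob.rank (P : Prob S Y) {H : X → Submodule ℝ F} (hm : MSub S.μ H)
    (hp : ∀ᵐ x ∂S.μ, ∀ y, S.pt y = S.pt x →
      Module.finrank ℝ (H y) = Module.finrank ℝ (H x))
    (hs : ∀ (g : Γ) x, H (g • x) = H x) : ∃ d, ∀ᵐ x ∂S.μ, Module.finrank ℝ (H x) = d := by
  obtain ⟨c, hc⟩ := P.const hm.finrank (hp.mono fun x h y hy => by rw [h y hy])
    fun g => Eventually.of_forall fun x => by rw [hs]
  exact ⟨⌊c⌋₊, hc.mono fun x hx => by rw [← hx, Nat.floor_natCast]⟩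

/-! ### returns -/

/-- a property with a constant which is invariant under the group, monotone, and passes to the
other frames of the same geodesic -/
structure Sys.Port (S : Sys Γ X B E V) (T : ℕ → X → Prop) : Prop where
  smul : ∀ n (g : Γ) x, T n x → T n (g • x)
  mono : ∀ n n' x, n ≤ n' → T n x → T n' x
  move : ∀ (D : ℝ) n, ∃ n', ∀ x y, S.pt x = S.pt y → dist x y ≤ D → T n x → T n' y

theorem Sys.Port.and {T T' : ℕ → X → Prop} (h : S.Port T) (h' : S.Port T') :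
    S.Port fun n x => T n x ∧ T' n x :=
  ⟨fun n g x a => ⟨h.smul n g x a.1, h'.smul n g x a.2⟩,
    fun n n' x e a => ⟨h.mono n n' x e a.1, h'.mono n n' x e a.2⟩, fun D n => by
      obtain ⟨k, hk⟩ := h.move D n
      obtain ⟨l, hl⟩ := h'.move D n
      exact ⟨max k l, fun x y e d a => ⟨h.mono _ _ _ (le_max_left _ _) (hk x y e d a.1),
        h'.mono _ _ _ (le_max_right _ _) (hl x y e d a.2)⟩⟩⟩

/-- the closure of a property under the three operations -/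
def Sys.port (S : Sys Γ X B E V) (T : ℕ → X → Prop) (n : ℕ) (x : X) : Prop :=
  ∃ n' ≤ n, ∃ (g : Γ) (y : X), S.pt y = S.pt x ∧ dist x y ≤ n ∧ T n' (g • y)

theorem Sys.port_port (T : ℕ → X → Prop) : S.Port (S.port T) := by
  refine ⟨fun n k x ⟨n', a, g, y, b, c, d⟩ => ⟨n', a, g * k⁻¹, k • y, (S.pt_smul_iff k).2 b,
    by rwa [dist_smul], by rwa [smul_smul, inv_mul_cancel_right]⟩,
    fun n m x e ⟨n', a, g, y, b, c, d⟩ => ⟨n', a.trans e, g, y, b, c.trans (Nat.cast_le.2 e), d⟩,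
    fun D n => ⟨n + ⌈D⌉₊, fun x z e f ⟨n', a, g, y, b, c, d⟩ =>
      ⟨n', a.trans (Nat.le_add_right _ _), g, y, b.trans e, ?_, d⟩⟩⟩
  push_cast
  linarith [dist_triangle_left z y x, Nat.le_ceil D]

theorem Sys.Tight.port {T : ℕ → X → Prop} (h : S.Tight T) : S.Tight (S.port T) :=
  h.mono (Eventually.of_forall fun x n a => ⟨n, le_rfl, 1, x, rfl, by simp, by rwa [one_smul]⟩)

/-- the good times are the times where a sequence with the density property is bounded -/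
theorem Prob.den' (P : Prob S Y) {T : ℕ → X → Prop} (h : S.Tight T) (hp : S.Port T) :
    ∃ u mv : ℕ → X → ℕ, (∀ j, Measurable (u j)) ∧ (∀ k, Measurable (mv k)) ∧
      ∀ᵐ x ∂S.μ, (Den fun j => u j x) ∧ ∀ k j : ℕ, u j x ≤ k →
        T (mv k x) (S.φ j x) ∧ T (mv k x) (S.φ (-j) x) := by
  haveI := P.mcs
  haveI := P.inv
  obtain ⟨R, hR, h⟩ := h
  let f : Y → ℕ := fun y => ⨅ g : Γ, R (P.fr (g • y))
  have hf : Measurable f := Measurable.iInf fun g => hR.comp (P.fr_meas.comp (P.smul_meas g))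
  have hi : ∀ (g : Γ) y, f (g • y) = f y := fun g y => by
    simp only [f, smul_smul]
    exact (Equiv.mulRight g).iInf_comp (g := fun k => R (P.fr (k • y)))
  have h1 : ∀ᵐ y ∂P.m, T (f y) (P.fr y) := by
    filter_upwards [ae_smul_all (Γ := Γ) (P.ae_fr _ h)] with y hy
    obtain ⟨g, hg⟩ := ciInf_mem fun g : Γ => R (P.fr (g • y))
    have := hp.smul _ g⁻¹ _ (hy g)
    rwa [show R (P.fr (g • y)) = f y from hg, P.fr_smul, inv_smul_smul] at this
  obtain ⟨t, ht⟩ := P.lift ((P.gsys.ae_den (f := fun y => (f y : ℝ))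
    (measurable_from_top.comp hf).aemeasurable fun g => Eventually.of_forall fun y => by
      simp only [hi]).and (ae_orbit (τ := fun n : ℤ => P.ψ n) P.gsys.mp h1))
  obtain ⟨D, hD0, hD⟩ := S.dist_le_lv
  choose n hn using hp.move
  have hm : ∀ s, Measurable fun x => f (P.ψ s (P.N t x)) := fun s =>
    hf.comp ((P.ψ_pres s).measurable.comp (P.N_meas t))
  refine ⟨fun j x => max (f (P.ψ j (P.N t x))) (f (P.ψ (-j) (P.N t x))),
    fun k x => (fun d : ℕ => n d k) ⌈D * (|S.lv (P.fr (P.N t x)) - S.lv x| + 1)⌉₊,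
    fun j => (hm _).max (hm _), fun k => (Measurable.of_discrete (f := fun d : ℕ => n d k)).comp
      (((((S.lv_cont.measurable.comp (P.fr_meas.comp (P.N_meas t))).sub
        S.lv_cont.measurable).abs.add_const 1).const_mul D).nat_ceil),
    ht.mono fun x hx => ⟨by simpa only [Nat.cast_max] using hx.1.1.max hx.1.2, fun k => ?_⟩⟩
  have key : ∀ i : ℤ, f (P.ψ i (P.N t x)) ≤ k →
      T (n ⌈D * (|S.lv (P.fr (P.N t x)) - S.lv x| + 1)⌉₊ k) (S.φ i x) := fun i hi => by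
    have e : S.pt (P.fr (P.ψ i (P.N t x))) = S.pt (S.φ i x) := by
      rw [(P.fr_ψ _ _).1, P.pt_N, S.pt_φ]
    refine hn _ _ _ _ e (((hD _ _ e).trans_eq ?_).trans (Nat.le_ceil _)) (hp.mono _ _ _ hi (hx.2 i))
    rw [(P.fr_ψ _ _).2, S.lv_φ, add_sub_add_right_eq_sub]
  exact fun j hj => ⟨by simpa using key j (by simpa using (max_le_iff.1 hj).1),
    by simpa using key (-j) (by simpa using (max_le_iff.1 hj).2)⟩

theorem Prob.den (P : Prob S Y) {T : ℕ → X → Prop} (h : S.Tight T) (hp : S.Port T) :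
    ∀ᵐ x ∂S.μ, ∃ u : ℕ → ℝ, Den u ∧ ∀ k : ℝ, ∃ n, ∀ j : ℕ, u j ≤ k →
      T n (S.φ j x) ∧ T n (S.φ (-j) x) := by
  obtain ⟨u, mv, -, -, h1⟩ := P.den' h hp
  exact h1.mono fun x hx => ⟨_, hx.1, fun k => ⟨_, fun j hj =>
    hx.2 ⌈k⌉₊ j (Nat.cast_le.1 (hj.trans (Nat.le_ceil k)))⟩⟩

/-- late returns in both directions, with a measurable bound -/
theorem Prob.tight_ret₂ (P : Prob S Y) {T : ℕ → X → Prop} (h : S.Tight T) (hp : S.Port T)
    (N : ℕ → ℕ) : S.Tight fun n x => ∃ n' ≤ n, ∃ j : ℕ, N n' ≤ j ∧ j ≤ n ∧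
      T n' (S.φ j x) ∧ T n' (S.φ (-j) x) := by
  obtain ⟨u, mv, h1, h2, h3⟩ := P.den' h hp
  refine (Sys.tight_of_sets (T := fun n x => ∃ k j : ℕ, mv k x ≤ n ∧ N (mv k x) ≤ j ∧ j ≤ n ∧
    u j x ≤ k) (fun n => MeasurableSet.nullMeasurableSet ?_) (h3.mono fun x hx => ?_)).mono
    (h3.mono fun x hx n ⟨k, j, a, b, c, d⟩ => ⟨_, a, j, b, c, hx.2 k j d⟩)
  · simp only [setOf_exists, setOf_and]
    exact MeasurableSet.iUnion fun k => MeasurableSet.iUnion fun j =>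
      (measurableSet_le (h2 k) measurable_const).inter ((measurableSet_le
        ((Measurable.of_discrete (f := N)).comp (h2 k)) measurable_const).inter
        ((MeasurableSet.const _).inter (measurableSet_le (h1 j) measurable_const)))
  · obtain ⟨k, hk⟩ := hx.1.frequently
    obtain ⟨j, a, b⟩ := hk (N (mv ⌈k⌉₊ x))
    exact ⟨max (mv ⌈k⌉₊ x) j, ⌈k⌉₊, j, le_max_left _ _, a, le_max_right _ _,
      Nat.cast_le.1 (b.trans (Nat.le_ceil k))⟩

theorem Prob.tight_ret (P : Prob S Y) {T : ℕ → X → Prop} (h : S.Tight T) (hp : S.Port T)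
    (N : ℕ → ℕ) : S.Tight fun n x => ∃ n' ≤ n, ∃ j : ℕ, N n' ≤ j ∧ j ≤ n ∧ T n' (S.φ j x) :=
  (P.tight_ret₂ h hp N).mono (Eventually.of_forall fun _ _ ⟨n', a, j, b, c, d⟩ =>
    ⟨n', a, j, b, c, d.1⟩)

/-- the good times have density close to one, in both directions -/
theorem Prob.dens (P : Prob S Y) {T : ℕ → X → Prop} (h : S.Tight T) (hp : S.Port T) :
    ∀ᵐ x ∂S.μ, ∀ ε : ℝ, 0 < ε → ∃ n, ∀ᶠ N : ℕ in atTop,
      (Set.ncard {j : ℕ | j < N ∧ ¬ T n (S.φ j x)} : ℝ) ≤ ε * N ∧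
      (Set.ncard {j : ℕ | j < N ∧ ¬ T n (S.φ (-j) x)} : ℝ) ≤ ε * N := by
  filter_upwards [P.den h hp] with x ⟨u, hu, h1⟩ ε hε
  obtain ⟨k, hk⟩ := hu ε hε
  obtain ⟨n, hn⟩ := h1 k
  have key : ∀ (N : ℕ) (p : ℕ → Prop), (∀ j, u j ≤ k → p j) →
      (Set.ncard {j : ℕ | j < N ∧ ¬ p j} : ℝ) ≤ ε * N := fun N p h2 => by
    refine le_trans (Nat.cast_le.2 ?_) (hk N)
    rw [← Set.ncard_coe_finset]
    exact Set.ncard_le_ncard (fun j hj => by simpa using ⟨hj.1, not_le.1 (mt (h2 j) hj.2)⟩)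
      (Finset.finite_toSet _)
  exact ⟨n, Eventually.of_forall fun N => ⟨key N _ fun j hj => (hn j hj).1,
    key N _ fun j hj => (hn j hj).2⟩⟩

theorem Prob.window (P : Prob S Y) {T : ℕ → X → Prop} (h : S.Tight T) (hp : S.Port T) :
    ∀ᵐ x ∂S.μ, ∀ θ : ℝ, 0 < θ → ∃ n, ∀ᶠ t : ℝ in atTop,
      (∃ j : ℕ, t ≤ j ∧ (j : ℝ) ≤ (1 + θ) * t ∧ T n (S.φ j x)) ∧
      (∃ j : ℕ, t ≤ j ∧ (j : ℝ) ≤ (1 + θ) * t ∧ T n (S.φ (-j) x)) := by
  filter_upwards [P.den h hp] with x ⟨u, hu, h1⟩ θ hθ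
  obtain ⟨k, hk⟩ := hu.later (half_pos hθ)
  obtain ⟨n, hn⟩ := h1 k
  refine ⟨n, (eventually_ge_atTop ((1 + θ / 2) / (θ / 2))).mono fun t ht => ?_⟩
  have t0 : 0 ≤ t := le_trans (by positivity) ht
  rw [div_le_iff₀ (half_pos hθ)] at ht
  obtain ⟨j, a, b, c⟩ := hk ⌈t⌉₊
  have a1 : t ≤ j := (Nat.le_ceil t).trans (Nat.cast_le.2 a)
  have b1 : (j : ℝ) ≤ (1 + θ) * t := by nlinarith [Nat.ceil_lt_add_one t0]
  exact ⟨⟨j, a1, b1, (hn j c).1⟩, j, a1, b1, (hn j c).2⟩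

/-- tightness can be checked on the frames `fr y` -/
theorem Prob.tight (P : Prob S Y) {T : ℕ → X → Prop} (hp : S.Port T) {R : Y → ℕ}
    (hR : AEMeasurable R P.m) (h : ∀ᵐ y ∂P.m, T (R y) (P.fr y)) : S.Tight T := by
  obtain ⟨t, ht⟩ := P.lift (h.and hR.ae_eq_mk)
  choose n hn using hp.move
  refine ⟨fun x => (fun p : ℕ × ℕ => n p.1 p.2) (⌈dist (P.fr (P.N t x)) x⌉₊, hR.mk R (P.N t x)),
    (Measurable.of_discrete (f := fun p : ℕ × ℕ => n p.1 p.2)).comp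
      (((P.fr_meas.comp (P.N_meas t)).dist measurable_id).nat_ceil.prodMk
        (hR.measurable_mk.comp (P.N_meas t))), ht.mono fun x hx => ?_⟩
  exact hn _ _ _ _ (P.pt_N t x) (Nat.le_ceil _) (hx.2 ▸ hx.1)

/-- recurrence of invariant functions which are controlled along the geodesics -/
theorem Prob.recur (P : Prob S Y) {f : X → ℝ} (hm : AEMeasurable f S.μ)
    (hs : ∀ (g : Γ) x, f (g • x) = f x)
    (hp : ∀ n : ℕ, ∃ K, ∀ᵐ x ∂S.μ, ∀ y, S.pt y = S.pt x → dist y x ≤ n → f x ≤ n → f y ≤ K) :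
    ∀ᵐ x ∂S.μ, Rec S.φ f x := by
  choose K hK using hp
  filter_upwards [P.den (Sys.tight_le hm).port (Sys.port_port _), Sys.ae_pt (ae_all_iff.2 hK)]
    with x ⟨u, hu, h1⟩ h2
  obtain ⟨k, hk⟩ := hu.frequently
  obtain ⟨n, hn⟩ := h1 k
  have key : ∀ s, S.port (fun n x => f x ≤ n) n (S.φ s x) → f (S.φ s x) ≤ K n :=
    fun s ⟨n', a, g, y, b, c, d⟩ => h2 y (b.trans (S.pt_φ _ _)) n _ b.symm c
      (((hs g y).ge.trans d).trans (Nat.cast_le.2 a))
  refine ⟨K n, fun N => ?_⟩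
  obtain ⟨j, a, b⟩ := hk N
  exact ⟨⟨j, a, key _ (hn j b).1⟩, j, a, key _ (hn j b).2⟩

end Vale.Agent.P207Z
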