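import Vale.Agent.P207Z.Bun
import Vale.Agent.P207Z.ErgA

/-!
# P207: ergodic tools on `Sys` (block ERGS)
-/

set_option linter.all false

open Set Filter Topology Metric MeasureTheory Asymptotics
open scoped ContDiff

noncomputable section

namespace Vale.Agent.P207Z

variable {Γ X B E V : Type} [Group Γ] [Countable Γ] [MetricSpace X] [ProperSpace X]
  [MulAction Γ X] [IsIsometricSMul Γ X] [MeasurableSpace X] [BorelSpace X]
  [TopologicalSpace B] [CompactSpace B] [T2Space B] [SecondCountableTopology B] [MulAction Γ B]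
  [ContinuousConstSMul Γ B] [MeasurableSpace B] [BorelSpace B]
  [NormedAddCommGroup E] [InnerProductSpace ℝ E] [FiniteDimensional ℝ E]
  [NormedAddCommGroup V] [NormedSpace ℝ V] [FiniteDimensional ℝ V]
  {F G W : Type} [NormedAddCommGroup F] [NormedSpace ℝ F] [FiniteDimensional ℝ F]
  [NormedAddCommGroup G] [NormedSpace ℝ G] [FiniteDimensional ℝ G]
  [NormedAddCommGroup W] [NormedSpace ℝ W]

variable {S : Sys Γ X B E V} {Y : Type} [MeasurableSpace Y] [MulAction Γ Y]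

open MET

/-! ### the multiplicative ergodic theorem -/

namespace Coc0

variable (C : Coc0 S F)

theorem bd_dist (D : ℝ) : ∃ K : ℝ, 0 ≤ K ∧ ∀ x y, dist x y ≤ D → S.pt x = S.pt y → ‖C.Φ x y‖ ≤ K :=
  S.unif_pair C.cont C.smul D

theorem bd_lv (c : ℝ) : ∃ K : ℝ, 0 ≤ K ∧ ∀ x y, S.pt x = S.pt y → |S.lv x - S.lv y| ≤ c →
    ‖C.Φ x y‖ ≤ K := by
  obtain ⟨D, hD0, hD⟩ := S.dist_le_lv
  obtain ⟨K, hK, h⟩ := C.bd_dist (D * (c + 1))
  exact ⟨K, hK, fun x y e a => h x y ((hD x y e).trans (by gcongr)) e⟩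

theorem fl_zero (x : X) : C.fl 0 x = C.Φ x x := by rw [fl, S.φ_zero]

theorem fl_neg (s : ℝ) (x : X) : C.fl (-s) (S.φ s x) = C.Φ (S.φ s x) x := by
  rw [fl, S.fact.neg_add]

theorem fl_smul (t : ℝ) (g : Γ) (x : X) : C.fl t (g • x) = C.fl t x := by
  rw [fl, fl, S.φ_smul, C.smul _ _ _ (S.pt_φ t x).symm]

theorem meas_pair {Z : Type*} [MeasurableSpace Z] {a b : Z → X} (ha : Measurable a)
    (hb : Measurable b) (h : ∀ z, S.pt (a z) = S.pt (b z)) : Measurable fun z => C.Φ (a z) (b z) :=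
  (continuousOn_iff_continuous_restrict.1 C.cont).measurable.comp
    ((ha.prodMk hb).subtype_mk (h := h))

/-- comparison of the transports to nearby frames -/
theorem cmpr (c : ℝ) : ∃ K : ℝ, 0 ≤ K ∧ ∀ x a a' b b', S.pt x = S.pt a → S.pt x = S.pt a' →
    S.pt b = S.pt x → S.pt b' = S.pt x → |S.lv a - S.lv a'| ≤ c → |S.lv b' - S.lv b| ≤ c →
    ∀ q, ‖C.Φ x a' * q * C.Φ b' x‖ ≤ K * ‖C.Φ x a * q * C.Φ b x‖ := by
  obtain ⟨K, hK, h⟩ := C.bd_lv c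
  refine ⟨K * K, by positivity, fun x a a' b b' e1 e2 e3 e4 l1 l2 q => ?_⟩
  have e : C.Φ x a' * q * C.Φ b' x = C.Φ a a' * (C.Φ x a * q * C.Φ b x) * C.Φ b' b := by
    rw [← C.coc x a a' e1 e2, ← C.coc b' b x (e4.trans e3.symm) e4]
    noncomm_ring
  rw [e, mul_right_comm]
  exact (norm_mul_le _ _).trans (mul_le_mul ((norm_mul_le _ _).trans (mul_le_mul_of_nonneg_right
    (h _ _ (e1.symm.trans e2) l1) (norm_nonneg _))) (h _ _ (e4.trans e3.symm) l2) (norm_nonneg _)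
    (by positivity))

theorem cmpr_pt (c : ℝ) : ∃ K : ℝ, 0 ≤ K ∧ ∀ x y, S.pt x = S.pt y → |S.lv x - S.lv y| ≤ c →
    ∀ s t q, ‖C.fl t y * (C.Φ x y * q * C.Φ y x) * C.fl (-s) (S.φ s y)‖ ≤
      K * ‖C.fl t x * q * C.fl (-s) (S.φ s x)‖ := by
  obtain ⟨K, hK, h⟩ := C.cmpr c
  refine ⟨K, hK, fun x y e l s t q => ?_⟩
  have e1 : C.fl t y * (C.Φ x y * q * C.Φ y x) * C.fl (-s) (S.φ s y) =
      C.Φ x (S.φ t y) * q * C.Φ (S.φ s y) x := by
    rw [fl_neg, fl, ← C.coc x y (S.φ t y) e (by rw [S.pt_φ, e]),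
      ← C.coc (S.φ s y) y x (S.pt_φ _ _) (by rw [S.pt_φ, e])]
    noncomm_ring
  rw [e1, fl_neg, fl]
  refine h x _ _ _ _ (S.pt_φ _ _).symm (by rw [S.pt_φ, e]) (S.pt_φ _ _) (by rw [S.pt_φ, e]) ?_ ?_ q
  · rwa [S.lv_φ, S.lv_φ, add_sub_add_right_eq_sub]
  · rwa [S.lv_φ, S.lv_φ, add_sub_add_right_eq_sub, abs_sub_comm]

theorem fcoc : ∃ L, FCoc S.φ C.fl L := by
  obtain ⟨K, hK, h⟩ := C.bd_lv 1
  refine ⟨K, FCoc.of_one hK (fun s t x => ?_) fun t ht x => (h _ _ (S.pt_φ t x).symm ?_).trans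
    (by linarith [Real.add_one_le_exp K])⟩
  · rw [fl, fl, fl, S.φ_add, C.coc _ _ _ (S.pt_φ _ _).symm (by rw [S.pt_φ, S.pt_φ])]
  · rwa [S.lv_φ, sub_add_cancel_left, abs_neg]

theorem osel_pt {x y : X} (h : S.pt x = S.pt y) {π : ℝ → F →L[ℝ] F} (o : Osel S.φ C.fl x π) :
    Osel S.φ C.fl y fun a => C.Φ x y * π a * C.Φ y x := by
  have hs : (Function.support fun a => C.Φ x y * π a * C.Φ y x) ⊆ o.fin.toFinset :=
    fun a ha => by
      simp only [Finite.coe_toFinset, Function.mem_support] at ha ⊢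
      exact fun e => ha (by rw [e, mul_zero, zero_mul])
  obtain ⟨K, hK, hb⟩ := C.cmpr_pt |S.lv x - S.lv y|
  refine ⟨o.fin.toFinset.finite_toSet.subset hs, ?_, fun a => ?_, fun a => ?_, fun a ε hε => ?_⟩
  · rw [finsum_eq_sum_of_support_subset _ hs, ← Finset.sum_mul, ← Finset.mul_sum,
      o.sum_eq fun a ha => by simpa using ha, fl_zero, fl_zero, C.coc _ _ _ rfl h,
      C.coc _ _ _ h.symm rfl]
  · rw [fl_zero, ← mul_assoc, ← mul_assoc, C.coc _ _ _ h h]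
  · rw [fl_zero, mul_assoc, C.coc _ _ _ rfl h.symm]
  · obtain ⟨D, hD⟩ := o.bd a ε hε
    refine ⟨K * D, fun s t => (hb x y h le_rfl s t _).trans ?_⟩
    rw [mul_assoc K]
    exact mul_le_mul_of_nonneg_left (hD s t) hK

theorem osel_smul (g : Γ) (x : X) (π : ℝ → F →L[ℝ] F) :
    Osel S.φ C.fl (g • x) π ↔ Osel S.φ C.fl x π := by
  have e : ∀ q l, FBd S.φ C.fl (g • x) q l ↔ FBd S.φ C.fl x q l := fun q l => by
    simp only [FBd, S.φ_smul, fl_smul]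
  have hi := C.fl_smul 0 g x
  exact ⟨fun o => ⟨o.fin, hi ▸ o.sum, hi ▸ o.left, hi ▸ o.right, fun a => (e _ _).1 (o.bd a)⟩,
    fun o => ⟨o.fin, hi.symm ▸ o.sum, hi.symm ▸ o.left, hi.symm ▸ o.right,
      fun a => (e _ _).2 (o.bd a)⟩⟩

theorem reg_pt {x y : X} (h : S.pt x = S.pt y) : Reg S.φ C.fl x ↔ Reg S.φ C.fl y :=
  ⟨fun r => (C.osel_pt h r.osel).reg, fun r => (C.osel_pt h.symm r.osel).reg⟩

theorem reg_smul (g : Γ) (x : X) : Reg S.φ C.fl (g • x) ↔ Reg S.φ C.fl x :=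
  exists_congr (C.osel_smul g x)

theorem prj_pt {x y : X} (h : S.pt x = S.pt y) (a : ℝ) :
    prj S.φ C.fl y a = C.Φ x y * prj S.φ C.fl x a * C.Φ y x := by
  obtain ⟨L, hL⟩ := C.fcoc
  by_cases r : Reg S.φ C.fl x
  · rw [(C.osel_pt h r.osel).prj_eq S.fact hL]
  · rw [prj_of_not r, prj_of_not (mt (C.reg_pt h).2 r)]
    simp

theorem prj_smul (g : Γ) (x : X) : prj S.φ C.fl (g • x) = prj S.φ C.fl x := by
  obtain ⟨L, hL⟩ := C.fcoc
  by_cases hx : Reg S.φ C.fl x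
  · exact ((C.osel_smul g x _).2 hx.osel).prj_eq S.fact hL
  · rw [prj_of_not hx, prj_of_not (mt (C.reg_smul g x).1 hx)]

theorem del_pt {x y : X} (h : S.pt x = S.pt y) :
    del S.φ C.fl y = C.Φ x y * del S.φ C.fl x * C.Φ y x := by
  rw [del_eq (S := (prj_fin (φ := S.φ) (Φ := C.fl) x).toFinset) fun a ha => by
      by_contra e
      exact ha (by rw [C.prj_pt h, show prj S.φ C.fl x a = 0 by simpa using e, mul_zero, zero_mul]),
    del_eq (S := (prj_fin (φ := S.φ) (Φ := C.fl) x).toFinset) fun a ha => by simpa using ha,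
    Finset.mul_sum, Finset.sum_mul]
  exact Finset.sum_congr rfl fun a _ => by rw [mul_smul_comm, smul_mul_assoc, C.prj_pt h]

theorem del_smul (g : Γ) (x : X) : del S.φ C.fl (g • x) = del S.φ C.fl x := by
  rw [del, del, prj_smul]

/-- the cocycle over the flow on `Y` -/
def fy (P : Prob S Y) (t : ℝ) (y : Y) : F →L[ℝ] F := C.Φ (P.fr y) (P.fr (P.ψ t y))

variable (P : Prob S Y)

theorem fy_coc : ∃ L, FCoc P.ψ (C.fy P) L := by
  obtain ⟨K, hK, h⟩ := C.bd_lv 1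
  refine ⟨K, FCoc.of_one hK (fun s t x => ?_) fun t ht x => (h _ _ (P.fr_ψ t x).1.symm ?_).trans
    (by linarith [Real.add_one_le_exp K])⟩
  · rw [fy, fy, fy, P.ψ_add, C.coc _ _ _ (P.fr_ψ _ _).1.symm (by rw [(P.fr_ψ _ _).1, (P.fr_ψ _ _).1])]
  · rwa [(P.fr_ψ _ _).2, sub_add_cancel_left, abs_neg]

theorem fy_meas (t : ℝ) : Measurable (C.fy P t) :=
  C.meas_pair P.fr_meas (P.fr_meas.comp (P.ψ_pres t).measurable) fun y => (P.fr_ψ t y).1.symm

theorem fy_smul (t : ℝ) (g : Γ) (y : Y) : C.fy P t (g • y) = C.fy P t y := by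
  rw [fy, fy, P.ψ_smul, P.fr_smul, P.fr_smul, C.smul _ _ _ (P.fr_ψ t y).1.symm]

theorem fy_zero (y : Y) : C.fy P 0 y = C.fl 0 (P.fr y) := by rw [fy, P.ψ_zero, fl_zero]

theorem cmpr_fy : ∃ K : ℝ, 0 ≤ K ∧ ∀ y s t q,
    ‖C.fl t (P.fr y) * q * C.fl (-s) (S.φ s (P.fr y))‖ ≤
      K * ‖C.fy P t y * q * C.fy P (-s) (P.ψ s y)‖ ∧
    ‖C.fy P t y * q * C.fy P (-s) (P.ψ s y)‖ ≤
      K * ‖C.fl t (P.fr y) * q * C.fl (-s) (S.φ s (P.fr y))‖ := by
  obtain ⟨K, hK, h⟩ := C.cmpr 0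
  refine ⟨K, hK, fun y s t q => ?_⟩
  rw [fl_neg, fl, fy, fy, P.gsys.act.neg_add]
  exact ⟨h _ _ _ _ _ (P.fr_ψ _ _).1.symm (S.pt_φ _ _).symm (P.fr_ψ _ _).1 (S.pt_φ _ _)
      (by simp [(P.fr_ψ _ _).2, S.lv_φ]) (by simp [(P.fr_ψ _ _).2, S.lv_φ]) q,
    h _ _ _ _ _ (S.pt_φ _ _).symm (P.fr_ψ _ _).1.symm (S.pt_φ _ _) (P.fr_ψ _ _).1
      (by simp [(P.fr_ψ _ _).2, S.lv_φ]) (by simp [(P.fr_ψ _ _).2, S.lv_φ]) q⟩

theorem osel_fy (y : Y) (π : ℝ → F →L[ℝ] F) :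
    Osel P.ψ (C.fy P) y π ↔ Osel S.φ C.fl (P.fr y) π := by
  obtain ⟨K, hK, h⟩ := C.cmpr_fy P
  have hi := C.fy_zero P y
  refine ⟨fun o => ⟨o.fin, hi ▸ o.sum, hi ▸ o.left, hi ▸ o.right, fun a ε hε => ?_⟩,
    fun o => ⟨o.fin, hi.symm ▸ o.sum, hi.symm ▸ o.left, hi.symm ▸ o.right, fun a ε hε => ?_⟩⟩
  · obtain ⟨D, hD⟩ := o.bd a ε hε
    exact ⟨K * D, fun s t => (h y s t _).1.trans (by
      rw [mul_assoc K]; exact mul_le_mul_of_nonneg_left (hD s t) hK)⟩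
  · obtain ⟨D, hD⟩ := o.bd a ε hε
    exact ⟨K * D, fun s t => (h y s t _).2.trans (by
      rw [mul_assoc K]; exact mul_le_mul_of_nonneg_left (hD s t) hK)⟩

theorem reg_fy (y : Y) : Reg P.ψ (C.fy P) y ↔ Reg S.φ C.fl (P.fr y) :=
  exists_congr (C.osel_fy P y)

theorem prj_fy (y : Y) : prj P.ψ (C.fy P) y = prj S.φ C.fl (P.fr y) := by
  obtain ⟨L, hL⟩ := C.fy_coc P
  by_cases hx : Reg S.φ C.fl (P.fr y)
  · exact ((C.osel_fy P y _).2 hx.osel).prj_eq P.gsys.act hL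
  · rw [prj_of_not hx, prj_of_not (mt (C.reg_fy P y).1 hx)]

theorem del_fy (y : Y) : del P.ψ (C.fy P) y = del S.φ C.fl (P.fr y) := by rw [del, del, prj_fy]

/-- measurability of equivariant fields of operators can be checked on `Y` -/
theorem meas_of_fr {q : X → F →L[ℝ] F} (hq : AEMeasurable (fun y => q (P.fr y)) P.m)
    (h : ∀ x y, S.pt x = S.pt y → q y = C.Φ x y * q x * C.Φ y x) : AEMeasurable q S.μ := by
  obtain ⟨t, ht⟩ := P.lift hq.ae_eq_mk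
  have h1 := P.fr_meas.comp (P.N_meas t)
  refine ⟨fun x => C.Φ (P.fr (P.N t x)) x * hq.mk _ (P.N t x) * C.Φ x (P.fr (P.N t x)),
    ((C.meas_pair h1 measurable_id (P.pt_N t)).mul (hq.measurable_mk.comp (P.N_meas t))).mul
      (C.meas_pair measurable_id h1 fun x => (P.pt_N t x).symm), ht.mono fun x hx => ?_⟩
  dsimp only at hx ⊢
  rw [← hx, ← h _ _ (P.pt_N t x)]

theorem ae_reg (P : Prob S Y) : ∀ᵐ x ∂S.μ, Reg S.φ C.fl x := by
  haveI := P.mcs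
  haveI := P.inv
  obtain ⟨L, hL⟩ := C.fy_coc P
  refine (P.ae_of_fr (Q := Reg S.φ C.fl) ((P.gsys.ae_reg hL (fun n => C.fy_meas P n)
    (C.fy_smul P)).mono fun y hy => (C.reg_fy P y).1 hy)).mono fun x ⟨y, h1, h2⟩ => ?_
  exact (C.reg_pt h1).1 h2

theorem spec (P : Prob S Y) : ∃ Λ : Finset ℝ, ∀ᵐ x ∂S.μ, ∀ a, a ∉ Λ → prj S.φ C.fl x a = 0 := by
  haveI := P.mcs
  haveI := P.inv
  haveI := P.gsys.finite
  obtain ⟨L, hL⟩ := C.fy_coc P
  obtain ⟨k, h1, h2⟩ := mlt_const (X := Iv Γ Y) P.gsys.act P.gsys.mpI hL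
    (fun n => measurable_iv (C.fy_meas P n) (C.fy_smul P n)) P.ferg
  refine ⟨h1.toFinset, (P.ae_of_fr (Q := fun x => ∀ a, a ∉ h1.toFinset → prj S.φ C.fl x a = 0)
    (((ae_muI P.fund).1 h2).mono fun y hy a ha => ?_)).mono fun x ⟨y, h3, h4⟩ a ha => ?_⟩
  · rw [← prj_fy, ← mlt_eq_zero]
    exact (congrFun hy a).trans (by simpa using ha)
  · rw [C.prj_pt h3, h4 a ha, mul_zero, zero_mul]

theorem meas_prj (P : Prob S Y) (a : ℝ) : AEMeasurable (fun x => prj S.φ C.fl x a) S.μ := by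
  haveI := P.mcs
  haveI := P.inv
  obtain ⟨L, hL⟩ := C.fy_coc P
  refine C.meas_of_fr P ?_ fun x y h => C.prj_pt h a
  simpa only [prj_fy] using P.gsys.aemeasurable_prj hL (fun n => C.fy_meas P n) (C.fy_smul P) a

theorem meas_del (P : Prob S Y) : AEMeasurable (del S.φ C.fl) S.μ := by
  haveI := P.mcs
  haveI := P.inv
  obtain ⟨L, hL⟩ := C.fy_coc P
  refine C.meas_of_fr P ?_ fun x y h => C.del_pt h
  simpa only [← del_fy] using P.gsys.aemeasurable_del hL (fun n => C.fy_meas P n) (C.fy_smul P)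

/-- the Pesin property with the constant `n` -/
def Pes (ε : ℝ) (n : ℕ) (x : X) : Prop := Reg S.φ C.fl x ∧ ∀ a s t : ℝ,
  ‖C.fl t x * prj S.φ C.fl x a * C.fl (-s) (S.φ s x)‖
    ≤ n * Real.exp ((t - s) * a + ε * (|s| + |t|))

theorem port_pes {ε : ℝ} (hε : 0 < ε) : S.Port (C.Pes ε) := by
  refine ⟨fun n g x h => ⟨(C.reg_smul g x).2 h.1, fun a s t => ?_⟩,
    fun n n' x e h => ⟨h.1, fun a s t => (h.2 a s t).trans (by gcongr)⟩, fun D n => ?_⟩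
  · rw [S.φ_smul, fl_smul, fl_smul, prj_smul]
    exact h.2 a s t
  obtain ⟨c, hc⟩ := S.lv_le_dist D
  obtain ⟨K, hK, h⟩ := C.cmpr_pt c
  refine ⟨⌈K * n⌉₊, fun x y e d r => ⟨(C.reg_pt e).1 r.1, fun a s t => ?_⟩⟩
  rw [C.prj_pt e]
  refine (h x y e (hc x y e d) s t _).trans ((mul_le_mul_of_nonneg_left (r.2 a s t) hK).trans ?_)
  rw [← mul_assoc]
  exact mul_le_mul_of_nonneg_right (Nat.le_ceil _) (Real.exp_pos _).le

theorem tight_pes (P : Prob S Y) {ε : ℝ} (hε : 0 < ε) : S.Tight (C.Pes ε) := by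
  classical
  haveI := P.mcs
  haveI := P.inv
  obtain ⟨L, hL⟩ := C.fy_coc P
  obtain ⟨K, hK, h⟩ := C.cmpr_fy P
  obtain ⟨Λ, h1, -, -, h2, h3⟩ := P.gsys.pesin hL (fun n => C.fy_meas P n) (C.fy_smul P) hε
  have hp : ∀ y, ∃ k, y ∈ Λ k ∪ (⋃ j, Λ j)ᶜ := fun y => by
    by_cases hy : y ∈ ⋃ j, Λ j
    · exact (mem_iUnion.1 hy).imp fun k hk => Or.inl hk
    · exact ⟨0, Or.inr hy⟩
  refine P.tight (C.port_pes hε) (R := fun y => (fun k : ℕ => ⌈K * k⌉₊) (Nat.find (hp y)))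
    ((Measurable.of_discrete (f := fun k : ℕ => ⌈K * k⌉₊)).comp (measurable_find hp fun k =>
      (h1 k).union (MeasurableSet.iUnion h1).compl)).aemeasurable (h2.mono fun y hy => ?_)
  obtain ⟨r, hr⟩ := h3 _ y ((Nat.find_spec (hp y)).resolve_right fun e => e (mem_iUnion.2 hy))
  refine ⟨(C.reg_fy P y).1 r, fun a s t => (h y s t _).1.trans ?_⟩
  rw [← prj_fy]
  refine (mul_le_mul_of_nonneg_left (hr a s t) hK).trans ?_
  rw [← mul_assoc]
  exact mul_le_mul_of_nonneg_right (Nat.le_ceil _) (Real.exp_pos _).le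

/-- invariant measurable fields of subspaces are graded -/
theorem prj_mem (P : Prob S Y) {H : X → Submodule ℝ F} (hm : MSub S.μ H)
    (hp : ∀ᵐ x ∂S.μ, ∀ y, S.pt y = S.pt x → ∀ v ∈ H x, C.Φ x y v ∈ H y)
    (hs : ∀ (g : Γ) x, H (g • x) = H x) :
    ∀ᵐ x ∂S.μ, ∀ a, ∀ v ∈ H x, prj S.φ C.fl x a v ∈ H x := by
  haveI := P.mcs
  haveI := P.inv
  obtain ⟨L, hL⟩ := C.fy_coc P
  have hY : MSub P.m fun y => H (P.fr y) := by
    obtain ⟨A, hA, h⟩ := hm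
    exact ⟨fun y => A (P.fr y), hA.comp_quasiMeasurePreserving P.qmp, P.ae_fr _ h⟩
  have h1 := P.gsys.prj_mem hL (fun n => C.fy_meas P n) (C.fy_smul P)
    (hY.map (C.fy_meas P 0).aemeasurable)
    (fun g => Eventually.of_forall fun y => by rw [fy_smul, P.fr_smul, hs])
    (Eventually.of_forall fun y => by
      rintro _ ⟨v, -, rfl⟩
      exact DFunLike.congr_fun (hL.mul_zero P.gsys.act 0 y) v)
    fun n => (P.ae_fr _ hp).mono fun y hy => by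
      rintro _ ⟨v, hv, rfl⟩
      exact ⟨_, hy _ (P.fr_ψ n y).1 v hv, DFunLike.congr_fun
        ((hL.zero_mul n y).trans (hL.mul_zero P.gsys.act n y).symm) v⟩
  filter_upwards [P.ae_of_fr (Q := fun x => ∀ a, ∀ v ∈ H x, prj S.φ C.fl x a v ∈ H x) (by
    filter_upwards [h1, P.ae_fr _ hp] with y h2 h3 a v hv
    obtain ⟨w, hw, e⟩ := h2.1 a _ ⟨v, hv, rfl⟩
    rw [← prj_fy, ← prj_right, ContinuousLinearMap.mul_apply]
    refine (e ▸ ?_ : prj P.ψ (C.fy P) y a (C.fy P 0 y v) ∈ H (P.fr y))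
    change C.fy P 0 y w ∈ H (P.fr y)
    rw [fy, P.ψ_zero]
    exact h3 _ rfl w hw), Sys.ae_pt hp] with x ⟨y, h2, h3⟩ h4 a v hv
  rw [C.prj_pt h2]
  exact h4 y h2 x h2.symm _ (h3 a _ (h4 x rfl y h2 v hv))

theorem del_mem (P : Prob S Y) {H : X → Submodule ℝ F} (hm : MSub S.μ H)
    (hp : ∀ᵐ x ∂S.μ, ∀ y, S.pt y = S.pt x → ∀ v ∈ H x, C.Φ x y v ∈ H y)
    (hs : ∀ (g : Γ) x, H (g • x) = H x) :
    ∀ᵐ x ∂S.μ, ∀ v ∈ H x, del S.φ C.fl x v ∈ H x := by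
  filter_upwards [C.prj_mem P hm hp hs] with x hx v hv
  rw [del_eq (S := (prj_fin (φ := S.φ) (Φ := C.fl) x).toFinset) fun a ha => by simpa using ha,
    ContinuousLinearMap.sum_apply]
  exact Submodule.sum_mem _ fun a _ => Submodule.smul_mem _ _ (hx a v hv)

/-- invariant measurable sections have the exponent zero -/
theorem section_zero (P : Prob S Y) {s : X → F} (hm : AEStronglyMeasurable s S.μ)
    (hp : ∀ᵐ x ∂S.μ, ∀ y, S.pt y = S.pt x → C.Φ x y (s x) = s y)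
    (hs : ∀ (g : Γ) x, s (g • x) = s x) : ∀ᵐ x ∂S.μ, prj S.φ C.fl x 0 (s x) = s x := by
  obtain ⟨L, hL⟩ := C.fcoc
  filter_upwards [C.ae_reg P, hp, P.recur hm.norm.aemeasurable (fun g x => by rw [hs]) fun n => by
    obtain ⟨K, hK, h⟩ := C.bd_dist n
    refine ⟨K * n, hp.mono fun x hx y e d a => ?_⟩
    rw [← hx y e]
    exact (C.Φ x y).le_of_opNorm_le_of_le (h _ _ (dist_comm x y ▸ d) e.symm) a] with x r h1 h2
  rw [r.osel.eq_of_zero fun b hb => r.osel.section_zero hL (fun n => h1 _ (S.pt_φ _ _)) h2 hb,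
    fl_zero, h1 x rfl]

/-- measurable intertwiners respect the gradings -/
theorem inter (P : Prob S Y) (C' : Coc0 S G) {M : X → F →L[ℝ] G} (hm : AEMeasurable M S.μ)
    (hp : ∀ᵐ x ∂S.μ, ∀ y, S.pt y = S.pt x → M y ∘L C.Φ x y = C'.Φ x y ∘L M x)
    (hs : ∀ (g : Γ) x, M (g • x) = M x) :
    ∀ᵐ x ∂S.μ, ∀ a, M x ∘L prj S.φ C.fl x a = prj S.φ C'.fl x a ∘L M x := by
  obtain ⟨L, hL⟩ := C'.fcoc
  have c1 : ∀ x y z, S.pt x = S.pt y → S.pt x = S.pt z → ∀ v, C.Φ y z (C.Φ x y v) = C.Φ x z v :=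
    fun x y z a b v => DFunLike.congr_fun (C.coc x y z a b) v
  filter_upwards [C.ae_reg P, C'.ae_reg P, hp, P.recur (f := fun x => ‖M x ∘L C.Φ x x‖)
    (aem_comp hm (C.meas_pair measurable_id measurable_id fun _ => rfl).aemeasurable).norm
    (fun g x => by simp only [hs, C.smul g x x rfl]) fun n => by
      obtain ⟨K, hK, h⟩ := C.bd_dist n
      obtain ⟨K', hK', h'⟩ := C'.bd_dist n
      refine ⟨K' * (n * K), hp.mono fun x hx y e d a => ?_⟩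
      have k : M y ∘L C.Φ y y = C'.Φ x y ∘L (M x ∘L C.Φ x x) ∘L C.Φ y x :=
        ContinuousLinearMap.ext fun v => by
          have := DFunLike.congr_fun (hx y e) (C.Φ y x v)
          simp only [ContinuousLinearMap.comp_apply, c1 y x y e rfl, c1 y x x e e] at this ⊢
          exact this
      rw [k]
      exact (ContinuousLinearMap.opNorm_comp_le _ _).trans (mul_le_mul
        (h' _ _ (dist_comm x y ▸ d) e.symm) ((ContinuousLinearMap.opNorm_comp_le _ _).trans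
          (mul_le_mul a (h _ _ d e) (norm_nonneg _) (Nat.cast_nonneg n))) (norm_nonneg _) hK')]
    with x r r' h1 h2 a
  refine ContinuousLinearMap.ext fun v => ?_
  have k := r.osel.inter_eq S.fact hL r'.osel (A := fun x => M x ∘L C.Φ x x) (fun n v => by
    have := DFunLike.congr_fun (h1 _ (S.pt_φ n x)) (C.Φ x x v)
    simp only [ContinuousLinearMap.comp_apply, fl, c1 x x _ rfl (S.pt_φ n x).symm,
      c1 x _ _ (S.pt_φ n x).symm (S.pt_φ n x).symm] at this ⊢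
    exact this.symm) h2 a (v := C.Φ x x v) (by rw [fl_zero, c1 x x x rfl rfl])
  have k1 := DFunLike.congr_fun (h1 x rfl) v
  have k2 := DFunLike.congr_fun (prj_right (φ := S.φ) (Φ := C.fl) x a) v
  have k3 := DFunLike.congr_fun (prj_left (φ := S.φ) (Φ := C.fl) x a) v
  have k4 := DFunLike.congr_fun (prj_right (φ := S.φ) (Φ := C'.fl) x a) (M x v)
  simp only [ContinuousLinearMap.comp_apply, ContinuousLinearMap.mul_apply, fl_zero,
    c1 x x x rfl rfl] at k k1 k2 k3 k4 ⊢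
  rwa [k2, k3, k1, k4] at k

end Coc0

end Vale.Agent.P207Z
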