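import Vale.Agent.P207Z.GSA
import Vale.Agent.P207Z.ErgS

/-!
# P207: the flat annihilators of a continuous invariant section (block ANN)
-/

set_option linter.all false

open Set Filter Topology Metric MeasureTheory Asymptotics
open scoped ContDiff

noncomputable section

namespace Vale.Agent.P207Z

open Vale.Agent.P207.N3 (JC)

variable {Γ X B E V : Type} [Group Γ] [Countable Γ] [MetricSpace X] [ProperSpace X]
  [MulAction Γ X] [IsIsometricSMul Γ X] [MeasurableSpace X] [BorelSpace X]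
  [TopologicalSpace B] [CompactSpace B] [T2Space B] [SecondCountableTopology B] [MulAction Γ B]
  [ContinuousConstSMul Γ B] [MeasurableSpace B] [BorelSpace B]
  [NormedAddCommGroup E] [InnerProductSpace ℝ E] [FiniteDimensional ℝ E]
  [NormedAddCommGroup V] [NormedSpace ℝ V] [FiniteDimensional ℝ V]
  {F G W : Type} [NormedAddCommGroup F] [NormedSpace ℝ F] [FiniteDimensional ℝ F]
  [NormedAddCommGroup G] [NormedSpace ℝ G] [FiniteDimensional ℝ G]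
  [NormedAddCommGroup W] [NormedSpace ℝ W]

variable {S : Sys Γ X B E V} {Y : Type} [MeasurableSpace Y] [MulAction Γ Y] {𝔉 : Bun S F}

/-- a continuous invariant section -/
structure CSec (𝔉 : Bun S F) where
  e : X → V → F
  cont : ContinuousOn (fun p : X × V => e p.1 p.2) (univ ×ˢ ball 0 1)
  smul : ∀ (g : Γ) x, ∀ q ∈ ball (0 : V) 1, e (g • x) q = e x q
  eqv : ∀ x y, ∀ q ∈ S.dom x y, e y (S.τ x y q) = 𝔉.A x y q (e x q)

def Sec.c (s : Sec 𝔉) : CSec 𝔉 := ⟨s.e, s.cont, s.smul, s.eqv⟩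

def CSec.rev (s : CSec 𝔉) : CSec 𝔉.rev :=
  ⟨s.e, s.cont, s.smul, fun x y q h => by
    rw [Sys.rev_τ]
    exact s.eqv x y q (by rwa [Sys.rev_dom] at h)⟩

namespace AnnAx

omit [FiniteDimensional ℝ V] in
theorem poly_add {K : ℕ} (a b : Jet K V W) : poly (a + b) = fun q => poly a q + poly b q :=
  funext fun q => by simp only [← polyL_apply, map_add]

omit [FiniteDimensional ℝ V] in
theorem poly_smul {K : ℕ} (c : ℝ) (a : Jet K V W) : poly (c • a) = fun q => c • poly a q :=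
  funext fun q => by simp only [← polyL_apply, map_smul]

/-- the holonomic jets -/
def hol (K : ℕ) (V W : Type) [NormedAddCommGroup V] [NormedSpace ℝ V] [NormedAddCommGroup W]
    [NormedSpace ℝ W] : Submodule ℝ (Jet K V W) where
  carrier := {a | jet K (poly a) 0 = a}
  add_mem' := fun {a b} ha hb => by
    change jet K (poly (a + b)) 0 = a + b
    rw [poly_add, jet_add (contDiffAt_poly _ _ _) (contDiffAt_poly _ _ _), ha, hb]
  zero_mem' := by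
    have := jet_smul (k := K) 0 (contDiffAt_poly (0 : Jet K V W) K 0)
    rwa [← poly_smul, zero_smul, zero_smul] at this
  smul_mem' := fun c a ha => by
    change jet K (poly (c • a)) 0 = c • a
    rw [poly_smul, jet_smul _ (contDiffAt_poly _ _ _), ha]

theorem ckB_poly (K j : ℕ) (C : ℝ) : ∃ n, ∀ a : Jet K V W, ‖a‖ ≤ C → CkB j n (poly a) := by
  choose D D0 hD using fun i => poly_bound (V := V) (W := W) K i
  obtain ⟨n, -, hn⟩ := CalcAux.exists_bd (fun i => D i * C) j 0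
  refine ⟨n, fun a ha => ⟨fun q _ => (contDiffAt_poly a j q).contDiffWithinAt, fun i hi q hq => ?_⟩⟩
  exact ((hD i a q (ball_subset_closedBall (ball_subset_ball (rad_le_one n) hq))).trans
    (mul_le_mul_of_nonneg_left ha (D0 i))).trans (hn i hi)

theorem half {q : V} (hq : ‖q‖ ≤ 1 / 2) : q ∈ ball (0 : V) 1 :=
  mem_ball_zero_iff.2 (hq.trans_lt one_half_lt_one)

theorem rank_le {H H' : Submodule ℝ G} (A B : G →L[ℝ] G) (h : ∀ a ∈ H, A a ∈ H')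
    (h' : ∀ a ∈ H, B (A a) = a) : Module.finrank ℝ H ≤ Module.finrank ℝ H' :=
  LinearMap.finrank_le_finrank_of_injective (f := A.toLinearMap.restrict h) fun a b e =>
    Subtype.ext <| (h' _ a.2).symm.trans ((congrArg (fun u => B u.1) e).trans (h' _ b.2))

/-- a dense sequence -/
def sq (V : Type) [NormedAddCommGroup V] [NormedSpace ℝ V] [FiniteDimensional ℝ V] :
    ℕ → closedBall (0 : V) (1 / 2) × Ioi (0 : ℝ) :=
  haveI : Nonempty (closedBall (0 : V) (1 / 2)) := ⟨⟨0, mem_closedBall_self one_half_pos.le⟩⟩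
  TopologicalSpace.denseSeq _

theorem dense_sq : DenseRange (sq V) :=
  haveI : Nonempty (closedBall (0 : V) (1 / 2)) := ⟨⟨0, mem_closedBall_self one_half_pos.le⟩⟩
  TopologicalSpace.denseRange_denseSeq _

end AnnAx

open AnnAx

namespace CSec

variable (s : CSec 𝔉)

/-! ### ANN -/

/-- the jets of order `K` which annihilate the section to the order `K + 1` -/
def Ann (K : ℕ) (x : X) : Submodule ℝ (Jet K V (F →L[ℝ] ℝ)) where
  carrier := {a | jet K (poly a) 0 = a ∧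
    ∃ C : ℝ, ∀ q : V, ‖q‖ ≤ 1 / 2 → |poly a q (s.e x q)| ≤ C * ‖q‖ ^ (K + 1)}
  add_mem' := by
    rintro a b ⟨ha, C, hC⟩ ⟨hb, D, hD⟩
    refine ⟨(hol K V _).add_mem ha hb, C + D, fun q hq => ?_⟩
    rw [poly_add, ContinuousLinearMap.add_apply, add_mul]
    exact (abs_add_le _ _).trans (add_le_add (hC q hq) (hD q hq))
  zero_mem' := ⟨(hol K V _).zero_mem, 0, fun q _ => by simp [← polyL_apply]⟩
  smul_mem' := by
    rintro c a ⟨ha, C, hC⟩
    refine ⟨(hol K V _).smul_mem c ha, |c| * C, fun q hq => ?_⟩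
    rw [poly_smul, ContinuousLinearMap.smul_apply, smul_eq_mul, abs_mul, mul_assoc]
    exact mul_le_mul_of_nonneg_left (hC q hq) (abs_nonneg c)

/-- the constant of the annihilation -/
def AnnB (K n : ℕ) (x : X) : Prop :=
  ∀ a ∈ s.Ann K x, ∀ q : V, ‖q‖ ≤ 1 / 2 → |poly a q (s.e x q)| ≤ n * ‖a‖ * ‖q‖ ^ (K + 1)

theorem bdd : ∃ C : ℝ, 0 ≤ C ∧ ∀ x, ∀ q : V, ‖q‖ ≤ 1 / 2 → ‖s.e x q‖ ≤ C :=
  S.unif_cont s.cont s.smul one_half_lt_one
theorem ann_smul (K : ℕ) (g : Γ) (x : X) : s.Ann K (g • x) = s.Ann K x :=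
  Submodule.ext fun a => and_congr_right fun _ => exists_congr fun C => forall₂_congr fun q hq => by
    rw [s.smul g x q (half hq)]
/-- from a small ball to the ball of radius one half -/
theorem ext_bd (K : ℕ) {δ : ℝ} (hδ : 0 < δ) : ∃ D : ℝ, 0 ≤ D ∧
    ∀ x (a : Jet K V (F →L[ℝ] ℝ)) (C : ℝ), 0 ≤ C →
      (∀ q : V, ‖q‖ < δ → ‖q‖ ≤ 1 / 2 → |poly a q (s.e x q)| ≤ C * ‖q‖ ^ (K + 1)) →
      ∀ q : V, ‖q‖ ≤ 1 / 2 → |poly a q (s.e x q)| ≤ (C + D * ‖a‖) * ‖q‖ ^ (K + 1) := by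
  obtain ⟨Ce, e0, he⟩ := s.bdd
  obtain ⟨Cp, p0, hp⟩ := poly_bound (V := V) (W := F →L[ℝ] ℝ) K 0
  refine ⟨Cp * Ce / δ ^ (K + 1), by positivity, fun x a C hC h q hq => ?_⟩
  rw [add_mul]
  rcases lt_or_ge ‖q‖ δ with h1 | h1
  · exact (h q h1 hq).trans (le_add_of_nonneg_right (by positivity))
  · have h2 := hp a q (ball_subset_closedBall (half hq))
    rw [norm_iteratedFDeriv_zero] at h2
    refine le_add_of_nonneg_of_le (by positivity) (((poly a q).le_opNorm _).trans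
      ((mul_le_mul h2 (he x q hq) (norm_nonneg _) (by positivity)).trans ?_))
    calc _ = Cp * Ce / δ ^ (K + 1) * ‖a‖ * δ ^ (K + 1) := by field_simp
      _ ≤ _ := by gcongr
/-- the jet of a section which annihilates near the origin -/
theorem jet_bd (K n : ℕ) {δ : ℝ} (hδ : 0 < δ) : ∃ D : ℝ, 0 ≤ D ∧
    ∀ x (σ : V → F →L[ℝ] ℝ) (C : ℝ), 0 ≤ C → CkB (K + 1) n σ →
      (∀ q : V, ‖q‖ < δ → |σ q (s.e x q)| ≤ C * ‖q‖ ^ (K + 1)) →
      ∀ q : V, ‖q‖ ≤ 1 / 2 → |poly (jet K σ 0) q (s.e x q)| ≤ (C + D) * ‖q‖ ^ (K + 1) := by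
  obtain ⟨Ce, e0, he⟩ := s.bdd
  obtain ⟨D, D0, hD⟩ := s.ext_bd K (lt_min hδ (rad_pos n))
  refine ⟨n * Ce + D * n, by positivity, fun x σ C hC hσ h q hq => ?_⟩
  refine (hD x _ (C + n * Ce) (by positivity) (fun q h1 hq => ?_) q hq).trans ?_
  · have h2 := taylor_bound hσ.smooth (hσ.bd _ le_rfl)
      (mem_ball_zero_iff.2 (h1.trans_le (min_le_right _ _)))
    rw [sub_zero] at h2
    rw [← sub_sub_cancel (σ q) (poly _ q), ContinuousLinearMap.sub_apply, add_mul, mul_right_comm]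
    exact (abs_sub _ _).trans (add_le_add (h q (h1.trans_le (min_le_left _ _)))
      ((ContinuousLinearMap.le_opNorm _ _).trans
        (mul_le_mul h2 (he x q hq) (norm_nonneg _) (by positivity))))
  · rw [add_assoc]
    gcongr
    exact norm_jet_le n.cast_nonneg fun i hi =>
      hσ.bd i (hi.trans K.le_succ) 0 (mem_ball_self (rad_pos n))
theorem jet_mem_ann {K : ℕ} {x : X} {σ : V → F →L[ℝ] ℝ} (hσ : ContDiffAt ℝ (K + 1 : ℕ) σ 0) {C : ℝ}
    (h : ∀ᶠ q in 𝓝 (0 : V), |σ q (s.e x q)| ≤ C * ‖q‖ ^ (K + 1)) : jet K σ 0 ∈ s.Ann K x := by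
  obtain ⟨n, hn⟩ := CkB.of_contDiffAt hσ
  obtain ⟨δ, hδ, h1⟩ := Metric.eventually_nhds_iff_ball.1 h
  obtain ⟨D, -, hD⟩ := s.jet_bd K n hδ
  exact ⟨jet_poly_jet (hσ.of_le (CalcAux.cast_le K.le_succ)), _, hD x σ |C| (abs_nonneg C) hn
    fun q hq => (h1 q (mem_ball_zero_iff.2 hq)).trans (by gcongr; exact le_abs_self C)⟩
/-- the transport of an annihilator, with constants -/
theorem move_bd (K : ℕ) (D : ℝ) {C : ℝ} (hC : 0 ≤ C) : ∃ C' : ℝ, ∀ x y, S.pt x = S.pt y →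
    dist x y ≤ D → ∀ a : Jet K V (F →L[ℝ] ℝ), ‖a‖ ≤ C →
      (∀ q : V, ‖q‖ ≤ 1 / 2 → |poly a q (s.e x q)| ≤ C * ‖q‖ ^ (K + 1)) →
      ∀ q : V, ‖q‖ ≤ 1 / 2 → |poly ((𝔉.jetC K).Φ x y a) q (s.e y q)| ≤ C' * ‖q‖ ^ (K + 1) := by
  obtain ⟨n₁, h₁⟩ := ckB_poly (V := V) (W := F →L[ℝ] ℝ) K (K + 1) C
  obtain ⟨n₂, -, h₂⟩ := 𝔉.ckB_pull (G := ℝ) D (K + 1) n₁
  obtain ⟨n₃, h₃⟩ := S.unif_ckB Sys.jc_τ (fun g x y q hq => Sys.τ_smul g hq) D 1
  obtain ⟨D', -, hD⟩ := s.jet_bd K n₂ (rad_pos (2 * n₃ + 1))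
  refine ⟨C * n₃ ^ (K + 1) + D', fun x y h hd a ha hb => ?_⟩
  rw [𝔉.jetC_apply K h]
  refine hD y _ _ (by positivity) (h₂ x y h hd _ (h₁ a ha)) fun q hq => ?_
  obtain ⟨h4, h5⟩ := h₃ y x (dist_comm x y ▸ hd) h.symm
  have hq' : q ∈ ball (0 : V) (rad n₃) := mem_ball_zero_iff.2 (hq.trans_le (rad_anti (by omega)))
  have h6 : ‖S.τ y x q‖ ≤ n₃ * ‖q‖ := by
    simpa only [Sys.τ_zero h.symm, sub_zero] using CalcAux.lip_zero h5 hq'
  have h7 : ‖S.τ y x q‖ ≤ 1 / 2 := by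
    have h8 := (lt_div_iff₀ (by positivity)).1 (hq.trans_eq (one_div _).symm)
    push_cast at h8
    nlinarith [norm_nonneg q]
  rw [Bun.pull, ContinuousLinearMap.comp_apply, ← s.eqv y x q (h4 hq'), mul_assoc, ← mul_pow]
  refine (hb _ h7).trans ?_
  gcongr
theorem ann_eqv (K : ℕ) {x y : X} (h : S.pt x = S.pt y) {a} (ha : a ∈ s.Ann K x) :
    (𝔉.jetC K).Φ x y a ∈ s.Ann K y := by
  obtain ⟨C, hC⟩ := ha.2
  obtain ⟨C', h'⟩ := s.move_bd K (dist x y) (le_max_of_le_left (norm_nonneg a) : 0 ≤ max ‖a‖ C)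
  refine ⟨?_, C', h' x y h le_rfl a (le_max_left _ _) fun q hq =>
    (hC q hq).trans (by gcongr; exact le_max_right _ _)⟩
  rw [← 𝔉.jetC_self]
  exact DFunLike.congr_fun ((𝔉.jetC K).coc x y y h h) a
theorem ann_self {K : ℕ} {x : X} {a} (ha : a ∈ s.Ann K x) : (𝔉.jetC K).Φ x x a = a :=
  (𝔉.jetC_self K x a).trans ha.1
theorem ann_back {K : ℕ} {x y : X} (h : S.pt x = S.pt y) {a} (ha : a ∈ s.Ann K x) :
    (𝔉.jetC K).Φ y x ((𝔉.jetC K).Φ x y a) = a :=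
  (DFunLike.congr_fun ((𝔉.jetC K).coc x y x h rfl) a).trans (s.ann_self ha)
theorem trunc_mem_ann {k K : ℕ} (hk : k ≤ K) {x : X} {a} (ha : a ∈ s.Ann K x) :
    trunc hk a ∈ s.Ann k x := by
  obtain ⟨h1, C, hC⟩ := ha
  rw [← h1, trunc_jet]
  refine s.jet_mem_ann (contDiffAt_poly _ _ _) (C := |C|) ?_
  filter_upwards [closedBall_mem_nhds (0 : V) one_half_pos] with q hq
  rw [mem_closedBall_zero_iff] at hq
  exact (hC q hq).trans (mul_le_mul (le_abs_self C) (pow_le_pow_of_le_one (norm_nonneg _)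
    (hq.trans one_half_lt_one.le) (Nat.succ_le_succ hk)) (by positivity) (abs_nonneg C))
theorem ann_val {K : ℕ} {x : X} {a} (ha : a ∈ s.Ann K x) : poly a 0 (s.e x 0) = 0 := by
  obtain ⟨C, hC⟩ := ha.2
  simpa using hC 0 (by simp)
/-- countably many seminorms -/
def sn (K j : ℕ) (x : X) : Seminorm ℝ (Jet K V (F →L[ℝ] ℝ)) :=
  (normSeminorm ℝ ℝ).comp ((‖(sq V j).1.1‖ ^ (K + 1) + (sq V j).2.1)⁻¹ •
    (ContinuousLinearMap.apply ℝ ℝ (s.e x (sq V j).1) ∘L polyL K V _ (sq V j).1)).toLinearMap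
theorem sn_apply (K j : ℕ) (x : X) (a) : s.sn K j x a =
    |(‖(sq V j).1.1‖ ^ (K + 1) + (sq V j).2.1)⁻¹ * poly a (sq V j).1 (s.e x (sq V j).1)| := by
  rw [← polyL_apply]
  rfl
theorem meas_sn (K j : ℕ) (a) : Measurable fun x => s.sn K j x a := by
  simp only [sn_apply]
  have : Continuous fun x => s.e x (sq V j).1 := s.cont.comp_continuous
    (f := fun x : X => (x, (sq V j).1.1)) (by fun_prop)
    fun x => ⟨trivial, half (mem_closedBall_zero_iff.1 (sq V j).1.2)⟩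
  exact Continuous.measurable (by fun_prop)
theorem sn_le_iff {K : ℕ} {x : X} {a} {C : ℝ} (hC : 0 ≤ C) : (∀ j, s.sn K j x a ≤ C) ↔
    ∀ q : V, ‖q‖ ≤ 1 / 2 → |poly a q (s.e x q)| ≤ C * ‖q‖ ^ (K + 1) := by
  have e : ∀ j, s.sn K j x a ≤ C ↔ |poly a (sq V j).1 (s.e x (sq V j).1)| ≤
      C * (‖(sq V j).1.1‖ ^ (K + 1) + (sq V j).2.1) := fun j => by
    have h0 : 0 < ‖(sq V j).1.1‖ ^ (K + 1) + (sq V j).2.1 :=
      add_pos_of_nonneg_of_pos (by positivity) (sq V j).2.2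
    rw [sn_apply, abs_mul, abs_of_pos (inv_pos.2 h0), inv_mul_le_iff₀ h0, mul_comm]
  simp only [e]
  refine ⟨fun h q hq => ?_, fun h j => (h _ (mem_closedBall_zero_iff.1 (sq V j).1.2)).trans
    (mul_le_mul_of_nonneg_left (le_add_of_nonneg_right (le_of_lt (sq V j).2.2)) hC)⟩
  have h1 : Continuous fun p : closedBall (0 : V) (1 / 2) × Ioi (0 : ℝ) => s.e x p.1 :=
    s.cont.comp_continuous (f := fun p : closedBall (0 : V) (1 / 2) × Ioi (0 : ℝ) => (x, p.1.1))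
      (by fun_prop) fun p => ⟨trivial, half (mem_closedBall_zero_iff.1 p.1.2)⟩
  have h2 := (contDiff_poly a).continuous
  have h3 : ∀ p : closedBall (0 : V) (1 / 2) × Ioi (0 : ℝ),
      |poly a p.1 (s.e x p.1)| ≤ C * (‖p.1.1‖ ^ (K + 1) + p.2.1) := fun p =>
    dense_sq.induction_on p (isClosed_le (by fun_prop) (by fun_prop)) h
  refine le_of_forall_pos_le_add fun ε hε => ?_
  refine (h3 (⟨q, mem_closedBall_zero_iff.2 hq⟩, ⟨ε / (C + 1), by
    change 0 < ε / (C + 1); positivity⟩)).trans ?_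
  rw [mul_add, ← mul_div_assoc]
  exact add_le_add_right ((div_le_iff₀ (by positivity)).2 (by linarith)) _
theorem ann_eq (K : ℕ) (x : X) : s.Ann K x = hol K V _ ⊓ MET.bddSub fun j => s.sn K j x :=
  Submodule.ext fun a => and_congr_right fun _ =>
    ⟨fun ⟨C, h⟩ => ⟨|C|, (s.sn_le_iff (abs_nonneg C)).2 fun q hq =>
      (h q hq).trans (by gcongr; exact le_abs_self C)⟩,
    fun ⟨C, h⟩ => ⟨C, (s.sn_le_iff ((apply_nonneg _ _).trans (h 0))).1 h⟩⟩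
theorem msub_ann (K : ℕ) : MET.MSub S.μ (s.Ann K) :=
  ((MET.msub_const _).inf (MET.msub_bddSub (s.meas_sn K))).congr
    (Eventually.of_forall fun x => (s.ann_eq K x).symm)
theorem port_annB (K : ℕ) : S.Port (s.AnnB K) := by
  refine ⟨fun n g x h a ha q hq => ?_, fun n n' x hn h a ha q hq => (h a ha q hq).trans ?_,
    fun D n => ?_⟩
  · rw [s.smul g x q (half hq)]
    exact h a (s.ann_smul K g x ▸ ha) q hq
  · gcongr
  obtain ⟨C, C0, hC⟩ := S.unif_pair (𝔉.jetC K).cont (𝔉.jetC K).smul D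
  obtain ⟨C', h'⟩ := s.move_bd K D (show 0 ≤ (n + 1) * C by positivity)
  refine ⟨⌈C'⌉₊, fun x y h hd hx b hb q hq => ?_⟩
  rcases eq_or_ne b 0 with rfl | h0
  · simp [← polyL_apply]
  have hn := norm_pos_iff.2 h0
  have hb' := (s.Ann K y).smul_mem ‖b‖⁻¹ hb
  have h1 : ‖(𝔉.jetC K).Φ y x (‖b‖⁻¹ • b)‖ ≤ C := by
    refine (ContinuousLinearMap.le_of_opNorm_le _ (hC y x (dist_comm x y ▸ hd) h.symm) _).trans ?_
    rw [norm_smul, norm_inv, norm_norm, inv_mul_cancel₀ hn.ne', mul_one]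
  have h2 := h' x y h hd _ (h1.trans (by nlinarith [n.cast_nonneg (α := ℝ)])) (fun q hq =>
    (hx _ (s.ann_eqv K h.symm hb') q hq).trans (by gcongr; linarith)) q hq
  rw [s.ann_back h.symm hb', poly_smul, ContinuousLinearMap.smul_apply, smul_eq_mul, abs_mul,
    abs_of_pos (inv_pos.2 hn), inv_mul_le_iff₀ hn, ← mul_assoc, mul_comm ‖b‖] at h2
  refine h2.trans ?_
  gcongr
  exact Nat.le_ceil _
theorem tight_annB (K : ℕ) : S.Tight (s.AnnB K) := by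
  obtain ⟨-, -, C, -, hC, -, -, -, h⟩ := MET.msub_bdd (s.meas_sn K)
  refine (Sys.tight_le hC.aemeasurable).imp fun n => ⟨n, Eventually.of_forall fun x hx a ha => ?_⟩
  refine (s.sn_le_iff (by positivity)).1 fun j => ((h x).2 a (s.ann_eq K x ▸ ha).2 j).trans ?_
  gcongr

/-- the jets of order `k` of the annihilators of all orders -/
def 𝒜 (k : ℕ) (x : X) : Submodule ℝ (Jet k V (F →L[ℝ] ℝ)) :=
  ⨅ (K : ℕ) (h : k ≤ K), (s.Ann K x).map (trunc h : Jet K V (F →L[ℝ] ℝ) →L[ℝ] _).toLinearMap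

theorem 𝒜_smul (k : ℕ) (g : Γ) (x : X) : s.𝒜 k (g • x) = s.𝒜 k x := by
  simp only [𝒜, ann_smul]
theorem mem_𝒜 {k : ℕ} {x : X} {a} :
    a ∈ s.𝒜 k x ↔ ∀ (K : ℕ) (h : k ≤ K), ∃ b ∈ s.Ann K x, trunc h b = a := by
  simp only [𝒜, Submodule.mem_iInf]
  rfl
theorem 𝒜_le (k : ℕ) (x : X) : s.𝒜 k x ≤ s.Ann k x := fun a ha => by
  obtain ⟨b, hb, rfl⟩ := s.mem_𝒜.1 ha k le_rfl
  exact hb
theorem map_eqv {k K : ℕ} (hk : k ≤ K) {x y : X} (h : S.pt x = S.pt y) {a}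
    (ha : ∃ b ∈ s.Ann K x, trunc hk b = a) : ∃ b ∈ s.Ann K y, trunc hk b = (𝔉.jetC k).Φ x y a := by
  obtain ⟨b, hb, rfl⟩ := ha
  exact ⟨_, s.ann_eqv K h hb, (𝔉.gsys ℝ).trunc_coc0 hk h b⟩
theorem 𝒜_eqv (k : ℕ) {x y : X} (h : S.pt x = S.pt y) {a} (ha : a ∈ s.𝒜 k x) :
    (𝔉.jetC k).Φ x y a ∈ s.𝒜 k y :=
  s.mem_𝒜.2 fun K hk => s.map_eqv hk h (s.mem_𝒜.1 ha K hk)
theorem rank_of (P : Prob S Y) {k : ℕ} {H : X → Submodule ℝ (Jet k V (F →L[ℝ] ℝ))}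
    (hm : MET.MSub S.μ H) (hle : ∀ x, H x ≤ s.Ann k x)
    (he : ∀ x y, S.pt x = S.pt y → ∀ a ∈ H x, (𝔉.jetC k).Φ x y a ∈ H y)
    (hs : ∀ (g : Γ) x, H (g • x) = H x) : ∃ d, ∀ᵐ x ∂S.μ, Module.finrank ℝ (H x) = d := by
  have key : ∀ x y, S.pt x = S.pt y → Module.finrank ℝ (H x) ≤ Module.finrank ℝ (H y) :=
    fun x y h => rank_le _ _ (he x y h) fun a ha => s.ann_back h (hle x ha)
  exact P.rank hm (Eventually.of_forall fun x y h => (key y x h).antisymm (key x y h.symm)) hs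
theorem map_anti {k K K' : ℕ} (h : k ≤ K) (h' : K ≤ K') (x : X) :
    (s.Ann K' x).map (trunc (h.trans h') : Jet K' V (F →L[ℝ] ℝ) →L[ℝ] _).toLinearMap ≤
      (s.Ann K x).map (trunc h : Jet K V (F →L[ℝ] ℝ) →L[ℝ] _).toLinearMap := by
  rintro _ ⟨b, hb, rfl⟩
  exact ⟨_, s.trunc_mem_ann h' hb, trunc_trunc h h' b⟩
theorem stab (P : Prob S Y) (k : ℕ) : ∃ K₀ ≥ k, ∀ᵐ x ∂S.μ, ∀ K ≥ K₀, ∀ h : k ≤ K,
    s.𝒜 k x = (s.Ann K x).map (trunc h : Jet K V (F →L[ℝ] ℝ) →L[ℝ] _).toLinearMap := by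
  choose d hd using fun K : {K // k ≤ K} => s.rank_of P
    (H := fun x => (s.Ann K x).map (trunc K.2 : Jet K V (F →L[ℝ] ℝ) →L[ℝ] _).toLinearMap)
    ((s.msub_ann K).map (B := fun _ => trunc K.2) aemeasurable_const)
    (by rintro x _ ⟨b, hb, rfl⟩; exact s.trunc_mem_ann K.2 hb)
    (fun x y h a ha => s.map_eqv K.2 h ha) fun g x => by rw [ann_smul]
  haveI : Nonempty {K // k ≤ K} := ⟨⟨k, le_rfl⟩⟩
  obtain ⟨⟨K₀, h₀⟩, hK⟩ : ∃ K₀, ∀ K, d K₀ ≤ d K := ⟨Function.argmin d, fun K => d.argmin_le K⟩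
  refine ⟨K₀, h₀, (ae_all_iff.2 hd).mono fun x hx K h1 h => ?_⟩
  have key : ∀ K (h1 : K₀ ≤ K), (s.Ann K x).map
      (trunc (h₀.trans h1) : Jet K V (F →L[ℝ] ℝ) →L[ℝ] _).toLinearMap =
      (s.Ann K₀ x).map (trunc h₀ : Jet K₀ V (F →L[ℝ] ℝ) →L[ℝ] _).toLinearMap := fun K h1 =>
    Submodule.eq_of_le_of_finrank_le (s.map_anti h₀ h1 x)
      ((hx ⟨K₀, h₀⟩).trans_le ((hK _).trans_eq (hx ⟨K, h₀.trans h1⟩).symm))
  refine le_antisymm (iInf₂_le K h) (le_iInf₂ fun K' h' => (key K h1).trans_le ?_)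
  rcases le_total K' K₀ with h2 | h2
  · exact s.map_anti h' h2 x
  · exact (key K' h2).ge
theorem msub_𝒜 (P : Prob S Y) (k : ℕ) : MET.MSub S.μ (s.𝒜 k) := by
  obtain ⟨K, h, hK⟩ := s.stab P k
  exact ((s.msub_ann K).map (B := fun _ => trunc h) aemeasurable_const).congr
    (hK.mono fun x hx => (hx K le_rfl h).symm)
theorem rank_𝒜 (P : Prob S Y) (k : ℕ) : ∃ d, ∀ᵐ x ∂S.μ, Module.finrank ℝ (s.𝒜 k x) = d :=
  s.rank_of P (s.msub_𝒜 P k) (s.𝒜_le k) (fun _ _ h _ ha => s.𝒜_eqv k h ha) (s.𝒜_smul k)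
theorem trunc_𝒜 (P : Prob S Y) {k k' : ℕ} (h : k ≤ k') : ∀ᵐ x ∂S.μ,
    s.𝒜 k x = (s.𝒜 k' x).map (trunc h : Jet k' V (F →L[ℝ] ℝ) →L[ℝ] _).toLinearMap := by
  obtain ⟨K, h1, hK⟩ := s.stab P k
  obtain ⟨K', h2, hK'⟩ := s.stab P k'
  filter_upwards [hK, hK'] with x hx hx'
  rw [hx _ (le_max_left K K') (le_max_of_le_left h1),
    hx' _ (le_max_right K K') (le_max_of_le_right h2), ← Submodule.map_comp]
  rfl
/-- lifts of slow growth; the rate `w` does not depend on `K` -/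
theorem slow (P : Prob S Y) (k : ℕ) : ∃ w : ℝ, ∀ (K : ℕ) (h : k ≤ K), S.Tight fun n x =>
    ∀ a ∈ s.𝒜 k x, ∃ b ∈ s.Ann K x, trunc h b = a ∧
      ∀ t : ℝ, ‖(𝔉.jetC K).fl t x b‖ ≤ n * ‖a‖ * Real.exp (w * |t|) := by
  classical
  obtain ⟨L, hL⟩ := (𝔉.jetC k).fcoc
  refine ⟨L + 1, fun K h => ?_⟩
  obtain ⟨Λ, hΛ⟩ := (𝔉.jetC K).spec P
  refine (Sys.tight_lift (s.msub_ann K) (M := fun _ => trunc h) aemeasurable_const).imp₂
    ((𝔉.jetC K).tight_pes P one_pos) fun n n' => ⟨Λ.card * n' * n, ?_⟩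
  filter_upwards [hΛ, (𝔉.jetC k).ae_reg P, (𝔉.jetC K).prj_mem P (s.msub_ann K)
    (Eventually.of_forall fun x y e v hv => s.ann_eqv K e.symm hv) (s.ann_smul K),
    (𝔉.jetC K).inter P (𝔉.jetC k) (M := fun _ => trunc h) aemeasurable_const
      (Eventually.of_forall fun x y e => ContinuousLinearMap.ext fun v =>
        (𝔉.gsys ℝ).trunc_coc0 h e.symm v) fun _ _ => rfl] with x h1 h2 h3 h4 h5 h6 a ha
  obtain ⟨v, hv, rfl⟩ := s.mem_𝒜.1 ha K h
  obtain ⟨b, hb, e, hn⟩ := h5 v hv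
  refine ⟨∑ c ∈ Λ.filter fun c => |c| ≤ L, MET.prj S.φ (𝔉.jetC K).fl x c b,
    Submodule.sum_mem _ fun c _ => h3 c b hb, ?_, fun t => ?_⟩
  · have h7 := h6.1.osel.sum_apply (S := Λ) (fun c hc => by_contra fun h' => hc (h1 c h')) b
    rw [Coc0.fl, S.φ_zero, s.ann_self hb] at h7
    rw [map_sum, Finset.sum_filter_of_ne, ← map_sum, h7, e]
    intro c _ hc
    refine h2.osel.abs_le hL fun h0 => hc ?_
    exact (DFunLike.congr_fun (h4 c) b).trans (by rw [h0]; rfl)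
  · rw [map_sum]
    refine (norm_sum_le_of_le _ (n := fun _ => n' * Real.exp ((L + 1) * |t|) * (n * ‖trunc h v‖))
      fun c hc => ?_).trans ?_
    · have h7 := h6.2 c 0 t
      rw [neg_zero, S.φ_zero, mul_assoc, MET.prj_right] at h7
      refine (ContinuousLinearMap.le_of_opNorm_le _ h7 b).trans ?_
      gcongr
      have := (Finset.mem_filter.1 hc).2
      rw [sub_zero, abs_zero, zero_add, add_mul]
      exact add_le_add_left ((le_abs_self _).trans (by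
        rw [abs_mul, mul_comm]; gcongr)) _
    · rw [Finset.sum_const, nsmul_eq_mul]
      push_cast
      calc _ ≤ (Λ.card : ℝ) * (n' * Real.exp ((L + 1) * |t|) * (n * ‖trunc h v‖)) := by
            gcongr
            exact Finset.filter_subset _ _
        _ = _ := by ring

end CSec

end Vale.Agent.P207Z
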