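import Vale.Agent.P207Z.AnnA
import Vale.Agent.P207Z.AnnD.Core

/-!
# P207: the extension along the stable axis (block DET)
-/
set_option linter.all false

open Set Filter Topology Metric MeasureTheory Asymptotics
open scoped ContDiff

noncomputable section

namespace Vale.Agent.P207Z

variable {Γ X B E V : Type} [Group Γ] [Countable Γ] [MetricSpace X] [ProperSpace X]
  [MulAction Γ X] [IsIsometricSMul Γ X] [MeasurableSpace X] [BorelSpace X]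
  [TopologicalSpace B] [CompactSpace B] [T2Space B] [SecondCountableTopology B] [MulAction Γ B]
  [ContinuousConstSMul Γ B] [MeasurableSpace B] [BorelSpace B]
  [NormedAddCommGroup E] [InnerProductSpace ℝ E] [FiniteDimensional ℝ E]
  [NormedAddCommGroup V] [NormedSpace ℝ V] [FiniteDimensional ℝ V]
  {F G W : Type} [NormedAddCommGroup F] [NormedSpace ℝ F] [FiniteDimensional ℝ F]
  [NormedAddCommGroup G] [NormedSpace ℝ G] [FiniteDimensional ℝ G]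
  [NormedAddCommGroup W] [NormedSpace ℝ W]

variable {S : Sys Γ X B E V} {𝔉 : Bun S F}

namespace CSec

variable (s : CSec 𝔉)

/-- **the extension along the stable axis** (deterministic) -/
theorem detS (j N : ℕ) (w : ℝ) : ∃ K₁ ≥ N, ∀ K ≥ K₁, ∃ r C₀ : ℝ, 0 < r ∧ 0 ≤ C₀ ∧
    ∀ (x : X) (b : Jet K V (F →L[ℝ] ℝ)) (C : ℝ), b ∈ s.Ann K x →
      (∀ n : ℕ, ‖(𝔉.jetC K).fl n x b‖ ≤ C * Real.exp (w * n)) →
      ∃ σ : V → F →L[ℝ] ℝ, ContDiffOn ℝ j σ (ball 0 r) ∧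
        (∀ i ≤ j, ∀ q ∈ ball (0 : V) r, ‖iteratedFDeriv ℝ i σ q‖ ≤ C₀ * C) ∧
        Flat N (fun q => σ q - poly b q) 0 ∧
        ((∃ n, ∀ᶠ t : ℝ in atTop, ∃ i : ℕ, t ≤ i ∧ (i : ℝ) ≤ 2 * t ∧ s.AnnB K n (S.φ i x)) →
          ∃ C' : ℝ, ∀ q ∈ ball (0 : V) r, |σ q (s.e x q)| ≤ C' * ‖S.pU q‖ ^ N) := by
  obtain ⟨Ce, hCe, hb⟩ := s.bdd
  obtain ⟨K₁, h1, h2⟩ := AnnD.core 𝔉 s.eqv hCe hb j N w
  refine ⟨K₁, h1, fun K hK => ?_⟩
  obtain ⟨r, C₀, hr, hC₀, h3⟩ := h2 K hK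
  refine ⟨r, C₀, hr, hC₀, fun x b C ha hC => ?_⟩
  obtain ⟨σ, a1, a2, a3, a4⟩ := h3 x (fun n => (𝔉.jetC K).fl n x b) C (fun n => by
    rw [← Nat.cast_succ, ← 𝔉.jetC_apply K ((S.pt_φ _ x).trans (S.pt_φ _ x).symm), Coc0.fl,
      ← (𝔉.jetC K).coc x (S.φ (n + 1 : ℕ) x) _ (S.pt_φ _ x).symm (S.pt_φ _ x).symm]
    rfl) hC
  have e : (𝔉.jetC K).fl (0 : ℕ) x b = b := by
    rw [Coc0.fl, Nat.cast_zero, S.φ_zero, 𝔉.jetC_self]
    exact ha.1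
  rw [e] at a3
  exact ⟨σ, a1, a2, a3, fun ⟨n, hn⟩ => a4 n (Nat.cast_nonneg n) (hn.mono fun t ⟨i, i1, i2, i3⟩ =>
    ⟨i, i1, i2, i3 _ (s.ann_eqv K (S.pt_φ _ x).symm ha)⟩)⟩

end CSec

end Vale.Agent.P207Z
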