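import Vale.Agent.P207Z.JetC

/-!
# P207: measurable fields of jets (block JETM)
-/

set_option linter.all false

open Set Filter Topology Metric MeasureTheory
open scoped ContDiff

noncomputable section

namespace Vale.Agent.P207Z

open Vale.Agent.P207.N3 (JC)

namespace JetMx

/-- a map which is continuous on an open set, after a measurable map with values in this set -/
theorem meas_comp {X A B : Type} [MeasurableSpace X] {μ : Measure X} [NormedAddCommGroup A]
    [NormedSpace ℝ A] [FiniteDimensional ℝ A] [NormedAddCommGroup B] [NormedSpace ℝ B]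
    [FiniteDimensional ℝ B] {G : A → B} {U : Set A} (hU : IsOpen U) (hG : ContinuousOn G U)
    {j : X → A} (hj : AEStronglyMeasurable j μ) (h : ∀ᵐ x ∂μ, j x ∈ U) :
    AEStronglyMeasurable (fun x => G (j x)) μ := by
  classical
  borelize A B
  haveI : ProperSpace B := FiniteDimensional.proper_real B
  have h1 : Measurable (U.piecewise G fun _ => 0) :=
    hG.measurable_piecewise continuousOn_const hU.measurableSet
  refine (h1.comp_aemeasurable hj.aemeasurable).aestronglyMeasurable.congr ?_
  filter_upwards [h] with x hx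
  exact piecewise_eq_of_mem _ _ _ hx

variable {Z : Type} [TopologicalSpace Z] {E F : Type} [NormedAddCommGroup E] [NormedSpace ℝ E]
  [NormedAddCommGroup F] [NormedSpace ℝ F]

theorem jc_pi {ι : Type} [Fintype ι] {φ : ι → Type} [∀ i, NormedAddCommGroup (φ i)]
    [∀ i, NormedSpace ℝ (φ i)] {f : Z → E → ∀ i, φ i} {S : Set (Z × E)} (hS : IsOpen S)
    (h : ∀ i, JC (fun z u => f z u i) S) : JC f S := by
  classical
  refine (JC.sum Finset.univ hS fun i _ => (h i).clm (ContinuousLinearMap.single ℝ φ i)).congr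
    fun p _ => ?_
  exact (Finset.univ_sum_single _).symm

theorem jc_iter {f : Z → E → F} {S : Set (Z × E)} (h : JC f S) :
    ∀ i : ℕ, JC (fun z => iteratedFDeriv ℝ i (f z)) S
  | 0 => (h.clm (continuousMultilinearCurryFin0 ℝ E F).symm.toContinuousLinearEquiv.toContinuousLinearMap).congr
      fun p _ => by rw [iteratedFDeriv_zero_eq_comp]; rfl
  | i + 1 => ((jc_iter h i).fderiv.clm (continuousMultilinearCurryLeftEquiv ℝ
      (fun _ : Fin (i + 1) => E) F).symm.toContinuousLinearEquiv.toContinuousLinearMap).congr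
      fun p _ => by rw [iteratedFDeriv_succ_eq_comp_left]; rfl

theorem fd_jet (k : ℕ) (V W : Type) [NormedAddCommGroup V] [NormedSpace ℝ V] [FiniteDimensional ℝ V]
    [NormedAddCommGroup W] [NormedSpace ℝ W] [FiniteDimensional ℝ W] :
    FiniteDimensional ℝ (Jet k V W) := inferInstance

/-- jets with values in linear maps are linear maps with values in jets -/
def flipJ (k : ℕ) (V A B : Type) [NormedAddCommGroup V] [NormedSpace ℝ V] [FiniteDimensional ℝ V]
    [NormedAddCommGroup A] [NormedSpace ℝ A] [FiniteDimensional ℝ A] [NormedAddCommGroup B]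
    [NormedSpace ℝ B] [FiniteDimensional ℝ B] : Jet k V (A →L[ℝ] B) →L[ℝ] A →L[ℝ] Jet k V B :=
  haveI := fd_jet k V (A →L[ℝ] B)
  LinearMap.toContinuousLinearMap
    { toFun := fun a => ContinuousLinearMap.pi fun i =>
        (ContinuousMultilinearMap.flipLinear (a i) : A →L[ℝ] V [×(i : ℕ)]→L[ℝ] B)
      map_add' := fun _ _ => rfl
      map_smul' := fun _ _ => rfl }

end JetMx

open JetMx

variable {X : Type} [MeasurableSpace X] {μ : Measure X}
  {V V' W W' W'' : Type} [NormedAddCommGroup V] [NormedSpace ℝ V] [FiniteDimensional ℝ V]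
  [NormedAddCommGroup V'] [NormedSpace ℝ V'] [FiniteDimensional ℝ V']
  [NormedAddCommGroup W] [NormedSpace ℝ W] [FiniteDimensional ℝ W]
  [NormedAddCommGroup W'] [NormedSpace ℝ W'] [FiniteDimensional ℝ W']
  [NormedAddCommGroup W''] [NormedSpace ℝ W''] [FiniteDimensional ℝ W'']
  {k : ℕ} {f : X → V → W} {g : X → V → W'}

theorem meas_jet_map {Φ : W → W'} {O : Set W} (hO : IsOpen O) (hΦ : ContDiffOn ℝ ∞ Φ O)
    (hf : AEStronglyMeasurable (fun x => jet k (f x) 0) μ)
    (h : ∀ᵐ x ∂μ, ContDiffAt ℝ k (f x) 0 ∧ f x 0 ∈ O) :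
    AEStronglyMeasurable (fun x => jet k (fun q => Φ (f x q)) 0) μ := by
  have h1 : JC (fun (a : Jet k V W) q => poly a q) univ :=
    JC.of_uncurry isOpen_univ contDiff_poly₂.contDiffOn
  have h2 : IsOpen {p : Jet k V W × V | poly p.1 p.2 ∈ O} := hO.preimage contDiff_poly₂.continuous
  have h3 := (h1.mono h2 (subset_univ _)).comp_contDiffOn hO hΦ fun p hp => hp
  have h4 : IsOpen {a : Jet k V W | poly a 0 ∈ O} :=
    h2.preimage (f := fun a : Jet k V W => (a, (0 : V))) (by fun_prop)
  have h5 : ContinuousOn (fun a : Jet k V W => jet k (fun q => Φ (poly a q)) 0)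
      {a | poly a 0 ∈ O} := continuousOn_pi.2 fun i =>
    (h3.cont i).comp (f := fun a : Jet k V W => (a, (0 : V))) (by fun_prop) fun _ ha => ha
  refine (meas_comp h4 h5 hf (h.mono fun x hx => ?_)).congr (h.mono fun x hx => ?_)
  · show poly _ 0 ∈ O
    rw [poly_jet_zero]
    exact hx.2
  · have e := poly_jet_zero (k := k) (f x) 0
    have c : ContDiffAt ℝ ∞ Φ (f x 0) := hΦ.contDiffAt (hO.mem_nhds hx.2)
    have c' : ContDiffAt ℝ ∞ Φ (poly (jet k (f x) 0) 0) := by rw [e]; exact c
    refine ((jet_eq_iff (ContDiffAt.comp (g := Φ) 0 (c.of_le (by exact_mod_cast le_top)) hx.1)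
      (ContDiffAt.comp (g := Φ) 0 (c'.of_le (by exact_mod_cast le_top))
        (contDiffAt_poly _ _ _))).2 ?_).symm
    refine Flat.map ?_ (contDiff_poly _).continuous.continuousAt (c'.of_le (by exact_mod_cast le_top))
    simpa only [sub_zero] using flat_taylor hx.1

theorem meas_jet_clm (L : W →L[ℝ] W') (hf : AEStronglyMeasurable (fun x => jet k (f x) 0) μ)
    (h : ∀ᵐ x ∂μ, ContDiffAt ℝ k (f x) 0) :
    AEStronglyMeasurable (fun x => jet k (fun q => L (f x q)) 0) μ :=
  meas_jet_map isOpen_univ L.contDiff.contDiffOn hf (h.mono fun _ hx => ⟨hx, mem_univ _⟩)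

theorem meas_jet_prod (hf : AEStronglyMeasurable (fun x => jet k (f x) 0) μ)
    (hg : AEStronglyMeasurable (fun x => jet k (g x) 0) μ)
    (h : ∀ᵐ x ∂μ, ContDiffAt ℝ k (f x) 0) (h' : ∀ᵐ x ∂μ, ContDiffAt ℝ k (g x) 0) :
    AEStronglyMeasurable (fun x => jet k (fun q => (f x q, g x q)) 0) μ := by
  refine ((meas_jet_clm (ContinuousLinearMap.inl ℝ W W') hf h).add
    (meas_jet_clm (ContinuousLinearMap.inr ℝ W W') hg h')).congr ?_
  filter_upwards [h, h'] with x h1 h2
  refine (jet_add ((ContinuousLinearMap.inl ℝ W W').contDiff.contDiffAt.comp 0 h1)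
    ((ContinuousLinearMap.inr ℝ W W').contDiff.contDiffAt.comp 0 h2)).symm.trans ?_
  simp

theorem meas_jet_bilin (B : W →L[ℝ] W' →L[ℝ] W'')
    (hf : AEStronglyMeasurable (fun x => jet k (f x) 0) μ)
    (hg : AEStronglyMeasurable (fun x => jet k (g x) 0) μ)
    (h : ∀ᵐ x ∂μ, ContDiffAt ℝ k (f x) 0) (h' : ∀ᵐ x ∂μ, ContDiffAt ℝ k (g x) 0) :
    AEStronglyMeasurable (fun x => jet k (fun q => B (f x q) (g x q)) 0) μ :=
  meas_jet_map (Φ := fun p : W × W' => B p.1 p.2) (f := fun x q => (f x q, g x q)) isOpen_univ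
    ((B.contDiff.comp contDiff_fst).clm_apply contDiff_snd).contDiffOn (meas_jet_prod hf hg h h')
    ((h.and h').mono fun _ hx => ⟨hx.1.prodMk hx.2, mem_univ _⟩)

theorem meas_jet_param {Φ : V → W →L[ℝ] W'} (hΦ : ContDiffAt ℝ k Φ 0) {c : X → W}
    (hc : AEStronglyMeasurable c μ) :
    AEStronglyMeasurable (fun x => jet k (fun q => Φ q (c x)) 0) μ := by
  let L : W →ₗ[ℝ] Jet k V W' :=
    { toFun := fun w => jet k (fun q => Φ q w) 0
      map_add' := fun a b => by
        simp only [map_add]
        exact jet_add (hΦ.clm_apply contDiffAt_const) (hΦ.clm_apply contDiffAt_const)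
      map_smul' := fun r a => by
        simp only [map_smul]
        exact jet_smul r (hΦ.clm_apply contDiffAt_const) }
  exact L.continuous_of_finiteDimensional.comp_aestronglyMeasurable hc

theorem meas_jet_const {c : X → W} (hc : AEStronglyMeasurable c μ) :
    AEStronglyMeasurable (fun x => jet k (fun _ : V => c x) 0) μ :=
  meas_jet_param (Φ := fun _ : V => ContinuousLinearMap.id ℝ W) contDiffAt_const hc

theorem meas_jet_fderiv (hf : AEStronglyMeasurable (fun x => jet (k + 1) (f x) 0) μ) :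
    AEStronglyMeasurable (fun x => jet k (fderiv ℝ (f x)) 0) μ := by
  have h1 : Continuous fun (a : Jet (k + 1) V W) => (fun i : Fin (k + 1) =>
      continuousMultilinearCurryRightEquiv' ℝ i V W (a i.succ) : Jet k V (V →L[ℝ] W)) :=
    continuous_pi fun i => (continuousMultilinearCurryRightEquiv' ℝ i V W).continuous.comp
      (continuous_apply i.succ)
  refine (h1.comp_aestronglyMeasurable hf).congr (Eventually.of_forall fun x => ?_)
  funext i
  show continuousMultilinearCurryRightEquiv' ℝ i V W (iteratedFDeriv ℝ (i + 1) (f x) 0) = _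
  rw [iteratedFDeriv_succ_eq_comp_right, Function.comp_apply, LinearIsometryEquiv.apply_symm_apply]
  rfl

theorem meas_jet_trunc {K : ℕ} (hk : k ≤ K)
    (hf : AEStronglyMeasurable (fun x => jet K (f x) 0) μ) :
    AEStronglyMeasurable (fun x => jet k (f x) 0) μ :=
  (trunc (V := V) (W := W) hk).continuous.comp_aestronglyMeasurable hf

theorem meas_jet_comp (L : V' →L[ℝ] V) (hf : AEStronglyMeasurable (fun x => jet k (f x) 0) μ)
    (h : ∀ᵐ x ∂μ, ContDiffAt ℝ k (f x) 0) :
    AEStronglyMeasurable (fun x => jet k (fun q => f x (L q)) 0) μ := by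
  refine ((jetL k L fun _ => ContinuousLinearMap.id ℝ W).continuous.comp_aestronglyMeasurable
    hf).congr (h.mono fun x hx => ?_)
  exact jetL_jet L.contDiff.contDiffAt contDiffAt_const (map_zero L) hx

theorem meas_jet_val (hf : AEStronglyMeasurable (fun x => jet k (f x) 0) μ) :
    AEStronglyMeasurable (fun x => f x 0) μ := by
  refine ((polyL k V W 0).continuous.comp_aestronglyMeasurable hf).congr
    (Eventually.of_forall fun x => ?_)
  show polyL k V W 0 _ = _
  rw [polyL_apply, poly_jet_zero]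

theorem meas_jet_jc [TopologicalSpace X] [BorelSpace X] [SecondCountableTopology X] {T : Set (X × V)}
    (hf : Vale.Agent.P207.N3.JC f T) (h : ∀ x, (x, 0) ∈ T) :
    AEStronglyMeasurable (fun x => jet k (f x) 0) μ := by
  have h1 : Continuous fun x => jet k (f x) 0 := continuous_pi fun i =>
    (hf.cont i).comp_continuous (f := fun x : X => (x, (0 : V))) (by fun_prop) h
  exact h1.aestronglyMeasurable

/-- the jets in the second variable of a family with jointly continuous derivatives -/
theorem jc_jet {Z : Type} [TopologicalSpace Z] {h : Z → V' × V → W} {T : Set (Z × (V' × V))}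
    (hh : Vale.Agent.P207.N3.JC h T) (k : ℕ) :
    Vale.Agent.P207.N3.JC (fun z p => jet k (fun q => h z (p, q)) 0)
      {u : Z × V' | (u.1, (u.2, 0)) ∈ T} := by
  have ho : IsOpen {u : Z × V' | (u.1, (u.2, (0 : V))) ∈ T} := hh.isOpen.preimage (by fun_prop)
  refine jc_pi ho fun i => ?_
  have h1 := (jc_iter hh i).comp' (g := fun (_ : Z) (p : V') => ((p, 0) : V' × V))
    ((JC.id ho).prodMk (JC.const ho 0)) fun p hp => hp
  refine (h1.clm (ContinuousMultilinearMap.compContinuousLinearMapL
    fun _ : Fin i => ContinuousLinearMap.inr ℝ V' V)).congr fun p hp => ?_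
  have h2 := iteratedFDeriv_affine (ContinuousLinearMap.inr ℝ V' V) (p.2, 0)
    (Vale.Agent.P207.N3.isOpen_slice hh.isOpen p.1) (m := i)
    ((hh.smooth p.1).of_le (by exact_mod_cast le_top)) (a := 0) (by simpa using hp) le_rfl
  simpa [jet] using h2

theorem jc_jetL {Z : Type} [TopologicalSpace Z] {θ : Z → V' × V → W''}
    {L : Z → V' × V → W →L[ℝ] W'} {T : Set (Z × (V' × V))} (hθ : Vale.Agent.P207.N3.JC θ T)
    (hL : Vale.Agent.P207.N3.JC L T) (k : ℕ) :
    Vale.Agent.P207.N3.JC (fun z p => jetL k (fun q => θ z (p, q)) (fun q => L z (p, q)))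
      {u : Z × V' | (u.1, (u.2, 0)) ∈ T} := by
  have h1 := jc_jet (hL.clm_comp (hθ.comp_contDiff (contDiff_polyL (k := k) (W := W)))) k
  exact h1.clm (G := Jet k W'' W →L[ℝ] Jet k V W') (flipJ k V (Jet k W'' W) W')

end Vale.Agent.P207Z
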