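import Vale.Agent.P207Z.Bun
import Vale.Agent.P207Z.ErgS

/-!
# P207: operations on the class S (block OPS1): the basic facts
-/

set_option linter.all false

open Set Filter Topology Metric MeasureTheory Asymptotics
open scoped ContDiff

noncomputable section

namespace Vale.Agent.P207Z

open Vale.Agent.P207.N3 (JC)

variable {Γ X B E V : Type} [Group Γ] [Countable Γ] [MetricSpace X] [ProperSpace X]
  [MulAction Γ X] [IsIsometricSMul Γ X] [MeasurableSpace X] [BorelSpace X]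
  [TopologicalSpace B] [CompactSpace B] [T2Space B] [SecondCountableTopology B] [MulAction Γ B]
  [ContinuousConstSMul Γ B] [MeasurableSpace B] [BorelSpace B]
  [NormedAddCommGroup E] [InnerProductSpace ℝ E] [FiniteDimensional ℝ E]
  [NormedAddCommGroup V] [NormedSpace ℝ V] [FiniteDimensional ℝ V]
  {F G W : Type} [NormedAddCommGroup F] [NormedSpace ℝ F] [FiniteDimensional ℝ F]
  [NormedAddCommGroup G] [NormedSpace ℝ G] [FiniteDimensional ℝ G]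
  [NormedAddCommGroup W] [NormedSpace ℝ W]
  {F' : Type} [NormedAddCommGroup F'] [NormedSpace ℝ F'] [FiniteDimensional ℝ F']

variable {S : Sys Γ X B E V} {Y : Type} [MeasurableSpace Y] [MulAction Γ Y]
  {𝔉 : Bun S F} {𝔊 : Bun S G} {ℌ : Bun S F'}

/-! ### OPS1: the basic facts -/

theorem flat_zero_of_cont {f : V → W} {z : V} (hf : ContinuousAt f z) (h0 : f z = 0) :
    Flat 0 f z := flat_zero_iff.2 (h0 ▸ hf.tendsto)

/-- **ZERO**: a coherent field of jets with zero values vanishes -/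
theorem Sys.zero (k : ℕ) (g : X → V → W) (h0 : ∀ᵐ x ∂S.μ, g x 0 = 0)
    (h : ∀ᵐ x ∂S.μ, ∃ ρ > 0, ∃ gS gU : V → W, ContDiffOn ℝ k gS (ball 0 ρ) ∧
      ContinuousOn gU (ball 0 ρ) ∧ Flat k (fun q => g x q - gS q) 0 ∧
      Flat k (fun q => g x q - gU q) 0 ∧
      (S.AlongS x ρ fun y => ∀ r ≤ k, Flat r (g y) 0 → Flat r gS (S.τ y x 0)) ∧
      S.AlongU x ρ fun y => g y 0 = 0 → gU (S.τ y x 0) = 0) :
    ∀ᵐ x ∂S.μ, Flat k (g x) 0 := by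
  suffices key : ∀ r ≤ k, ∀ᵐ x ∂S.μ, Flat r (g x) 0 from key k le_rfl
  intro r
  induction r with
  | zero =>
    intro _
    filter_upwards [h0, h] with x h0 h
    obtain ⟨ρ, hρ, gS, gU, hS, -, eS, -, -, -⟩ := h
    have e0 : gS 0 = 0 := by simpa [h0] using eS.eq_zero
    simpa using (eS.mono (Nat.zero_le k)).add
      (flat_zero_of_cont (hS.continuousOn.continuousAt (ball_mem_nhds 0 hρ)) e0)
  | succ r ih =>
    intro hr
    filter_upwards [h, Sys.ae_alongS (ih (by omega)), Sys.ae_alongU h0] with x h iS iU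
    obtain ⟨ρ, hρ, gS, gU, hS, hU, eS, eU, aS, aU⟩ := h
    have hρ' : 0 < min ρ 1 := lt_min hρ one_pos
    have b1 : ball (0 : E) (min ρ 1) ⊆ ball 0 1 := ball_subset_ball (min_le_right _ _)
    have b2 : ball (0 : E) (min ρ 1) ⊆ ball 0 ρ := ball_subset_ball (min_le_left _ _)
    have zU : ∀ a ∈ ball (0 : E) (min ρ 1), gU (S.iU a) = 0 := by
      intro a ha
      by_contra hne
      have hc : ContinuousOn (fun a => gU (S.iU a)) (ball 0 (min ρ 1)) :=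
        hU.comp S.iU.continuous.continuousOn fun a ha => by
          simpa [S.norm_iU] using b2 ha
      obtain ⟨a', ha', y, hy, h1, h2⟩ := (aU.and (iU ρ)).dense
        (hc.isOpen_inter_preimage isOpen_ball (isOpen_compl_singleton (x := (0 : W))))
        ⟨a, ha, hne⟩ (fun a ha => b1 ha.1) fun a ha => b2 ha.1
      refine ha'.2 ?_
      have h3 := h1 h2
      rwa [Sys.τ_zero' (by simpa [S.norm_iU] using b1 ha'.1) hy] at h3
    have fU : Flat (r + 1) (fun a => gS (S.iU a)) 0 := by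
      have h2 := Flat.comp (τ := S.iU) (z' := 0) (by simpa using (eU.sub eS).mono hr)
        S.iU.differentiableAt
      refine h2.congr ?_
      filter_upwards [ball_mem_nhds 0 hρ'] with a ha
      simp [zU a ha]
    have fS : Flat (r + 1) gS 0 := by
      refine slice S.iS S.iU S.pS S.pU S.iS_add hρ'
        ((hS.of_le (by exact_mod_cast hr)).mono (ball_subset_ball (min_le_left _ _)))
        (fun O hO hne hm => ?_) fU
      have hm' : O ⊆ ball 0 (min ρ 1) := fun w hw => by simpa [S.norm_iS] using hm w hw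
      obtain ⟨w, hw, y, hy, h1, h2⟩ := (aS.and (iS ρ)).dense hO hne (hm'.trans b1) (hm'.trans b2)
      have h3 := h1 r (by omega) h2
      rw [Sys.τ_zero' (by simpa [S.norm_iS] using b1 (hm' hw)) hy] at h3
      exact ⟨w, hw, h3⟩
    simpa using (eS.mono hr).add fS

theorem rad_mem (n : ℕ) : (0 : V) ∈ ball (0 : V) (rad n) := mem_ball_self (rad_pos n)

theorem Prj.cont0 {k n : ℕ} {P : V → F →L[ℝ] F} (h : Prj k n P) : ContinuousAt P 0 :=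
  h.ckb.continuousAt (rad_mem n)

theorem Prj.idem0 {k n : ℕ} {P : V → F →L[ℝ] F} (h : Prj k n P) :
    ∀ᶠ q in 𝓝 (0 : V), P q * P q = P q := h.ev_idem (rad_mem n)

theorem contAt_cmp {P : V → F →L[ℝ] F} {q : V} (h : ContinuousAt P q) : ContinuousAt (cmp P) q :=
  continuousAt_const.sub h

theorem Sys.near_pt {x y : X} {n : ℕ} (h : S.pt y ∈ S.c x '' ball 0 (rad n)) :
    (0 : V) ∈ S.dom y x ∧ S.τ y x 0 ∈ ball (0 : V) (rad n) := by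
  obtain ⟨q, hq, e⟩ := h
  have h1 := ball_subset_ball (rad_le_one n) hq
  exact ⟨Sys.zero_dom' h1 e.symm, (Sys.τ_zero' h1 e.symm).symm ▸ hq⟩

namespace Bun

variable (𝔉) {x y z : X} {q : V}

theorem inv_apply (h : q ∈ S.dom x y) (v : F) : 𝔉.A y x (S.τ x y q) (𝔉.A x y q v) = v :=
  congrArg (· v) (𝔉.inv h)

theorem inv_apply' (h : q ∈ S.dom x y) (v : F) : 𝔉.A x y q (𝔉.A y x (S.τ x y q) v) = v :=
  congrArg (· v) (𝔉.inv' h)

theorem cont_inv (h : q ∈ S.dom x y) : ContinuousAt (fun q => 𝔉.A y x (S.τ x y q)) q :=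
  ContinuousAt.comp (f := S.τ x y) (𝔉.continuousAt (Sys.τ_dom h))
    (Sys.differentiableAt_τ h).continuousAt

theorem eqv_conj' {k : ℕ} (P : V → F →L[ℝ] F) (h : (0 : V) ∈ S.dom z y)
    (h' : S.τ z y 0 ∈ S.dom y x) :
    Eqv k (𝔉.pull z y (cmp (𝔉.conj y x P))) (𝔉.pull z y (𝔉.pull y x (cmp P))) := by
  have cτ : ContinuousAt (S.τ z y) 0 := (Sys.differentiableAt_τ h).continuousAt
  have ev : ∀ᶠ q in 𝓝 (0 : V), S.τ z y q ∈ S.dom y x := cτ.eventually (Sys.dom_nhds h')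
  constructor
  · refine ((Dom.refl _).left (ContinuousAt.comp (f := S.τ z y) (𝔉.cont_inv h') cτ)).congr
      (ev.mono fun q hq => ?_) EventuallyEq.rfl
    ext v
    simp [Bun.pull, cmp, Bun.conj, 𝔉.inv_apply hq]
  · refine ((Dom.refl _).left (ContinuousAt.comp (f := S.τ z y) (𝔉.continuousAt h') cτ)).congr
      (ev.mono fun q hq => ?_) EventuallyEq.rfl
    ext v
    simp [Bun.pull, cmp, Bun.conj, 𝔉.inv_apply' hq]

theorem unif_dom0 (S : Sys Γ X B E V) (D : ℝ) : ∃ n, ∀ x y, S.pt x = S.pt y → dist x y ≤ D →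
    ball (0 : V) (rad n) ⊆ S.dom y x := by
  obtain ⟨n, h⟩ := S.unif_ckB (f := fun p q => S.τ p.1 p.2 q) Sys.jc_τ
    (fun g x y q hq => Sys.τ_smul g hq) D 0
  exact ⟨n, fun x y e d => (h y x (by rwa [dist_comm]) e.symm).1⟩

theorem range_eq {k : ℕ} {P J : V → F →L[ℝ] F} (h : Eqv k (𝔉.pull y x (cmp P)) (cmp J))
    (h0 : (0 : V) ∈ S.dom y x) (hP : P (S.τ y x 0) * P (S.τ y x 0) = P (S.τ y x 0))
    (hJ : J 0 * J 0 = J 0) :
    (P (S.τ y x 0)).range = (J 0).range.map (𝔉.A y x 0 : F →ₗ[ℝ] F) := by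
  have e := h.ker_eq
  rw [ker_cmp hJ] at e
  rw [← e, ← ker_cmp hP]
  ext u
  constructor
  · intro hu
    refine ⟨𝔉.A x y (S.τ y x 0) u, ?_, 𝔉.inv_apply' h0 u⟩
    show cmp P _ (𝔉.A y x 0 _) = 0
    rw [𝔉.inv_apply' h0]
    exact hu
  · rintro ⟨w, hw, rfl⟩
    exact hw

theorem flat_move {r : ℕ} {P : V → F →L[ℝ] F} {M : V → F →L[ℝ] G} (h0 : (0 : V) ∈ S.dom y x)
    (hP : ContinuousAt P (S.τ y x 0)) (hi : ∀ᶠ q in 𝓝 (S.τ y x 0), P q * P q = P q)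
    (h : Dom r (𝔉.pull y x M) (𝔉.pull y x (cmp P))) :
    Flat r (fun q => M q ∘L P q) (S.τ y x 0) := by
  have cτ : ContinuousAt (S.τ y x) 0 := (Sys.differentiableAt_τ h0).continuousAt
  have h1 := h.flat (P := fun q => 𝔉.A x y (S.τ y x q) ∘L P (S.τ y x q)) le_rfl
    ((𝔉.cont_inv h0).clm_comp (ContinuousAt.comp (f := S.τ y x) hP cτ)) (Flat.zero.congr (by
      filter_upwards [Sys.dom_nhds h0, cτ.eventually hi] with q hq e
      ext v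
      have := congrArg (· v) e
      simp at this
      simp [Bun.pull, cmp, 𝔉.inv_apply' hq, this]))
  have h2 : Flat r (fun q => M (S.τ y x q) ∘L P (S.τ y x q)) (S.τ x y (S.τ y x 0)) := by
    rw [Sys.τ_τ h0]
    refine h1.congr ?_
    filter_upwards [Sys.dom_nhds h0] with q hq
    ext v
    simp [Bun.pull, 𝔉.inv_apply' hq]
  refine (h2.comp (Sys.differentiableAt_τ (Sys.τ_dom h0))).congr ?_
  filter_upwards [Sys.dom_nhds (Sys.τ_dom h0)] with q hq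
  rw [Sys.τ_τ hq]

theorem incl_aux {r k k' n : ℕ} (hk : r ≤ k) (hk' : r ≤ k') {J J' : X → V → F →L[ℝ] F}
    {P Q : V → F →L[ℝ] F} (hP : Prj k n P) (hQ : Prj k' n Q) (hJ : Prj k n (J x))
    (hJ' : Prj k' n (J' x)) (eP : Eqv k (𝔉.pull x x (cmp P)) (cmp (J x)))
    (eQ : Eqv k' (𝔉.pull x x (cmp Q)) (cmp (J' x))) :
    ∃ g : V → F →L[ℝ] F, ContDiffOn ℝ r g (ball 0 (rad n)) ∧
      Flat r (fun q => cmp (J' x) q ∘L J x q - g q) 0 ∧
      ∀ y, S.pt y ∈ S.c x '' ball 0 (rad n) → (∃ n, Prj k n (J y)) → (∃ n, Prj k' n (J' y)) →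
        Eqv k (𝔉.pull y x (cmp P)) (cmp (J y)) → Eqv k' (𝔉.pull y x (cmp Q)) (cmp (J' y)) →
        ∀ r' ≤ r, Flat r' (fun q => cmp (J' y) q ∘L J y q) 0 → Flat r' g (S.τ y x 0) := by
  refine ⟨fun q => cmp (J' x) q ∘L (cmp Q q ∘L P q) ∘L J x q, ?_, ?_, ?_⟩
  · exact (contDiffOn_const.sub (hJ'.mono hk' le_rfl).ckb.smooth).clm_comp
      (((contDiffOn_const.sub (hQ.mono hk' le_rfl).ckb.smooth).clm_comp
        (hP.mono hk le_rfl).ckb.smooth).clm_comp (hJ.mono hk le_rfl).ckb.smooth)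
  · have e1 := (eP.congr (𝔉.pull_self x _).symm EventuallyEq.rfl).1.flat_cmp hJ.cont0 hJ.idem0
    have e2 := (eQ.congr (𝔉.pull_self x _).symm EventuallyEq.rfl).2.flat_cmp hQ.cont0 hQ.idem0
    refine (((e2.mono hk').comp_left hJ.cont0).add ((e1.mono hk).comp_right
      ((contAt_cmp hJ'.cont0).clm_comp (contAt_cmp hQ.cont0)))).congr
      (Eventually.of_forall fun q => ?_)
    ext v
    simp [cmp]
    abel
  · rintro y hy ⟨m, hy1⟩ ⟨m', hy2⟩ e1 e2 r' hr h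
    obtain ⟨h0, hb⟩ := Sys.near_pt hy
    have h1 := (dom_cmp_iff (contAt_cmp hy2.cont0) hy1.cont0 hy1.idem0).2 h
    have h2 := 𝔉.flat_move h0 (hP.ckb.continuousAt hb) (hP.ev_idem hb)
      ((e2.1.mono (hr.trans hk')).trans (h1.trans (e1.2.mono (hr.trans hk))))
    exact (h2.comp_left (hJ.ckb.continuousAt hb)).comp_right (contAt_cmp (hJ'.ckb.continuousAt hb))

theorem eqv_cmp_zero {k : ℕ} (h : (0 : V) ∈ S.dom y x) :
    Eqv k (𝔉.pull y x (cmp fun _ => 0)) (cmp fun _ : V => (0 : F →L[ℝ] F)) :=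
  (𝔉.eqv_conj _ h).symm.congr EventuallyEq.rfl
    (Eventually.of_forall fun q => by simp [cmp, Bun.conj])

theorem eqv_cmp_one {k : ℕ} (y x : X) :
    Eqv k (𝔉.pull y x (cmp fun _ => 1)) (cmp fun _ : V => (1 : F →L[ℝ] F)) :=
  (Eqv.refl _).congr (Eventually.of_forall fun q => by simp [cmp, Bun.pull]) EventuallyEq.rfl

end Bun

namespace SSub

variable (W₁ : SSub 𝔉) (W₂ : SSub 𝔊)

/-- the extension property along `S` -/
def QS (k n : ℕ) (x : X) : Prop :=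
  ∃ P, Prj k n P ∧ 𝔉.ExtS k n (fun y => cmp (W₁.J k y)) x (cmp P)
/-- the extension property along `U` -/
def QU (k n : ℕ) (x : X) : Prop :=
  ∃ P, Prj k n P ∧ 𝔉.ExtU k n (fun y => cmp (W₁.J k y)) x (cmp P)

theorem port_QS (k : ℕ) : S.Port (W₁.QS k) := by
  refine ⟨fun n g x ⟨P, hP, h⟩ => ⟨P, hP, (𝔉.extS_smul (fun g x => by rw [W₁.J_smul]) g).2 h⟩,
    fun n n' x hn ⟨P, hP, h⟩ => ⟨P, hP.mono le_rfl hn, h.mono 𝔉 le_rfl hn⟩, fun D n => ?_⟩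
  obtain ⟨n1, -, h1⟩ := 𝔉.prj_conj D k n
  obtain ⟨n2, -, h2⟩ := 𝔉.extS_pull (G := F) D n
  obtain ⟨n3, h3⟩ := Bun.unif_dom0 S D
  refine ⟨n1 + n2 + n3, fun x y e d ⟨P, hP, h⟩ =>
    ⟨_, (h1 x y e d P hP).mono le_rfl (by omega), ?_⟩⟩
  have h4 := (h2 x y e d k _ _ h).mono 𝔉 le_rfl (show n2 ≤ n1 + n2 + n3 by omega)
  refine ⟨fun z hz => (𝔉.eqv_conj' P (Sys.zero_dom hz) ?_).trans (h4.1 z hz),
    h4.2.mono le_rfl fun z _ hz h5 => (𝔉.eqv_conj' P (Sys.near_pt hz).1 ?_).trans h5⟩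
  · rw [Sys.τ_zero hz]
    exact Sys.zero_dom e.symm
  · exact h3 x y e d (ball_subset_ball (rad_anti (by omega)) (Sys.near_pt hz).2)
theorem port_QU (k : ℕ) : S.Port (W₁.QU k) := by
  refine ⟨fun n g x ⟨P, hP, h⟩ => ⟨P, hP, (𝔉.extU_smul (fun g x => by rw [W₁.J_smul]) g).2 h⟩,
    fun n n' x hn ⟨P, hP, h⟩ => ⟨P, hP.mono le_rfl hn, h.mono 𝔉 le_rfl hn⟩, fun D n => ?_⟩
  obtain ⟨n1, -, h1⟩ := 𝔉.prj_conj D k n
  obtain ⟨n2, -, h2⟩ := 𝔉.extU_pull (G := F) D n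
  obtain ⟨n3, h3⟩ := Bun.unif_dom0 S D
  refine ⟨n1 + n2 + n3, fun x y e d ⟨P, hP, h⟩ =>
    ⟨_, (h1 x y e d P hP).mono le_rfl (by omega), ?_⟩⟩
  have h4 := (h2 x y e d k _ _ h).mono 𝔉 le_rfl (show n2 ≤ n1 + n2 + n3 by omega)
  refine ⟨fun z hz => (𝔉.eqv_conj' P (Sys.zero_dom hz) ?_).trans (h4.1 z hz),
    h4.2.mono le_rfl fun z _ hz h5 => (𝔉.eqv_conj' P (Sys.near_pt hz).1 ?_).trans h5⟩
  · rw [Sys.τ_zero hz]
    exact Sys.zero_dom e.symm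
  · exact h3 x y e d (ball_subset_ball (rad_anti (by omega)) (Sys.near_pt hz).2)
theorem J_eqv (k : ℕ) : ∀ᵐ x ∂S.μ, ∀ y, S.pt y = S.pt x →
    Eqv k (𝔉.pull y x (cmp (W₁.J k x))) (cmp (W₁.J k y)) := by
  filter_upwards [(W₁.extS k).ae] with x ⟨n, P, _, h, _⟩ y hy
  exact (𝔉.eqv_pull ((h x rfl).congr (𝔉.pull_self x _).symm EventuallyEq.rfl) hy).symm.trans
    (h y hy)
theorem reg' (k : ℕ) : ∀ᵐ x ∂S.μ, W₁.J k x 0 * W₁.J k x 0 = W₁.J k x 0 ∧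
    (W₁.J k x 0).range = W₁.H x :=
  (W₁.reg k).mono fun x ⟨⟨n, h⟩, e⟩ => ⟨h.idem 0 (rad_mem n), e⟩
theorem H_map' : ∀ᵐ x ∂S.μ, ∀ y, S.pt y = S.pt x →
    W₁.H y = (W₁.H x).map (𝔉.A x y 0 : F →ₗ[ℝ] F) := by
  filter_upwards [Sys.ae_pt (W₁.J_eqv 0), Sys.ae_pt (W₁.reg' 0)] with x h h' y hy
  have e := Sys.τ_zero hy.symm
  have h1 := 𝔉.range_eq (h y hy x hy.symm) (Sys.zero_dom hy.symm) (e.symm ▸ (h' y hy).1)
    (h' x rfl).1
  rwa [e, (h' y hy).2, (h' x rfl).2] at h1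
theorem H_mem : ∀ᵐ x ∂S.μ, ∀ y, S.pt y = S.pt x → ∀ v, 𝔉.A x y 0 v ∈ W₁.H y ↔ v ∈ W₁.H x := by
  filter_upwards [W₁.H_map'] with x h y hy v
  rw [h y hy]
  refine ⟨fun ⟨w, hw, e⟩ => ?_, fun hv => ⟨v, hv, rfl⟩⟩
  have h0 := Sys.zero_dom hy.symm
  rw [← 𝔉.inv_apply h0 v, ← e]
  exact (𝔉.inv_apply h0 w).symm ▸ hw
theorem H_map : ∀ᵐ x ∂S.μ, ∀ y, S.pt y = S.pt x →
    W₁.H y = (W₁.H x).map (𝔉.A x y 0 : F →ₗ[ℝ] F) := W₁.H_map'
theorem rank (P : Prob S Y) : ∃ d, ∀ᵐ x ∂S.μ, Module.finrank ℝ (W₁.H x) = d := by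
  refine P.rank W₁.meas ?_ W₁.H_smul
  filter_upwards [Sys.ae_pt W₁.H_map] with x h y hy
  refine le_antisymm ?_ ?_
  · rw [h x rfl y hy]
    exact Submodule.finrank_map_le _ _
  · rw [h y hy x hy.symm]
    exact Submodule.finrank_map_le _ _
theorem prj_mem (P : Prob S Y) :
    ∀ᵐ x ∂S.μ, ∀ a, ∀ v ∈ W₁.H x, MET.prj S.φ 𝔉.coc0.fl x a v ∈ W₁.H x :=
  𝔉.coc0.prj_mem P W₁.meas (W₁.H_mem.mono fun _ h y hy v hv => (h y hy v).2 hv) W₁.H_smul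
theorem del_mem (P : Prob S Y) :
    ∀ᵐ x ∂S.μ, ∀ v ∈ W₁.H x, MET.del S.φ 𝔉.coc0.fl x v ∈ W₁.H x :=
  𝔉.coc0.del_mem P W₁.meas (W₁.H_mem.mono fun _ h y hy v hv => (h y hy v).2 hv) W₁.H_smul
theorem val_aux {k n : ℕ} {x y : X} {P : V → F →L[ℝ] F} (hP : Prj k n P)
    (hy : S.pt y ∈ S.c x '' ball 0 (rad n)) (h : Eqv k (𝔉.pull y x (cmp P)) (cmp (W₁.J k y)))
    (h' : W₁.J k y 0 * W₁.J k y 0 = W₁.J k y 0 ∧ (W₁.J k y 0).range = W₁.H y) :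
    (P (S.τ y x 0)).range = (W₁.H y).map (𝔉.A y x 0 : F →ₗ[ℝ] F) :=
  h'.2 ▸ 𝔉.range_eq h (Sys.near_pt hy).1 (hP.idem _ (Sys.near_pt hy).2) h'.1
theorem val_zero {k n : ℕ} {x : X} {P : V → F →L[ℝ] F} (hP : Prj k n P)
    (h : Eqv k (𝔉.pull x x (cmp P)) (cmp (W₁.J k x)))
    (h' : W₁.J k x 0 * W₁.J k x 0 = W₁.J k x 0 ∧ (W₁.J k x 0).range = W₁.H x) :
    (P 0).range = W₁.H x := by
  rw [← h'.2, ← ker_cmp h'.1, ← ker_cmp (hP.idem 0 (rad_mem n))]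
  exact (h.congr (𝔉.pull_self x _).symm EventuallyEq.rfl).ker_eq
/-- the value of an extension at a typical point of the leaf -/
theorem valS {k n : ℕ} : ∀ᵐ x ∂S.μ, ∀ P, Prj k n P → 𝔉.ExtS k n (fun y => cmp (W₁.J k y)) x (cmp P) →
    (P 0).range = W₁.H x ∧ S.AlongS x (rad n) fun y =>
      (P (S.τ y x 0)).range = (W₁.H y).map (𝔉.A y x 0 : F →ₗ[ℝ] F) := by
  filter_upwards [W₁.reg' k, Sys.ae_alongS (W₁.reg' k)] with x h h' P hP hE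
  exact ⟨W₁.val_zero hP (hE.1 x rfl) h,
    (hE.2.and (h' _)).mono le_rfl fun y _ hy e => W₁.val_aux hP hy e.1 e.2⟩
theorem valU {k n : ℕ} : ∀ᵐ x ∂S.μ, ∀ P, Prj k n P → 𝔉.ExtU k n (fun y => cmp (W₁.J k y)) x (cmp P) →
    (P 0).range = W₁.H x ∧ S.AlongU x (rad n) fun y =>
      (P (S.τ y x 0)).range = (W₁.H y).map (𝔉.A y x 0 : F →ₗ[ℝ] F) := by
  filter_upwards [W₁.reg' k, Sys.ae_alongU (W₁.reg' k)] with x h h' P hP hE
  exact ⟨W₁.val_zero hP (hE.1 x rfl) h,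
    (hE.2.and (h' _)).mono le_rfl fun y _ hy e => W₁.val_aux hP hy e.1 e.2⟩

/-- **INCL**: an inclusion of the fibres is an inclusion of the jets -/
theorem incl (W₁' : SSub 𝔉) (h : ∀ᵐ x ∂S.μ, W₁.H x ≤ W₁'.H x) {r k k' : ℕ} (hk : r ≤ k)
    (hk' : r ≤ k') : ∀ᵐ x ∂S.μ, Dom r (cmp (W₁'.J k' x)) (cmp (W₁.J k x)) := by
  have hr := (W₁.reg k).and (W₁'.reg k')
  have key := Sys.zero (S := S) r (fun x q => cmp (W₁'.J k' x) q ∘L W₁.J k x q) (by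
    filter_upwards [h, W₁.reg' k, W₁'.reg' k'] with x h h1 h2
    rw [← h1.2, ← h2.2, ← ker_cmp h2.1] at h
    exact ContinuousLinearMap.ext fun v => h ⟨v, rfl⟩) (by
    filter_upwards [hr, (W₁.extS k).ae, (W₁'.extS k').ae, (W₁.extU k).ae, (W₁'.extU k').ae,
      Sys.ae_alongS hr, Sys.ae_alongU hr] with x ⟨⟨⟨n1, j1⟩, _⟩, ⟨n2, j2⟩, _⟩ ⟨n3, h3⟩ ⟨n4, h4⟩
      ⟨n5, h5⟩ ⟨n6, h6⟩ aS aU
    obtain ⟨n, hn⟩ : ∃ n, n = n1 + n2 + n3 + n4 + n5 + n6 := ⟨_, rfl⟩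
    obtain ⟨P, hP, eP⟩ := (W₁.port_QS k).mono n3 n x (by omega) h3
    obtain ⟨Q, hQ, eQ⟩ := (W₁'.port_QS k').mono n4 n x (by omega) h4
    obtain ⟨P', hP', eP'⟩ := (W₁.port_QU k).mono n5 n x (by omega) h5
    obtain ⟨Q', hQ', eQ'⟩ := (W₁'.port_QU k').mono n6 n x (by omega) h6
    have j1' := j1.mono le_rfl (show n1 ≤ n by omega)
    have j2' := j2.mono le_rfl (show n2 ≤ n by omega)
    obtain ⟨gS, s1, s2, s3⟩ := 𝔉.incl_aux hk hk' hP hQ j1' j2' (eP.1 x rfl) (eQ.1 x rfl)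
    obtain ⟨gU, u1, u2, u3⟩ := 𝔉.incl_aux hk hk' hP' hQ' j1' j2' (eP'.1 x rfl) (eQ'.1 x rfl)
    refine ⟨rad n, rad_pos n, gS, gU, s1, u1.continuousOn, s2, u2,
      ((eP.2.and eQ.2).and (aS _)).mono le_rfl fun y _ hy e =>
        s3 y hy e.2.1.1 e.2.2.1 e.1.1 e.1.2,
      ((eP'.2.and eQ'.2).and (aU _)).mono le_rfl fun y _ hy e e0 => ?_⟩
    obtain ⟨m, a⟩ := e.2.1.1
    obtain ⟨m', a'⟩ := e.2.2.1
    exact (u3 y hy ⟨m, a⟩ ⟨m', a'⟩ e.1.1 e.1.2 0 (Nat.zero_le r)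
      (flat_zero_of_cont ((contAt_cmp a'.cont0).clm_comp a.cont0) e0)).eq_zero)
  filter_upwards [key, hr] with x h ⟨⟨⟨n1, j1⟩, _⟩, ⟨n2, j2⟩, _⟩
  exact (dom_cmp_iff (contAt_cmp j2.cont0) j1.cont0 j1.idem0).2 h
theorem J_compat {r k k' : ℕ} (hk : r ≤ k) (hk' : r ≤ k') :
    ∀ᵐ x ∂S.μ, Eqv r (cmp (W₁.J k' x)) (cmp (W₁.J k x)) :=
  (W₁.incl W₁ (Eventually.of_forall fun _ => le_rfl) hk hk').and
    (W₁.incl W₁ (Eventually.of_forall fun _ => le_rfl) hk' hk)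

/-- the germs of sections, to the order `k` -/
def Sec (k : ℕ) (x : X) (s : V → F) : Prop :=
  ContDiffAt ℝ k s 0 ∧ Flat k (fun q => cmp (W₁.J k x) q (s q)) 0

theorem exists_sec (k : ℕ) : ∀ᵐ x ∂S.μ, ∀ v ∈ W₁.H x, ∃ s, W₁.Sec k x s ∧ s 0 = v := by
  filter_upwards [W₁.reg k] with x ⟨⟨n, h⟩, e⟩ v hv
  refine ⟨fun q => W₁.J k x q v, ⟨(h.ckb.contDiffAt (rad_mem n)).clm_apply contDiffAt_const,
    Flat.zero.congr (h.idem0.mono fun q hq => ?_)⟩, ?_⟩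
  · exact sub_eq_zero.2 (congrArg (· v) hq).symm
  · obtain ⟨w, rfl⟩ := e.ge hv
    exact congrArg (· w) (h.idem 0 (rad_mem n))
theorem sec_val (k : ℕ) : ∀ᵐ x ∂S.μ, ∀ s, W₁.Sec k x s → s 0 ∈ W₁.H x := by
  filter_upwards [W₁.reg' k] with x h s hs
  rw [← h.2, ← ker_cmp h.1]
  exact hs.2.eq_zero
theorem sec_mono {k k' : ℕ} (h : k ≤ k') : ∀ᵐ x ∂S.μ, ∀ s, W₁.Sec k' x s → W₁.Sec k x s := by
  filter_upwards [W₁.J_compat h le_rfl] with x e s hs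
  exact ⟨hs.1.of_le (by exact_mod_cast h), e.1.flat_apply le_rfl hs.1.continuousAt (hs.2.mono h)⟩
theorem sec_incl (W₁' : SSub 𝔉) (h : ∀ᵐ x ∂S.μ, W₁.H x ≤ W₁'.H x) (k : ℕ) :
    ∀ᵐ x ∂S.μ, ∀ s, W₁.Sec k x s → W₁'.Sec k x s := by
  filter_upwards [W₁.incl W₁' h (le_refl k) le_rfl] with x e s hs
  exact ⟨hs.1, e.flat_apply le_rfl hs.1.continuousAt hs.2⟩
theorem sec_move (k : ℕ) : ∀ᵐ x ∂S.μ, ∀ y, S.pt y = S.pt x → ∀ s, W₁.Sec k x s →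
    W₁.Sec k y fun q => 𝔉.A x y (S.τ y x q) (s (S.τ y x q)) := by
  filter_upwards [W₁.J_eqv k] with x e y hy s hs
  have h0 := Sys.zero_dom hy
  have e0 := Sys.τ_zero hy
  have hτ : ContDiffAt ℝ k (S.τ y x) 0 := (Sys.contDiffAt_τ h0).of_le (by exact_mod_cast le_top)
  have h1 : ContDiffAt ℝ k (fun q => 𝔉.A x y (S.τ y x q) (s (S.τ y x q))) 0 :=
    (((𝔉.contDiffAt (Sys.τ_dom h0)).of_le (by exact_mod_cast le_top)).comp 0 hτ).clm_apply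
      (ContDiffAt.comp 0 (e0.symm ▸ hs.1) hτ)
  refine ⟨h1, (e y hy).2.flat_apply le_rfl h1.continuousAt
    ((Flat.comp (e0.symm ▸ hs.2) (Sys.differentiableAt_τ h0)).congr ?_)⟩
  filter_upwards [Sys.dom_nhds h0] with q hq
  simp [Bun.pull, 𝔉.inv_apply' hq]

theorem prj_one (k : ℕ) : Prj k 1 fun _ : V => (1 : F →L[ℝ] F) :=
  ⟨CkB.const _ (by exact_mod_cast ContinuousLinearMap.norm_id_le), fun _ _ => mul_one _⟩
theorem prj_zero (k : ℕ) : Prj k 1 fun _ : V => (0 : F →L[ℝ] F) :=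
  ⟨CkB.const _ (by simp), fun _ _ => mul_zero _⟩

/-- the whole bundle -/
def top (𝔉 : Bun S F) : SSub 𝔉 where
  H _ := ⊤
  J _ _ _ := 1
  H_smul _ _ := rfl
  J_smul _ _ _ := rfl
  meas := MET.msub_const ⊤
  measJ _ := aestronglyMeasurable_const
  reg k := Eventually.of_forall fun _ => ⟨⟨1, prj_one k⟩, LinearMap.range_id⟩
  extU k := Sys.tight_const 1 (Eventually.of_forall fun x => ⟨_, prj_one k,
    fun y _ => 𝔉.eqv_cmp_one y x, Eventually.of_forall fun _ y _ _ => 𝔉.eqv_cmp_one y x⟩)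
  extS k := Sys.tight_const 1 (Eventually.of_forall fun x => ⟨_, prj_one k,
    fun y _ => 𝔉.eqv_cmp_one y x, Eventually.of_forall fun _ y _ _ => 𝔉.eqv_cmp_one y x⟩)

/-- the zero bundle -/
def bot (𝔉 : Bun S F) : SSub 𝔉 where
  H _ := ⊥
  J _ _ _ := 0
  H_smul _ _ := rfl
  J_smul _ _ _ := rfl
  meas := MET.msub_const ⊥
  measJ _ := aestronglyMeasurable_const
  reg k := Eventually.of_forall fun _ => ⟨⟨1, prj_zero k⟩, LinearMap.range_zero⟩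
  extU k := Sys.tight_const 1 (Eventually.of_forall fun x => ⟨_, prj_zero k,
    fun y hy => 𝔉.eqv_cmp_zero (Sys.zero_dom hy),
    Eventually.of_forall fun _ y _ hy => 𝔉.eqv_cmp_zero (Sys.near_pt hy).1⟩)
  extS k := Sys.tight_const 1 (Eventually.of_forall fun x => ⟨_, prj_zero k,
    fun y hy => 𝔉.eqv_cmp_zero (Sys.zero_dom hy),
    Eventually.of_forall fun _ y _ hy => 𝔉.eqv_cmp_zero (Sys.near_pt hy).1⟩)

end SSub

end Vale.Agent.P207Z
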