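import Vale.Agent.P207Z.OpsA
import Vale.Agent.P207Z.JetM
import Vale.Agent.P207Z.OpsB.Calc

/-!
# P207: explicit operations on the class S (block OPS2)
-/

set_option linter.unusedSectionVars false

open Set Filter Topology Metric MeasureTheory Asymptotics
open scoped ContDiff

noncomputable section

namespace Vale.Agent.P207Z

open Vale.Agent.P207.N3 (JC)

variable {Γ X B E V : Type} [Group Γ] [Countable Γ] [MetricSpace X] [ProperSpace X]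
  [MulAction Γ X] [IsIsometricSMul Γ X] [MeasurableSpace X] [BorelSpace X]
  [TopologicalSpace B] [CompactSpace B] [T2Space B] [SecondCountableTopology B] [MulAction Γ B]
  [ContinuousConstSMul Γ B] [MeasurableSpace B] [BorelSpace B]
  [NormedAddCommGroup E] [InnerProductSpace ℝ E] [FiniteDimensional ℝ E]
  [NormedAddCommGroup V] [NormedSpace ℝ V] [FiniteDimensional ℝ V]
  {F G W : Type} [NormedAddCommGroup F] [NormedSpace ℝ F] [FiniteDimensional ℝ F]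
  [NormedAddCommGroup G] [NormedSpace ℝ G] [FiniteDimensional ℝ G]
  [NormedAddCommGroup W] [NormedSpace ℝ W]
  {F' : Type} [NormedAddCommGroup F'] [NormedSpace ℝ F'] [FiniteDimensional ℝ F']

variable {S : Sys Γ X B E V} {Y : Type} [MeasurableSpace Y] [MulAction Γ Y]
  {𝔉 : Bun S F} {𝔊 : Bun S G} {ℌ : Bun S F'}

namespace OpB

open SSub

variable {k n : ℕ} {x y : X} {q : V}

theorem pg_conj {P : V → F →L[ℝ] F} (h : Prj k n P) (hy : (0 : V) ∈ S.dom y x)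
    (hb : S.τ y x 0 ∈ ball (0 : V) (rad n)) : PG k (𝔉.conj y x P) := by
  have h1 : ContDiffAt ℝ k (S.τ y x) 0 := (Sys.contDiffAt_τ hy).of_le (by exact_mod_cast le_top)
  refine ⟨((((𝔉.contDiffAt (Sys.τ_dom hy)).of_le (by exact_mod_cast le_top)).comp 0 h1).mul
    ((h.ckb.contDiffAt hb).comp 0 h1)).mul ((𝔉.contDiffAt hy).of_le (by exact_mod_cast le_top)), ?_⟩
  filter_upwards [Sys.dom_nhds hy, h1.continuousAt.eventually (h.ev_idem hb)] with q h2 h3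
  unfold Bun.conj
  rw [mul_assoc, ← mul_assoc (𝔉.A y x q), ← mul_assoc (𝔉.A y x q), 𝔉.inv' h2, one_mul,
    mul_assoc, ← mul_assoc (P _), h3, mul_assoc]

theorem ae_pg (W₁ : SSub 𝔉) (k : ℕ) : ∀ᵐ x ∂S.μ, PG k (W₁.J k x) :=
  (W₁.reg k).mono fun _ h => h.1.elim fun _ => pg

/-- operations on two fields of projections which respect the charts -/
structure Op (𝔉 : Bun S F) (𝔊 : Bun S G) (ℌ : Bun S F') (k₁ k : ℕ)
    (Θ : (V → F →L[ℝ] F) → (V → G →L[ℝ] G) → V → F' →L[ℝ] F') : Prop where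
  prj : ∀ n, ∃ n' ≥ n, ∀ P Q, Prj k₁ n P → Prj k₁ n Q → Prj k n' (Θ P Q)
  eqv : ∀ {P P' Q Q'}, PG k₁ P → PG k₁ P' → PG k₁ Q → PG k₁ Q' → Eqv k₁ (cmp P) (cmp P') →
    Eqv k₁ (cmp Q) (cmp Q') → Eqv k (cmp (Θ P Q)) (cmp (Θ P' Q'))
  conj : ∀ {n P} Q {x y}, Prj k₁ n P → (0 : V) ∈ S.dom y x → S.τ y x 0 ∈ ball (0 : V) (rad n) →
    ℌ.conj y x (Θ P Q) =ᶠ[𝓝 0] Θ (𝔉.conj y x P) (𝔊.conj y x Q)

variable {k₁ : ℕ} {Θ : (V → F →L[ℝ] F) → (V → G →L[ℝ] G) → V → F' →L[ℝ] F'}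
  (h : Op 𝔉 𝔊 ℌ k₁ k Θ) (W₁ : SSub 𝔉) (W₂ : SSub 𝔊)

include h

theorem Op.step {P P' : V → F →L[ℝ] F} {Q Q' : V → G →L[ℝ] G} (hP : Prj k₁ n P) (hQ : Prj k₁ n Q)
    (hy : (0 : V) ∈ S.dom y x) (hb : S.τ y x 0 ∈ ball (0 : V) (rad n)) (hP' : PG k₁ P')
    (hQ' : PG k₁ Q') (e : Eqv k₁ (𝔉.pull y x (cmp P)) (cmp P'))
    (e' : Eqv k₁ (𝔊.pull y x (cmp Q)) (cmp Q')) :
    Eqv k (ℌ.pull y x (cmp (Θ P Q))) (cmp (Θ P' Q')) :=
  (ℌ.eqv_conj _ hy).symm.trans ((h.eqv (pg_conj hP hy hb) hP' (pg_conj hQ hy hb) hQ'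
    ((𝔉.eqv_conj _ hy).trans e) ((𝔊.eqv_conj _ hy).trans e')).congr
    (cmp_congr (h.conj Q hP hy hb)) EventuallyEq.rfl)

theorem Op.reg : ∀ᵐ x ∂S.μ, ∃ n, Prj k n (Θ (W₁.J k₁ x) (W₂.J k₁ x)) := by
  filter_upwards [W₁.reg k₁, W₂.reg k₁] with x ⟨⟨n, h1⟩, _⟩ ⟨⟨m, h2⟩, _⟩
  obtain ⟨l, -, h3⟩ := h.prj (n + m)
  exact ⟨l, h3 _ _ (h1.mono le_rfl (by omega)) (h2.mono le_rfl (by omega))⟩

theorem Op.ext (g : X → B → B × B) (hg : ∀ {Q : X → Prop}, (∀ᵐ x ∂S.μ, Q x) →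
      ∀ᵐ x ∂S.μ, ∀ᵐ η ∂S.ν, ∀ y, S.pt y = g x η → Q y)
    (t₁ : S.Tight fun n x => ∃ P, Prj k₁ n P ∧
      (∀ y, S.pt y = S.pt x → Eqv k₁ (𝔉.pull y x (cmp P)) (cmp (W₁.J k₁ y))) ∧
      ∀ᵐ η ∂S.ν, ∀ y, S.pt y = g x η → S.pt y ∈ S.c x '' ball 0 (rad n) →
        Eqv k₁ (𝔉.pull y x (cmp P)) (cmp (W₁.J k₁ y)))
    (t₂ : S.Tight fun n x => ∃ Q, Prj k₁ n Q ∧
      (∀ y, S.pt y = S.pt x → Eqv k₁ (𝔊.pull y x (cmp Q)) (cmp (W₂.J k₁ y))) ∧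
      ∀ᵐ η ∂S.ν, ∀ y, S.pt y = g x η → S.pt y ∈ S.c x '' ball 0 (rad n) →
        Eqv k₁ (𝔊.pull y x (cmp Q)) (cmp (W₂.J k₁ y))) :
    S.Tight fun n x => ∃ R, Prj k n R ∧
      (∀ y, S.pt y = S.pt x → Eqv k (ℌ.pull y x (cmp R)) (cmp (Θ (W₁.J k₁ y) (W₂.J k₁ y)))) ∧
      ∀ᵐ η ∂S.ν, ∀ y, S.pt y = g x η → S.pt y ∈ S.c x '' ball 0 (rad n) →
        Eqv k (ℌ.pull y x (cmp R)) (cmp (Θ (W₁.J k₁ y) (W₂.J k₁ y))) := by
  refine t₁.imp₂ t₂ fun n m => ?_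
  obtain ⟨l, hl, h3⟩ := h.prj (n + m)
  have h4 := (ae_pg W₁ k₁).and (ae_pg W₂ k₁)
  refine ⟨l, ?_⟩
  filter_upwards [Sys.ae_pt h4, hg h4] with x h5 h6 ⟨P, p1, p2, p3⟩ ⟨Q, q1, q2, q3⟩
  have p4 : Prj k₁ (n + m) P := p1.mono le_rfl (by omega)
  have q4 : Prj k₁ (n + m) Q := q1.mono le_rfl (by omega)
  refine ⟨Θ P Q, h3 P Q p4 q4, fun y hy => h.step p4 q4 (Sys.zero_dom hy) ?_ (h5 y hy).1 (h5 y hy).2
    (p2 y hy) (q2 y hy), ?_⟩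
  · rw [Sys.τ_zero hy]
    exact mem_ball_self (rad_pos _)
  · filter_upwards [h6, p3, q3] with η h7 p5 q5 y hy ⟨q, hq, e⟩
    have h8 : ∀ r ≤ l, q ∈ ball (0 : V) (rad r) := fun r hr => ball_subset_ball (rad_anti hr) hq
    have h9 : q ∈ ball (0 : V) 1 := ball_subset_ball (rad_le_one l) hq
    refine h.step p4 q4 (Sys.zero_dom' h9 e.symm) ?_ (h7 y hy).1 (h7 y hy).2
      (p5 y hy ⟨q, h8 _ (by omega), e⟩) (q5 y hy ⟨q, h8 _ (by omega), e⟩)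
    rw [Sys.τ_zero' h9 e.symm]
    exact h8 _ hl

theorem Op.extU : S.Tight fun n x => ∃ R, Prj k n R ∧
    ℌ.ExtU k n (fun y => cmp (Θ (W₁.J k₁ y) (W₂.J k₁ y))) x (cmp R) :=
  h.ext W₁ W₂ (fun x η => (S.em x, η)) Sys.ae_leafU (W₁.extU k₁) (W₂.extU k₁)

theorem Op.extS : S.Tight fun n x => ∃ R, Prj k n R ∧
    ℌ.ExtS k n (fun y => cmp (Θ (W₁.J k₁ y) (W₂.J k₁ y))) x (cmp R) :=
  h.ext W₁ W₂ (fun x ξ => (ξ, S.ep x)) Sys.ae_leafS (W₁.extS k₁) (W₂.extS k₁)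

omit h

theorem meas_pair (k : ℕ) :
    AEStronglyMeasurable (fun x => jet k (fun q => (W₁.J k x q, W₂.J k x q)) 0) S.μ :=
  meas_jet_prod (W₁.measJ k) (W₂.measJ k) ((ae_pg W₁ k).mono fun _ h => h.cd)
    ((ae_pg W₂ k).mono fun _ h => h.cd)

theorem cd_pair (k : ℕ) : ∀ᵐ x ∂S.μ, ContDiffAt ℝ k (fun q => (W₁.J k x q, W₂.J k x q)) 0 :=
  ((ae_pg W₁ k).and (ae_pg W₂ k)).mono fun _ h => h.1.cd.prodMk h.2.cd

theorem msub {H : X → Submodule ℝ F} {J : X → V → F →L[ℝ] F}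
    (h : AEStronglyMeasurable (fun x => jet 0 (J x) 0) S.μ)
    (h' : ∀ᵐ x ∂S.μ, (∃ n, Prj 0 n (J x)) ∧ (J x 0).range = H x) : MET.MSub S.μ H :=
  ⟨fun x => J x 0, (meas_jet_val h).aemeasurable, h'.mono fun _ e => e.2⟩

/-! ### homomorphisms -/

theorem op_hom (k : ℕ) : Op 𝔉 𝔊 (𝔉.hom 𝔊) k k fun P Q q => homPrj (P q) (Q q) where
  prj := hom_prj k
  eqv := hom_eqv
  conj := fun {_ P} Q {x y} _ hy _ => by
    filter_upwards [Sys.dom_nhds hy] with q hq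
    have h1 : ∀ v, 𝔉.A x y (S.τ y x q) (𝔉.A y x q v) = v := fun v =>
      congrArg (fun T : F →L[ℝ] F => T v) (𝔉.inv hq)
    have h2 : ∀ v, 𝔊.A x y (S.τ y x q) (𝔊.A y x q v) = v := fun v =>
      congrArg (fun T : G →L[ℝ] G => T v) (𝔊.inv hq)
    ext T v
    simp only [Bun.conj, mul_apply_eq_comp, Bun.hom_A, homPrj_apply,
      ContinuousLinearMap.comp_apply, Sys.τ_τ hq, map_sub, h1, h2]

theorem measJ_hom (k : ℕ) :
    AEStronglyMeasurable (fun x => jet k (fun q => homPrj (W₁.J k x q) (W₂.J k x q)) 0) S.μ :=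
  meas_jet_map (Φ := fun p : (F →L[ℝ] F) × (G →L[ℝ] G) => homPrj p.1 p.2)
    (f := fun x q => (W₁.J k x q, W₂.J k x q)) isOpen_univ
    contDiff_hom.contDiffOn (meas_pair W₁ W₂ k) ((cd_pair W₁ W₂ k).mono fun _ h => ⟨h, trivial⟩)

theorem reg_hom (k : ℕ) : ∀ᵐ x ∂S.μ, (∃ n, Prj k n fun q => homPrj (W₁.J k x q) (W₂.J k x q)) ∧
    (homPrj (W₁.J k x 0) (W₂.J k x 0)).range = homSub (W₁.H x) (W₂.H x) := by
  filter_upwards [(op_hom k).reg W₁ W₂, W₁.reg k, W₂.reg k, ae_pg W₁ k, ae_pg W₂ k]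
    with x h1 h2 h3 h4 h5
  exact ⟨h1, by rw [homPrj_range h4.id.self_of_nhds h5.id.self_of_nhds, h2.2, h3.2]⟩

/-! ### direct sums -/

theorem op_prod (k : ℕ) : Op 𝔉 𝔊 (𝔉.prod 𝔊) k k fun P Q q => (P q).prodMap (Q q) where
  prj := prod_prj k
  eqv := fun _ _ _ _ e e' => ⟨prod_dom e.1 e'.1, prod_dom e.2 e'.2⟩
  conj := fun _ _ _ _ _ _ => EventuallyEq.rfl

theorem measJ_prod (k : ℕ) :
    AEStronglyMeasurable (fun x => jet k (fun q => (W₁.J k x q).prodMap (W₂.J k x q)) 0) S.μ := by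
  have h := meas_jet_clm (W' := F × G →L[ℝ] F × G) (ContinuousLinearMap.prodMapL ℝ F F G G)
    (meas_pair W₁ W₂ k) (cd_pair W₁ W₂ k)
  simp only [ContinuousLinearMap.prodMapL_apply] at h
  exact h

theorem reg_prod (k : ℕ) :
    ∀ᵐ x ∂S.μ, (∃ n, Prj k n fun q => (W₁.J k x q).prodMap (W₂.J k x q)) ∧
      ((W₁.J k x 0).prodMap (W₂.J k x 0)).range = (W₁.H x).prod (W₂.H x) := by
  filter_upwards [(op_prod k).reg W₁ W₂, W₁.reg k, W₂.reg k] with x h1 h2 h3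
  exact ⟨h1, by rw [prod_range, h2.2, h3.2]⟩

/-! ### jets of order one -/

theorem jet1_conj {P : V → F →L[ℝ] F} (hq : q ∈ S.dom y x)
    (hP : DifferentiableAt ℝ P (S.τ y x q)) :
    𝔉.jet1.conj y x (j1 P) q = j1 (𝔉.conj y x P) q := by
  refine ContinuousLinearMap.ext fun j => ?_
  have h0 := Sys.τ_dom hq
  have d0 := Sys.differentiableAt_τ hq
  have d1 := Sys.differentiableAt_τ h0
  have a0 := (𝔉.contDiffAt hq).differentiableAt (by simp)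
  have a1 := (𝔉.contDiffAt h0).differentiableAt (by simp)
  have hs : HasFDerivAt (fun p => j.1 + j.2 (p - q)) j.2 q :=
    (j.2.hasFDerivAt.comp q ((hasFDerivAt_id q).sub_const q)).const_add j.1
  set s : V → F := fun p => j.1 + j.2 (p - q)
  have e0 : j = (s q, fderiv ℝ s q) := by
    rw [hs.fderiv]
    simp [s]
  have s0 := hs.differentiableAt
  have s1 : DifferentiableAt ℝ (fun p => 𝔉.A y x (S.τ x y p) (s (S.τ x y p))) (S.τ y x q) :=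
    DifferentiableAt.comp _ (g := fun p => 𝔉.A y x p (s p))
      (by rw [Sys.τ_τ hq]; exact a0.clm_apply s0) d1
  have c0 : DifferentiableAt ℝ (𝔉.conj y x P) q := ((a1.comp q d0).mul (hP.comp q d0)).mul a0
  have e1 := 𝔉.jet1_A hq s0 s1 (by
    filter_upwards [Sys.dom_nhds hq] with p hp
    rw [Sys.τ_τ hp])
  have e2 := 𝔉.jet1_A h0 (hP.clm_apply s1) (s' := fun p => 𝔉.conj y x P p (s p))
    (by rw [Sys.τ_τ hq]; exact c0.clm_apply s0) (by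
      filter_upwards [Sys.dom_nhds h0] with p hp
      unfold Bun.conj
      rw [Sys.τ_τ hp]
      rfl)
  change 𝔉.jet1.A x y _ (j1 P _ (𝔉.jet1.A y x q j)) = _
  rw [e0, e1, j1_jet hP s1, e2, j1_jet c0 s0, Sys.τ_τ hq]

theorem op_jet1 (k : ℕ) : Op 𝔉 𝔉 𝔉.jet1 (k + 1) k fun P _ => j1 P where
  prj := fun n => (j1_prj k n).imp fun _ h => ⟨h.1, fun P _ hP _ => h.2 P hP⟩
  eqv := fun hP hP' _ _ e _ => j1_eqv hP hP' e
  conj := fun _ _ _ hP hy hb => by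
    filter_upwards [Sys.dom_nhds hy, (Sys.differentiableAt_τ hy).continuousAt.eventually
      (ev_diff (hP.ckb.contDiffAt hb))] with q h1 h2
    exact jet1_conj h1 h2

theorem measJ_jet1 (k : ℕ) :
    AEStronglyMeasurable (fun x => jet k (j1 (W₁.J (k + 1) x)) 0) S.μ := by
  have h0 := (ae_pg W₁ (k + 1)).mono fun _ h => cd_jet h.cd
  have h1 : ∀ᵐ x ∂S.μ, ContDiffAt ℝ k (W₁.J (k + 1) x) 0 := h0.mono fun _ h => h.fst
  have h2 : ∀ᵐ x ∂S.μ, ContDiffAt ℝ k (fderiv ℝ (W₁.J (k + 1) x)) 0 := h0.mono fun _ h => h.snd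
  have h3 := meas_jet_prod (meas_jet_trunc k.le_succ (W₁.measJ (k + 1)))
    (meas_jet_fderiv (W₁.measJ (k + 1))) h1 h2
  have h := meas_jet_clm (W' := F × (V →L[ℝ] F) →L[ℝ] F × (V →L[ℝ] F)) (jL V F F) h3 h0
  simp only [j1_eq]
  exact h

theorem reg_jet1 (k : ℕ) : ∀ᵐ x ∂S.μ, (∃ n, Prj k n (j1 (W₁.J (k + 1) x))) ∧
    (j1 (W₁.J (k + 1) x) 0).range = (j1 (W₁.J 1 x) 0).range := by
  filter_upwards [(op_jet1 k).reg W₁ W₁, ae_pg W₁ (k + 1), ae_pg W₁ (0 + 1),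
    W₁.J_compat (r := 0 + 1) le_rfl (k' := k + 1) (by omega)] with x h1 h2 h3 h4
  refine ⟨h1, ?_⟩
  rw [← ker_cmp h2.j1.id.self_of_nhds, ← ker_cmp h3.j1.id.self_of_nhds]
  exact (j1_eqv (h2.mono (by omega)) h3 h4).ker_eq

end OpB

namespace SSub

open OpB

variable (W₁ : SSub 𝔉) (W₂ : SSub 𝔊)

/-- **HOM** -/
def hom : SSub (𝔉.hom 𝔊) where
  H x := homSub (W₁.H x) (W₂.H x)
  J k x q := homPrj (W₁.J k x q) (W₂.J k x q)
  H_smul g x := by rw [W₁.H_smul, W₂.H_smul]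
  J_smul k g x := by rw [W₁.J_smul, W₂.J_smul]
  meas := msub (measJ_hom W₁ W₂ 0) (reg_hom W₁ W₂ 0)
  measJ := measJ_hom W₁ W₂
  reg := reg_hom W₁ W₂
  extU k := (op_hom k).extU W₁ W₂
  extS k := (op_hom k).extS W₁ W₂

/-- direct sum -/
def prod : SSub (𝔉.prod 𝔊) where
  H x := (W₁.H x).prod (W₂.H x)
  J k x q := (W₁.J k x q).prodMap (W₂.J k x q)
  H_smul g x := by rw [W₁.H_smul, W₂.H_smul]
  J_smul k g x := by rw [W₁.J_smul, W₂.J_smul]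
  meas := msub (measJ_prod W₁ W₂ 0) (reg_prod W₁ W₂ 0)
  measJ := measJ_prod W₁ W₂
  reg := reg_prod W₁ W₂
  extU k := (op_prod k).extU W₁ W₂
  extS k := (op_prod k).extS W₁ W₂

/-- **JET1** -/
def jet1 : SSub 𝔉.jet1 where
  H x := (j1 (W₁.J 1 x) 0).range
  J k x q := j1 (W₁.J (k + 1) x) q
  H_smul g x := by rw [W₁.J_smul]
  J_smul k g x := by rw [W₁.J_smul]
  meas := msub (measJ_jet1 W₁ 0) (reg_jet1 W₁ 0)
  measJ := measJ_jet1 W₁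
  reg := reg_jet1 W₁
  extU k := (op_jet1 k).extU W₁ W₁
  extS k := (op_jet1 k).extS W₁ W₁

theorem jet1_sec (k : ℕ) : ∀ᵐ x ∂S.μ, ∀ s, W₁.Sec (k + 1) x s →
    W₁.jet1.Sec k x fun q => (s q, fderiv ℝ s q) :=
  (ae_pg W₁ (k + 1)).mono fun _ h _ hs => ⟨cd_jet hs.1, j1_sec h hs.1 hs.2⟩

theorem jet1_H : ∀ᵐ x ∂S.μ, ∀ j, j ∈ W₁.jet1.H x ↔
    ∃ s, W₁.Sec 1 x s ∧ j = (s 0, fderiv ℝ s 0) := by
  filter_upwards [ae_pg W₁ (0 + 1)] with x h j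
  constructor
  · rintro ⟨⟨v, L⟩, rfl⟩
    have h1 : ContDiff ℝ (1 : ℕ) fun q => v + L q := contDiff_const.add L.contDiff
    have h2 := j1_jet (h.cd.differentiableAt (by simp)) (h1.differentiable (by simp) 0)
    rw [(L.hasFDerivAt.const_add v).fderiv, map_zero, add_zero] at h2
    refine ⟨fun q => W₁.J 1 x q (v + L q), ⟨h.cd.clm_apply h1.contDiffAt,
      Flat.zero.congr (h.id.mono fun q hq => ?_)⟩, h2.trans (by simp only [map_zero, add_zero])⟩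
    exact sub_eq_zero.2 (congrArg (fun T : F →L[ℝ] F => T (v + L q)) hq).symm
  · rintro ⟨s, hs, rfl⟩
    exact (ker_cmp h.j1.id.self_of_nhds).le (j1_sec h hs.1 hs.2).eq_zero

end SSub

end Vale.Agent.P207Z
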