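import Vale.Agent.P207Z.ErgS
import Vale.Agent.P207Z.JetM
import Vale.Agent.P207Z.OpsC.Lin

/-!
# P207, OPS3: a system of equations of class S defines a subbundle of class S
-/

set_option linter.unusedSectionVars false

open Set Filter Topology Metric MeasureTheory Asymptotics
open scoped ContDiff

noncomputable section

namespace Vale.Agent.P207Z

variable {Γ X B E V : Type} [Group Γ] [Countable Γ] [MetricSpace X] [ProperSpace X]
  [MulAction Γ X] [IsIsometricSMul Γ X] [MeasurableSpace X] [BorelSpace X]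
  [TopologicalSpace B] [CompactSpace B] [T2Space B] [SecondCountableTopology B] [MulAction Γ B]
  [ContinuousConstSMul Γ B] [MeasurableSpace B] [BorelSpace B]
  [NormedAddCommGroup E] [InnerProductSpace ℝ E] [FiniteDimensional ℝ E]
  [NormedAddCommGroup V] [NormedSpace ℝ V] [FiniteDimensional ℝ V]
  {F : Type} [NormedAddCommGroup F] [NormedSpace ℝ F] [FiniteDimensional ℝ F]

variable {S : Sys Γ X B E V} {Y : Type} [MeasurableSpace Y] [MulAction Γ Y] {𝔉 : Bun S F}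

namespace OpsC

variable {G : Type} [NormedAddCommGroup G] [NormedSpace ℝ G] [FiniteDimensional ℝ G]

/-- `P` extends the kernel of `M` -/
structure Kx (K n d : ℕ) (M : V → F →L[ℝ] G) (P : V → F →L[ℝ] F) : Prop where
  ckb : CkB K n M
  prj : Prj K n P
  rank : Module.finrank ℝ (P 0).range = d
  bd : ∀ q ∈ ball (0 : V) (rad n), ∀ v, ‖v - P q v‖ ≤ n * ‖M q v‖

theorem exists_kx (k n : ℕ) : ∃ n' ≥ n, ∀ M : V → F →L[ℝ] G, CkB (k + 1) n M →
    (∀ v, infDist v ((M 0).ker : Set F) ≤ n * ‖M 0 v‖) →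
      ∃ P, Kx (k + 1) n' (Module.finrank ℝ (M 0).ker) M P := by
  obtain ⟨n', h1, h2⟩ := kerx (V := V) (F := F) (G := G) k n
  refine ⟨n', h1, fun M hM hg => ?_⟩
  obtain ⟨P, p1, p2, p3⟩ := h2 M hM hg
  exact ⟨P, hM.mono le_rfl h1, p1, by rw [p2], p3⟩

variable {K n d r : ℕ} {M R : V → F →L[ℝ] G} {P J : V → F →L[ℝ] F} {x y : X}

theorem Kx.mono (h : Kx K n d M P) {n' : ℕ} (hn : n ≤ n') : Kx K n' d M P :=
  ⟨h.ckb.mono le_rfl hn, h.prj.mono le_rfl hn, h.rank, fun q hq v =>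
    (h.bd q (ball_subset_ball (rad_anti hn) hq) v).trans
      (mul_le_mul_of_nonneg_right (Nat.cast_le.2 hn) (norm_nonneg _))⟩

theorem Kx.pg (h : Kx K n d M P) : PG d P :=
  ⟨h.prj.ckb.continuousAt (mem_ball_self (rad_pos n)), h.prj.ev_idem (mem_ball_self (rad_pos n)),
    h.rank⟩

theorem Kx.dom (h : Kx K n d M P) (r : ℕ) : Dom r (cmp P) M :=
  Dom.of_le n (by
    filter_upwards [ball_mem_nhds (0 : V) (rad_pos n)] with q hq v using h.bd q hq v)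

theorem Kx.pg_conj (h : Kx K n d M P) (h0 : (0 : V) ∈ S.dom y x)
    (hz : S.τ y x 0 ∈ ball (0 : V) (rad n)) : PG d (𝔉.conj y x P) := by
  have c1 : ContinuousAt (S.τ y x) 0 := (Sys.contDiffAt_τ h0).continuousAt
  refine ⟨?_, ?_, ?_⟩
  · exact ((ContinuousAt.comp (f := S.τ y x) (𝔉.continuousAt (Sys.τ_dom h0)) c1).mul
      (ContinuousAt.comp (f := S.τ y x) (h.prj.ckb.continuousAt hz) c1)).mul (𝔉.continuousAt h0)
  · filter_upwards [Sys.dom_nhds h0, c1.preimage_mem_nhds (isOpen_ball.mem_nhds hz)] with q h1 h2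
    change 𝔉.A x y (S.τ y x q) * P (S.τ y x q) * 𝔉.A y x q *
      (𝔉.A x y (S.τ y x q) * P (S.τ y x q) * 𝔉.A y x q) =
      𝔉.A x y (S.τ y x q) * P (S.τ y x q) * 𝔉.A y x q
    have h3 := 𝔉.inv' h1
    have h4 := h.prj.idem _ h2
    calc _ = 𝔉.A x y (S.τ y x q) * (P (S.τ y x q) * (𝔉.A y x q * 𝔉.A x y (S.τ y x q)) *
          P (S.τ y x q)) * 𝔉.A y x q := by simp only [mul_assoc]
      _ = _ := by rw [h3, mul_one, h4]
  · exact (finrank_conj (𝔉.inv h0) (𝔉.inv' h0) _).trans ((h.prj.rank hz).trans h.rank)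

/-- the extension of the kernel, read at a typical point `y` of a leaf -/
theorem Kx.at (h : Kx K n d M P) (h0 : (0 : V) ∈ S.dom y x)
    (hz : S.τ y x 0 ∈ ball (0 : V) (rad n)) (hr : r ≤ K) (e : Eqv K (𝔉.pull y x M) R)
    (hJ : PG d J) (h1 : Dom r (cmp J) R) (h2 : Dom r R (cmp J)) :
    Eqv r (𝔉.pull y x (cmp P)) (cmp J) ∧ Flat r (fun q => M q ∘L P q) (S.τ y x 0) := by
  have c1 : ContinuousAt (S.τ y x) 0 := (Sys.contDiffAt_τ h0).continuousAt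
  have hP := h.pg_conj (𝔉 := 𝔉) h0 hz
  have ec : Eqv r (cmp (𝔉.conj y x P)) (𝔉.pull y x (cmp P)) := 𝔉.eqv_conj P h0
  have d1 : Dom r (𝔉.pull y x (cmp P)) (𝔉.pull y x M) := Dom.of_le n (by
    filter_upwards [c1.preimage_mem_nhds (isOpen_ball.mem_nhds hz)] with q hq v using
      h.bd _ hq (𝔉.A y x q v))
  have d2 : Dom r (cmp (𝔉.conj y x P)) R := ec.1.trans (d1.trans (e.1.mono hr))
  have d3 : Dom r R (cmp (𝔉.conj y x P)) := dom_swap hJ hP d2 h2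
  refine ⟨⟨ec.2.trans (d2.trans h2), h1.trans (d3.trans ec.1)⟩, ?_⟩
  have f1 := ((e.1.mono hr).trans d3).flat_cmp hP.cont hP.idem
  have z1 := Sys.τ_dom h0
  rw [← Sys.τ_τ h0] at f1
  refine ((f1.comp (Sys.differentiableAt_τ z1)).comp_left (𝔉.continuousAt z1)).congr ?_
  filter_upwards [Sys.dom_nhds z1] with q hq
  change M q ∘L P q = ((M (S.τ y x (S.τ x y q)) ∘L 𝔉.A y x (S.τ x y q)) ∘L
    (𝔉.A x y (S.τ y x (S.τ x y q)) * P (S.τ y x (S.τ x y q)) * 𝔉.A y x (S.τ x y q))) ∘L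
      𝔉.A x y q
  rw [Sys.τ_τ hq]
  have h3 : ∀ v, 𝔉.A y x (S.τ x y q) (𝔉.A x y q v) = v := fun v =>
    congrArg (fun X : F →L[ℝ] F => X v) (𝔉.inv hq)
  refine ContinuousLinearMap.ext fun v => ?_
  change M q (P q v) = M q (𝔉.A y x (S.τ x y q) (𝔉.A x y q (P q
    (𝔉.A y x (S.τ x y q) (𝔉.A x y q v)))))
  rw [h3, h3]

theorem mem_chart {a : ℝ} (ha : a ≤ 1) (h : S.pt y ∈ S.c x '' ball 0 a) :
    (0 : V) ∈ S.dom y x ∧ S.τ y x 0 ∈ ball (0 : V) a := by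
  obtain ⟨q, hq, e⟩ := h
  have h1 := ball_subset_ball ha hq
  exact ⟨Sys.zero_dom' h1 e.symm, (Sys.τ_zero' h1 e.symm).symm ▸ hq⟩

theorem centre {R' : X → V → F →L[ℝ] G} (h : ∀ y, S.pt y = S.pt x → Eqv K (𝔉.pull y x M) (R' y)) : Eqv K M (R' x) :=
  (h x rfl).congr (𝔉.pull_self x M).symm EventuallyEq.rfl

/-- restriction to a linear subspace -/
theorem dom_res {G' : Type} [NormedAddCommGroup G'] [NormedSpace ℝ G'] {M' : V → F →L[ℝ] G'}
    (h : Dom r M M') (L : E →L[ℝ] V) : Dom r (fun a => M (L a)) fun a => M' (L a) :=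
  h.pull (A := fun _ => ContinuousLinearMap.id ℝ F) L.differentiableAt (map_zero L)
    continuousAt_const

theorem PG.res (h : PG d P) (L : E →L[ℝ] V) : PG d fun a => P (L a) := by
  have c : Tendsto L (𝓝 0) (𝓝 0) := by simpa only [map_zero] using L.continuous.tendsto 0
  refine ⟨ContinuousAt.comp (by rw [map_zero]; exact h.cont) L.continuous.continuousAt,
    c.eventually h.idem, ?_⟩
  rw [map_zero]
  exact h.rank

/-- the step of the induction on the order, at one point -/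
theorem step {MU : V → F →L[ℝ] G} {PU : V → F →L[ℝ] F} {R : X → V → F →L[ℝ] G}
    {J : X → V → F →L[ℝ] F} (hr : r + 1 ≤ K) (hS : Kx K n d M P) (hU : Kx K n d MU PU)
    (eS : Eqv K M (R x)) (eU : Eqv K MU (R x)) (hJ : PG d (J x)) (h1 : Dom K (cmp (J x)) (R x))
    (aS : S.AlongS x (rad n) fun y => Eqv K (𝔉.pull y x M) (R y) ∧
      PG d (J y) ∧ Dom r (cmp (J y)) (R y) ∧ Dom r (R y) (cmp (J y)))
    (aU : S.AlongU x (rad n) fun y => Eqv K (𝔉.pull y x MU) (R y) ∧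
      PG d (J y) ∧ Dom r (cmp (J y)) (R y) ∧ Dom r (R y) (cmp (J y))) :
    Dom (r + 1) (R x) (cmp (J x)) := by
  have hr' : r ≤ K := (Nat.le_succ r).trans hr
  have b0 : (0 : V) ∈ ball (0 : V) (rad n) := mem_ball_self (rad_pos n)
  have bU : ∀ a ∈ ball (0 : E) (rad n), S.iU a ∈ ball (0 : V) (rad n) := fun a ha => by
    rwa [mem_ball_zero_iff, S.norm_iU, ← mem_ball_zero_iff]
  have u1 : ∀ a ∈ ball (0 : E) (rad n), MU (S.iU a) ∘L PU (S.iU a) = 0 := by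
    intro a ha
    by_contra hne
    have c : ContinuousOn (fun a => MU (S.iU a) ∘L PU (S.iU a)) (ball 0 (rad n)) := fun a ha =>
      ((ContinuousAt.comp (f := S.iU) (hU.ckb.continuousAt (bU a ha))
        S.iU.continuous.continuousAt).clm_comp (ContinuousAt.comp (f := S.iU)
          (hU.prj.ckb.continuousAt (bU a ha)) S.iU.continuous.continuousAt)).continuousWithinAt
    obtain ⟨a', ha', y, hy, e, j1, j2, j3⟩ := aU.dense
      (c.isOpen_inter_preimage isOpen_ball (isOpen_compl_singleton (x := 0))) ⟨a, ha, hne⟩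
      (inter_subset_left.trans (ball_subset_ball (rad_le_one n))) inter_subset_left
    have h2 := bU a' ha'.1
    have h3 := ball_subset_ball (rad_le_one n) h2
    have h4 := Sys.τ_zero' h3 hy
    have h5 := (hU.at (Sys.zero_dom' h3 hy) (h4.symm ▸ h2) hr' e j1 j2 j3).2.eq_zero
    rw [h4] at h5
    exact ha'.2 h5
  have pU := hU.pg.res S.iU
  have pS := hS.pg.res S.iU
  have u2 : Dom K (fun a => MU (S.iU a)) (cmp fun a => PU (S.iU a)) :=
    (dom_cmp_iff (ContinuousAt.comp (by rw [map_zero]; exact hU.ckb.continuousAt b0)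
      S.iU.continuous.continuousAt) pU.cont pU.idem).2 (Flat.zero.congr (by
        filter_upwards [ball_mem_nhds (0 : E) (rad_pos n)] with a ha using u1 a ha))
  have u3 : Dom K (fun a => M (S.iU a)) (cmp fun a => P (S.iU a)) :=
    dom_swap pU pS (dom_res (hS.dom K) S.iU) ((dom_res (eS.1.trans eU.2) S.iU).trans u2)
  have u4 := (u3.flat_cmp pS.cont pS.idem).mono hr
  have s1 : Flat (r + 1) (fun q => M q ∘L P q) 0 := by
    refine slice S.iS S.iU S.pS S.pU S.iS_add (rad_pos n)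
      ((hS.ckb.smooth.clm_comp hS.prj.ckb.smooth).of_le (by exact_mod_cast hr))
      (fun O hO hne hb => ?_) u4
    have h2 : O ⊆ ball 0 (rad n) := fun w hw => by
      have h3 := hb w hw
      rwa [mem_ball_zero_iff, S.norm_iS, ← mem_ball_zero_iff] at h3
    obtain ⟨w, hw, y, hy, e, j1, j2, j3⟩ := aS.dense hO hne
      (h2.trans (ball_subset_ball (rad_le_one n))) h2
    have h3 := ball_subset_ball (rad_le_one n) (hb w hw)
    have h4 := Sys.τ_zero' h3 hy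
    exact ⟨w, hw, h4 ▸ (hS.at (Sys.zero_dom' h3 hy) (h4.symm ▸ hb w hw) hr' e j1 j2 j3).2⟩
  exact dom_swap hS.pg hJ (h1.mono hr) ((eS.2.mono hr).trans
    ((dom_cmp_iff (hS.ckb.continuousAt b0) hS.pg.cont hS.pg.idem).2 s1))

end OpsC

open OpsC

variable {G : ℕ → Type} [∀ k, NormedAddCommGroup (G k)] [∀ k, NormedSpace ℝ (G k)]
  [∀ k, FiniteDimensional ℝ (G k)]

theorem SEq.ker_eq (𝓔 : SEq 𝔉 G) (k : ℕ) : ∀ᵐ x ∂S.μ, (𝓔.R k x 0).ker = 𝓔.H x := by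
  filter_upwards [(𝓔.extS k).ae] with x ⟨_, M, _, h1, _, h2⟩
  rw [← (centre h2.1).ker_eq, h1]

theorem SEq.rank (P : Prob S Y) (𝓔 : SEq 𝔉 G) :
    ∃ d, ∀ᵐ x ∂S.μ, Module.finrank ℝ (𝓔.H x) = d := by
  refine P.rank 𝓔.meas ?_ 𝓔.H_smul
  filter_upwards [(𝓔.extS 0).ae, Sys.ae_pt (𝓔.ker_eq 0)] with x ⟨_, M, _, h1, _, h2⟩ h3 y hy
  rw [← h3 y hy, ← (h2.1 y hy).ker_eq, ← h1]
  have h0 := Sys.zero_dom hy
  have h4 := finrank_ker_comp (𝔉.inv h0) (𝔉.inv' h0) (M (S.τ y x 0))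
  rw [Sys.τ_zero hy] at h4
  change Module.finrank ℝ (M (S.τ y x 0) ∘L 𝔉.A y x 0).ker = _
  rw [Sys.τ_zero hy]
  exact h4

/-- **SEQ**: a system of equations of class S defines a subbundle of class S -/
theorem SEq.exists_ssub (P : Prob S Y) {G : ℕ → Type} [∀ k, NormedAddCommGroup (G k)]
    [∀ k, NormedSpace ℝ (G k)] [∀ k, FiniteDimensional ℝ (G k)] (𝓔 : SEq 𝔉 G) :
    ∃ W : SSub 𝔉, W.H = 𝓔.H ∧ ∀ k, ∀ᵐ x ∂S.μ, Eqv k (cmp (W.J k x)) (𝓔.R (k + 1) x) := by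
  choose p ri mp mr hs using fun k => exists_meas_split F (G k)
  obtain ⟨d, hd⟩ := 𝓔.rank P
  let J : ℕ → X → V → F →L[ℝ] F := fun k x q =>
    kp ((p (k + 1) (𝓔.R (k + 1) x 0), ri (k + 1) (𝓔.R (k + 1) x 0)), 𝓔.R (k + 1) x q)
  have g1 : ∀ k, ∀ᵐ x ∂S.μ, PG d (J k x) ∧ ∀ r, Dom r (cmp (J k x)) (𝓔.R (k + 1) x) := fun k => by
    filter_upwards [𝓔.reg (k + 1), 𝓔.ker_eq (k + 1), hd] with x h1 h2 h3
    exact ⟨(hs _ _).pg h1.continuousAt (by rw [h2, h3]), (hs _ _).dom h1.continuousAt⟩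
  have xS : ∀ k, S.Tight fun n x => ∃ M Q, Kx (k + 1) n d M Q ∧
      𝔉.ExtS (k + 1) n (𝓔.R (k + 1)) x M := fun k => (𝓔.extS (k + 1)).imp fun n => by
    obtain ⟨n', h1, h2⟩ := exists_kx (V := V) (F := F) (G := G (k + 1)) k n
    refine ⟨n', hd.mono fun x hx ⟨M, m1, m2, m3, m4⟩ => ?_⟩
    obtain ⟨Q, hQ⟩ := h2 M m1 (m2.symm ▸ m3)
    rw [m2, hx] at hQ
    exact ⟨M, Q, hQ, m4.mono _ le_rfl h1⟩
  have xU : ∀ k, S.Tight fun n x => ∃ M Q, Kx (k + 1) n d M Q ∧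
      𝔉.ExtU (k + 1) n (𝓔.R (k + 1)) x M := fun k => (𝓔.extU (k + 1)).imp fun n => by
    obtain ⟨n', h1, h2⟩ := exists_kx (V := V) (F := F) (G := G (k + 1)) k n
    refine ⟨n', hd.mono fun x hx ⟨M, m1, m2, m3, m4⟩ => ?_⟩
    obtain ⟨Q, hQ⟩ := h2 M m1 (m2.symm ▸ m3)
    rw [m2, hx] at hQ
    exact ⟨M, Q, hQ, m4.mono _ le_rfl h1⟩
  have key : ∀ k r, r ≤ k + 1 → ∀ᵐ x ∂S.μ, Dom r (𝓔.R (k + 1) x) (cmp (J k x)) := by
    intro k r
    induction r with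
    | zero => exact fun _ => (𝓔.reg (k + 1)).mono fun x hx => (hs _ _).flat_zero hx.continuousAt
    | succ r ih =>
      intro hr
      have g2 : ∀ᵐ y ∂S.μ, PG d (J k y) ∧ Dom r (cmp (J k y)) (𝓔.R (k + 1) y) ∧
          Dom r (𝓔.R (k + 1) y) (cmp (J k y)) := by
        filter_upwards [g1 k, ih ((Nat.le_succ r).trans hr)] with y h1 h2 using ⟨h1.1, h1.2 r, h2⟩
      filter_upwards [g1 k, (xS k).ae, (xU k).ae, Sys.ae_alongS g2, Sys.ae_alongU g2] with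
        x h1 ⟨n, M, Q, s1, s2⟩ ⟨m, M', Q', u1, u2⟩ aS aU
      exact step hr (s1.mono (le_max_left n m)) (u1.mono (le_max_right n m)) (centre s2.1)
        (centre u2.1) h1.1 (h1.2 _) ((s2.mono _ le_rfl (le_max_left n m)).2.and (aS _))
        ((u2.mono _ le_rfl (le_max_right n m)).2.and (aU _))
  have g3 : ∀ k, ∀ᵐ y ∂S.μ, PG d (J k y) ∧ Dom k (cmp (J k y)) (𝓔.R (k + 1) y) ∧
      Dom k (𝓔.R (k + 1) y) (cmp (J k y)) := fun k => by
    filter_upwards [g1 k, key k k (Nat.le_succ k)] with y h1 h2 using ⟨h1.1, h1.2 k, h2⟩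
  have g4 : ∀ k : ℕ, ∀ᵐ x ∂S.μ, ContDiffAt ℝ k (𝓔.R (k + 1) x) 0 := fun k =>
    (𝓔.reg (k + 1)).mono fun x hx => hx.of_le (by exact_mod_cast Nat.le_succ k)
  have g5 : ∀ k n x M Q, Kx (k + 1) n d M Q → (∀ y, S.pt y = S.pt x → PG d (J k y) ∧
      Dom k (cmp (J k y)) (𝓔.R (k + 1) y) ∧ Dom k (𝓔.R (k + 1) y) (cmp (J k y))) →
      (∀ y, S.pt y = S.pt x → Eqv (k + 1) (𝔉.pull y x M) (𝓔.R (k + 1) y)) →
      ∀ y, S.pt y = S.pt x → Eqv k (𝔉.pull y x (cmp Q)) (cmp (J k y)) :=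
    fun k n x M Q h1 h2 h3 y hy => (h1.at (Sys.zero_dom hy)
      (by rw [Sys.τ_zero hy]; exact mem_ball_self (rad_pos n)) (Nat.le_succ k) (h3 y hy)
      (h2 y hy).1 (h2 y hy).2.1 (h2 y hy).2.2).1
  refine ⟨⟨𝓔.H, J, 𝓔.H_smul, fun k g x => ?_, 𝓔.meas, fun k => ?_, fun k => ?_, fun k => ?_,
    fun k => ?_⟩, rfl, fun k => (g3 k).mono fun x hx => hx.2⟩
  · simp only [J, 𝓔.R_smul]
  · have m0 := (meas_jet_val (𝓔.measR (k + 1))).aemeasurable
    have m1 : AEStronglyMeasurable (fun x => (p (k + 1) (𝓔.R (k + 1) x 0),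
        ri (k + 1) (𝓔.R (k + 1) x 0))) S.μ :=
      (((mp _).comp_aemeasurable m0).aestronglyMeasurable).prodMk
        ((mr _).comp_aemeasurable m0).aestronglyMeasurable
    exact meas_jet_map isOpen_kO (fun u hu => (contDiffAt_kp hu).contDiffWithinAt)
      (meas_jet_prod (meas_jet_const m1) (meas_jet_trunc (Nat.le_succ k) (𝓔.measR (k + 1)))
        (Eventually.of_forall fun _ => contDiffAt_const) (g4 k))
      ((g4 k).mono fun x hx => ⟨contDiffAt_const.prodMk hx, (hs _ _).mem⟩)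
  · filter_upwards [g4 k, 𝓔.ker_eq (k + 1)] with x h1 h2
    refine ⟨(hs _ _).prj h1, ?_⟩
    rw [← h2, ← (hs _ _).range]
    exact congrArg (fun A : F →L[ℝ] F => A.range) (hs _ _).val
  · refine (xU k).imp fun n => ⟨n, ?_⟩
    filter_upwards [Sys.ae_pt (g3 k), Sys.ae_alongU (g3 k)] with x h1 h2 ⟨M, Q, h3, h4⟩
    refine ⟨Q, h3.prj.mono (Nat.le_succ k) le_rfl, g5 k n x M Q h3 h1 h4.1,
      (h4.2.and (h2 _)).mono le_rfl fun y _ hy ⟨e, j1, j2, j3⟩ => ?_⟩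
    obtain ⟨h5, h6⟩ := mem_chart (rad_le_one n) hy
    exact (h3.at h5 h6 (Nat.le_succ k) e j1 j2 j3).1
  · refine (xS k).imp fun n => ⟨n, ?_⟩
    filter_upwards [Sys.ae_pt (g3 k), Sys.ae_alongS (g3 k)] with x h1 h2 ⟨M, Q, h3, h4⟩
    refine ⟨Q, h3.prj.mono (Nat.le_succ k) le_rfl, g5 k n x M Q h3 h1 h4.1,
      (h4.2.and (h2 _)).mono le_rfl fun y _ hy ⟨e, j1, j2, j3⟩ => ?_⟩
    obtain ⟨h5, h6⟩ := mem_chart (rad_le_one n) hy
    exact (h3.at h5 h6 (Nat.le_succ k) e j1 j2 j3).1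

end Vale.Agent.P207Z
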