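import Vale.Agent.P207Z.Dyn

/-!
# P207: reversal of the time (block REV), first part: the roles of the two foliations are exchanged
-/

set_option linter.all false

open Set Filter Topology Metric MeasureTheory Asymptotics
open scoped ContDiff

noncomputable section

namespace Vale.Agent.P207Z

open Vale.Agent.P207.N3 (JC)

section Tau

variable {X P V : Type} [NormedAddCommGroup V]

theorem tdom_swap (c : X → V → P × P) : tdom (fun x z => (c x z).swap) = tdom c := by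
  funext x y
  ext q
  simp only [tdom, mem_setOf_eq, mem_image, Prod.swap_inj]

theorem ttau_swap (c : X → V → P × P) : ttau (fun x z => (c x z).swap) = ttau c := by
  funext x y q
  have key : ∀ p p' : V → Prop, p = p' → (open Classical in
      (if h : ∃ a, p a then Classical.choose h else Classical.choice ⟨(0 : V)⟩) =
        if h : ∃ a, p' a then Classical.choose h else Classical.choice ⟨(0 : V)⟩) := by
    rintro p _ rfl
    rfl
  exact key (fun a => a ∈ ball (0 : V) 1 ∧ (c y a).swap = (c x q).swap)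
    (fun a => a ∈ ball (0 : V) 1 ∧ c y a = c x q) (by simp only [Prod.swap_inj])

end Tau

variable {Γ X B E V : Type} [Group Γ] [Countable Γ] [MetricSpace X] [ProperSpace X]
  [MulAction Γ X] [IsIsometricSMul Γ X] [MeasurableSpace X] [BorelSpace X]
  [TopologicalSpace B] [CompactSpace B] [T2Space B] [SecondCountableTopology B] [MulAction Γ B]
  [ContinuousConstSMul Γ B] [MeasurableSpace B] [BorelSpace B]
  [NormedAddCommGroup E] [InnerProductSpace ℝ E] [FiniteDimensional ℝ E]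
  [NormedAddCommGroup V] [NormedSpace ℝ V] [FiniteDimensional ℝ V]
  {F G W : Type} [NormedAddCommGroup F] [NormedSpace ℝ F] [FiniteDimensional ℝ F]
  [NormedAddCommGroup G] [NormedSpace ℝ G] [FiniteDimensional ℝ G]
  [NormedAddCommGroup W] [NormedSpace ℝ W]

/-- the reversed system -/
def Sys.rev (S : Sys Γ X B E V) : Sys Γ X B E V where
  nonempty := S.nonempty
  φ t := S.φ (-t)
  φ_zero x := by rw [neg_zero, S.φ_zero]
  φ_add s t x := by rw [neg_add, S.φ_add]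
  φ_cont := S.φ_cont.comp (continuous_fst.neg.prodMk continuous_snd)
  φ_smul g t x := S.φ_smul g (-t) x
  em := S.ep
  ep := S.em
  em_cont := S.ep_cont
  ep_cont := S.em_cont
  em_smul := S.ep_smul
  ep_smul := S.em_smul
  em_φ t x := S.ep_φ (-t) x
  ep_φ t x := S.em_φ (-t) x
  em_ne_ep x := (S.em_ne_ep x).symm
  lv := S.lp
  lp := S.lv
  lv_cont := S.lp_cont
  lp_cont := S.lv_cont
  lv_φ t x := by rw [S.lp_φ, sub_neg_eq_add]
  lp_φ t x := by rw [S.lv_φ, sub_eq_add_neg]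
  lv_smul := S.lp_smul
  lp_smul := S.lv_smul
  lv_add x y h h' := by linarith [S.lv_add x y h' h]
  exists_frame ξ η h := (S.exists_frame η ξ h.symm).imp fun _ hx => hx.symm
  hopf_proper K hK hne c := by
    have h := S.hopf_proper (Prod.swap '' K) (hK.image continuous_swap) (by
      rintro _ ⟨p, hp, rfl⟩
      exact (hne p hp).symm) c
    convert h using 2
    funext x
    rw [abs_sub_comm, image_swap_eq_preimage_swap]
    rfl
  cocompact := S.cocompact
  proper := S.proper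
  iS := S.iU
  iU := S.iS
  pS := S.pU
  pU := S.pS
  pS_iS := S.pU_iU
  pU_iU := S.pS_iS
  pS_iU := S.pU_iS
  pU_iS := S.pS_iU
  iS_add z := by rw [add_comm, S.iS_add]
  norm_eq z := by rw [max_comm, S.norm_eq]
  c x z := (S.c x z).swap
  c_zero x := by rw [S.c_zero, Prod.swap_prod_mk]
  c_inj x := fun _ ha _ hb h => S.c_inj x ha hb (Prod.swap_injective h)
  c_ne x z hz := (S.c_ne x z hz).symm
  c_cont := continuous_swap.comp_continuousOn S.c_cont
  c_open O hO h := by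
    have h1 := (S.c_open O hO h).preimage
      (f := fun p : X × (B × B) => (p.1, p.2.swap)) (by fun_prop)
    convert h1 using 1
    ext p
    simp only [mem_setOf_eq, mem_preimage, mem_image, Prod.swap_eq_iff_eq_swap]
  c_smul g x z hz := by rw [S.c_smul g x z hz, Prod.smul_swap]
  c_U x z hz := S.c_S x z hz
  c_S x z hz := S.c_U x z hz
  τ_jc := by
    rw [tdom_swap, ttau_swap]
    exact S.τ_jc
  τ_symp x y q hq v w := by
    rw [tdom_swap] at hq
    rw [ttau_swap]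
    linarith [S.τ_symp x y q hq v w]
  lam := S.lam
  lam_pos := S.lam_pos
  ρ := S.ρ
  ρ_pos := S.ρ_pos
  domS := by
    rw [tdom_swap]
    exact S.domU
  domU := by
    simp only [tdom_swap, neg_neg]
    exact S.domS
  contrS := by
    rw [ttau_swap]
    exact S.contrU
  contrU := by
    simp only [ttau_swap, neg_neg]
    exact S.contrS
  asymS := S.asymU
  asymU := by
    simp only [neg_neg]
    exact S.asymS
  ν := S.ν
  ν_finite := S.ν_finite
  ν_pos := S.ν_pos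
  ν_point := S.ν_point
  ν_smul := S.ν_smul

variable {S : Sys Γ X B E V}

theorem Sys.rev_τ : S.rev.τ = S.τ := ttau_swap S.c
theorem Sys.rev_dom : S.rev.dom = S.dom := tdom_swap S.c
theorem Sys.rev_Dm : S.rev.Dm = S.Dm := by
  unfold Sys.Dm
  rw [Sys.rev_dom]
theorem Sys.prod_swap_image (A : Set (B × B)) :
    S.ν.prod S.ν (Prod.swap '' A) = S.ν.prod S.ν A := by
  rw [image_swap_eq_preimage_swap]
  have h := (MeasurableEquiv.prodComm (α := B) (β := B)).map_apply (μ := S.ν.prod S.ν) A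
  exact h.symm.trans (congrArg (fun m : Measure (B × B) => m A) Measure.prod_swap)
theorem Sys.rev_μ : S.rev.μ = S.μ := by
  ext s hs
  rw [Sys.μ, Sys.μ, Measure.ofMeasurable_apply s hs, Measure.ofMeasurable_apply s hs,
    ← Sys.prod_swap_image (S := S) (S.pt '' s), image_image]
  rfl
theorem Sys.rev_pt (x : X) : S.rev.pt x = (S.pt x).swap := rfl
theorem Sys.rev_pt_iff {x y : X} : S.rev.pt x = S.rev.pt y ↔ S.pt x = S.pt y := by
  rw [Sys.rev_pt, Sys.rev_pt, Prod.swap_inj]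
theorem Sys.rev_φ (t : ℝ) : S.rev.φ t = S.φ (-t) := rfl
theorem Sys.rev_om : S.rev.om = -S.om := by
  ext v w
  change inner ℝ (S.pU v) (S.pS w) - inner ℝ (S.pS v) (S.pU w) = -(S.om v w)
  rw [S.om_apply, neg_sub]
theorem Sys.rev_tight {T : ℕ → X → Prop} : S.rev.Tight T ↔ S.Tight T := by
  unfold Sys.Tight
  rw [Sys.rev_μ]
theorem Sys.rev_image {x y : X} {O : Set V} :
    S.rev.pt y ∈ S.rev.c x '' O ↔ S.pt y ∈ S.c x '' O :=
  exists_congr fun q => and_congr_right fun _ => Prod.swap_inj (p := S.c x q) (q := S.pt y)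
theorem Sys.rev_alongS {x : X} {r : ℝ} {Q : X → Prop} :
    S.rev.AlongS x r Q ↔ S.AlongU x r Q :=
  eventually_congr (Eventually.of_forall fun ξ => forall_congr' fun y =>
    imp_congr (Prod.swap_inj (p := S.pt y) (q := (S.em x, ξ))) (imp_congr_left Sys.rev_image))
theorem Sys.rev_alongU {x : X} {r : ℝ} {Q : X → Prop} :
    S.rev.AlongU x r Q ↔ S.AlongS x r Q :=
  eventually_congr (Eventually.of_forall fun ξ => forall_congr' fun y =>
    imp_congr (Prod.swap_inj (p := S.pt y) (q := (ξ, S.ep x))) (imp_congr_left Sys.rev_image))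

theorem ae_neg {Q : ℝ → Prop} (h : ∀ᵐ t : ℝ, Q t) : ∀ᵐ t : ℝ, Q (-t) :=
  (Measure.measurePreserving_neg (volume : Measure ℝ)).quasiMeasurePreserving.ae h

/-- the reversed measure -/
def Prob.rev {Y : Type} [MeasurableSpace Y] [MulAction Γ Y] (P : Prob S Y) : Prob S.rev Y where
  m := P.m
  inv := P.inv
  smul_meas := P.smul_meas
  Z := P.Z
  Z_meas := P.Z_meas
  fund := P.fund
  Z_strict := P.Z_strict
  Z_one := P.Z_one
  ψ t := P.ψ (-t)
  ψ_zero y := by rw [neg_zero, P.ψ_zero]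
  ψ_add s t y := by rw [neg_add, P.ψ_add]
  ψ_meas := P.ψ_meas.comp (measurable_fst.neg.prodMk measurable_snd)
  ψ_pres t := P.ψ_pres (-t)
  ψ_smul g t y := P.ψ_smul g (-t) y
  erg A hA hg hψ := P.erg A hA hg fun t y => by simpa only [neg_neg] using hψ (-t) y
  π := P.π
  π_meas := P.π_meas
  π_smul := P.π_smul
  π_φ t x := P.π_φ (-t) x
  π_eq x x' := by
    rw [P.π_eq, Sys.rev_pt_iff]
    refine and_congr_right fun h => ?_
    have h1 := S.lv_add x x' (congrArg Prod.fst h) (congrArg Prod.snd h)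
    change _ ↔ S.lp x = S.lp x'
    constructor <;> intro h2 <;> linarith
  fr := P.fr
  fr_meas := P.fr_meas
  fr_smul := P.fr_smul
  π_fr := P.π_fr
  fr_Z := P.fr_Z
  ae_fr := by
    rw [Sys.rev_μ]
    exact P.ae_fr
  ae_ψ Q h := by
    rw [Sys.rev_μ]
    exact (P.ae_ψ Q h).mono fun x hx => ae_neg hx
  ae_lv Q h := by
    rw [Sys.rev_μ]
    refine (ae_neg (P.ae_lv Q h)).mono fun t ht => ht.mono fun x hx e => hx ?_
    change S.lp x - S.lv x = t at e
    linarith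

theorem Flip.ep_f (f : Flip S) (x : X) : S.ep (f.f x) = S.em x := by
  rw [← f.em_f, f.f_f]
theorem Flip.lp_f (f : Flip S) (x : X) : S.lp (f.f x) = S.lv x := by
  rw [← f.lv_f, f.f_f]
theorem Flip.pt_f (f : Flip S) (x : X) : S.pt (f.f x) = (S.pt x).swap :=
  Prod.ext (f.em_f x) (f.ep_f x)

def Flip.rev (f : Flip S) : Flip S.rev where
  f := f.f
  f_f := f.f_f
  f_cont := f.f_cont
  f_smul := f.f_smul
  f_φ t x := f.f_φ (-t) x
  em_f := f.ep_f
  lv_f := f.lp_f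
  c_f x z hz := congrArg Prod.swap (add_comm (S.iS (S.pU z)) _ ▸ f.c_f x z hz)

def Bun.rev (𝔉 : Bun S F) : Bun S.rev F where
  A := 𝔉.A
  jc := by
    rw [Sys.rev_Dm]
    exact 𝔉.jc
  self := 𝔉.self
  coc := by
    rw [Sys.rev_dom, Sys.rev_τ]
    exact 𝔉.coc
  smul := by
    rw [Sys.rev_dom]
    exact 𝔉.smul

def Coc0.rev (C : Coc0 S F) : Coc0 S.rev F where
  Φ := C.Φ
  cont := C.cont.mono fun _ h => Sys.rev_pt_iff.1 h
  coc x y z h h' := C.coc x y z (Sys.rev_pt_iff.1 h) (Sys.rev_pt_iff.1 h')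
  smul g x y h := C.smul g x y (Sys.rev_pt_iff.1 h)

theorem Bun.rev_pull (𝔉 : Bun S F) (y x : X) (M : V → F →L[ℝ] G) :
    𝔉.rev.pull y x M = 𝔉.pull y x M := by
  funext q
  unfold Bun.pull
  rw [Sys.rev_τ]
  rfl
theorem Bun.rev_extS (𝔉 : Bun S F) {k n : ℕ} {R : X → V → F →L[ℝ] G} {x : X}
    {M : V → F →L[ℝ] G} : 𝔉.rev.ExtS k n R x M ↔ 𝔉.ExtU k n R x M := by
  simp only [Bun.ExtS, Bun.ExtU, Bun.rev_pull, Sys.rev_pt_iff, Sys.rev_alongS]
theorem Bun.rev_extU (𝔉 : Bun S F) {k n : ℕ} {R : X → V → F →L[ℝ] G} {x : X}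
    {M : V → F →L[ℝ] G} : 𝔉.rev.ExtU k n R x M ↔ 𝔉.ExtS k n R x M := by
  simp only [Bun.ExtS, Bun.ExtU, Bun.rev_pull, Sys.rev_pt_iff, Sys.rev_alongU]
theorem Bun.ext' {𝔉 𝔉' : Bun S F} (h : 𝔉.A = 𝔉'.A) : 𝔉 = 𝔉' := by
  cases 𝔉
  cases 𝔉'
  cases h
  rfl

def SSub.rev {𝔉 : Bun S F} (W : SSub 𝔉) : SSub 𝔉.rev where
  H := W.H
  J := W.J
  H_smul := W.H_smul
  J_smul := W.J_smul
  meas := by
    rw [Sys.rev_μ]
    exact W.meas
  measJ := by
    rw [Sys.rev_μ]
    exact W.measJ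
  reg := by
    rw [Sys.rev_μ]
    exact W.reg
  extU := by
    simp only [Sys.rev_tight, Bun.rev_extU]
    exact W.extS
  extS := by
    simp only [Sys.rev_tight, Bun.rev_extS]
    exact W.extU

def SSub.unrev {𝔉 : Bun S F} (W : SSub 𝔉.rev) : SSub 𝔉 where
  H := W.H
  J := W.J
  H_smul := W.H_smul
  J_smul := W.J_smul
  meas := Sys.rev_μ (S := S) ▸ W.meas
  measJ := Sys.rev_μ (S := S) ▸ W.measJ
  reg := Sys.rev_μ (S := S) ▸ W.reg
  extU k := by simpa only [Sys.rev_tight, Bun.rev_extS] using W.extS k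
  extS k := by simpa only [Sys.rev_tight, Bun.rev_extU] using W.extU k

/-- the exchange of the two axes -/
def Sys.sw (S : Sys Γ X B E V) : V →L[ℝ] V := S.iS ∘L S.pU + S.iU ∘L S.pS

theorem Sys.sw_apply (v : V) : S.sw v = S.iS (S.pU v) + S.iU (S.pS v) := rfl
theorem Sys.pS_sw (v : V) : S.pS (S.sw v) = S.pU v := by
  rw [Sys.sw_apply, map_add, S.pS_iS, S.pS_iU, add_zero]
theorem Sys.pU_sw (v : V) : S.pU (S.sw v) = S.pS v := by
  rw [Sys.sw_apply, map_add, S.pU_iS, S.pU_iU, zero_add]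
theorem Sys.sw_iS (w : E) : S.sw (S.iS w) = S.iU w := by
  rw [Sys.sw_apply, S.pU_iS, S.pS_iS, map_zero, zero_add]
theorem Sys.sw_iU (w : E) : S.sw (S.iU w) = S.iS w := by
  rw [Sys.sw_apply, S.pU_iU, S.pS_iU, map_zero, add_zero]
theorem Sys.sw_sw (v : V) : S.sw (S.sw v) = v := by
  rw [Sys.sw_apply, Sys.pS_sw, Sys.pU_sw, S.iS_add]
theorem Sys.sw_mul_sw : S.sw * S.sw = 1 := ContinuousLinearMap.ext Sys.sw_sw
theorem Sys.norm_sw (v : V) : ‖S.sw v‖ = ‖v‖ := by
  rw [S.norm_eq, Sys.pS_sw, Sys.pU_sw, max_comm, ← S.norm_eq]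
theorem Sys.sw_mem {v : V} {r : ℝ} : S.sw v ∈ ball (0 : V) r ↔ v ∈ ball (0 : V) r := by
  rw [mem_ball_zero_iff, mem_ball_zero_iff, Sys.norm_sw]
theorem Sys.om_sw (v w : V) : S.om (S.sw v) (S.sw w) = -S.om v w := by
  rw [S.om_apply, S.om_apply, Sys.pS_sw, Sys.pU_sw, Sys.pS_sw, Sys.pU_sw, neg_sub]
theorem Flip.c_sw (f : Flip S) (x : X) {z : V} (hz : z ∈ ball (0 : V) 1) :
    S.c (f.f x) (S.sw z) = (S.c x z).swap := f.c_f x z hz

theorem Flip.ae (f : Flip S) {Q : X → Prop} (h : ∀ᵐ x ∂S.μ, Q x) : ∀ᵐ x ∂S.μ, Q (f.f x) :=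
  S.ae_iff.2 (((Measure.measurePreserving_swap (μ := S.ν) (ν := S.ν)).quasiMeasurePreserving.ae
    (S.ae_iff.1 h)).mono fun _ hp x hx => hp _ (by rw [f.pt_f, hx]))
theorem Flip.qmp (f : Flip S) : Measure.QuasiMeasurePreserving f.f S.μ S.μ :=
  ⟨f.f_cont.measurable, Measure.AbsolutelyContinuous.mk fun A hA h0 => by
    rw [Measure.map_apply f.f_cont.measurable hA]
    exact measure_eq_zero_iff_ae_notMem.2 (f.ae (measure_eq_zero_iff_ae_notMem.1 h0))⟩
theorem Flip.tight (f : Flip S) {T : ℕ → X → Prop} (h : S.Tight T) :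
    S.Tight fun n x => T n (f.f x) := by
  obtain ⟨R, hR, h⟩ := h
  exact ⟨fun x => R (f.f x), hR.comp f.f_cont.measurable, f.ae h⟩
theorem Flip.dom (f : Flip S) {x y : X} {q : V} :
    S.sw q ∈ S.dom (f.f x) (f.f y) ↔ q ∈ S.dom x y := by
  constructor
  · rintro ⟨hq, v, hv, e⟩
    rw [← Sys.sw_sw (S := S) v, f.c_sw y (Sys.sw_mem.2 hv), f.c_sw x (Sys.sw_mem.1 hq)] at e
    exact Sys.mem_dom (Sys.sw_mem.1 hq) (Sys.sw_mem.2 hv) (Prod.swap_injective e)
  · rintro ⟨hq, v, hv, e⟩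
    exact Sys.mem_dom (Sys.sw_mem.2 hq) (Sys.sw_mem.2 hv) (by rw [f.c_sw y hv, f.c_sw x hq, e])
theorem Flip.τ (f : Flip S) {x y : X} {q : V} (h : q ∈ S.dom x y) :
    S.τ (f.f x) (f.f y) (S.sw q) = S.sw (S.τ x y q) :=
  Sys.τ_eq (Sys.sw_mem.2 (Sys.τ_ball h)) (by
    rw [f.c_sw y (Sys.τ_ball h), f.c_sw x h.1, Sys.c_τ h])
theorem Flip.fderiv_τ (f : Flip S) {x y : X} {q : V} (h : q ∈ S.dom x y) :
    fderiv ℝ (S.τ (f.f x) (f.f y)) (S.sw q) * S.sw = S.sw * fderiv ℝ (S.τ x y) q := by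
  have h1 := (Sys.differentiableAt_τ (f.dom.2 h)).hasFDerivAt.comp q S.sw.hasFDerivAt
  have h2 := S.sw.hasFDerivAt.comp q (Sys.differentiableAt_τ h).hasFDerivAt
  exact h1.unique (h2.congr_of_eventuallyEq (mem_of_superset (Sys.dom_nhds h) fun _ a => f.τ a))
theorem Flip.alongU (f : Flip S) {x : X} {r : ℝ} (hr : r ≤ 1) {Q : X → Prop}
    (h : S.AlongS (f.f x) r Q) : S.AlongU x r fun y => Q (f.f y) :=
  Eventually.mono h fun _ hη y hy ⟨q, hq, e⟩ => hη _ (by rw [f.pt_f, hy, f.ep_f]; rfl)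
    ⟨S.sw q, Sys.sw_mem.2 hq, by rw [f.c_sw x (ball_subset_ball hr hq), e, f.pt_f]⟩
theorem Flip.alongS (f : Flip S) {x : X} {r : ℝ} (hr : r ≤ 1) {Q : X → Prop}
    (h : S.AlongU (f.f x) r Q) : S.AlongS x r fun y => Q (f.f y) :=
  Eventually.mono h fun _ hη y hy ⟨q, hq, e⟩ => hη _ (by rw [f.pt_f, hy, f.em_f]; rfl)
    ⟨S.sw q, Sys.sw_mem.2 hq, by rw [f.c_sw x (ball_subset_ball hr hq), e, f.pt_f]⟩

end Vale.Agent.P207Z
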