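import Vale.Agent.P207Z.Bun
import Vale.Agent.P207Z.RevA

/-!
# P207: reversal of the time (block REV): the roles of the two foliations are exchanged
-/

set_option linter.all false

open Set Filter Topology Metric MeasureTheory Asymptotics
open scoped ContDiff

noncomputable section

namespace Vale.Agent.P207Z

open Vale.Agent.P207.N3 (JC)

variable {Γ X B E V : Type} [Group Γ] [Countable Γ] [MetricSpace X] [ProperSpace X]
  [MulAction Γ X] [IsIsometricSMul Γ X] [MeasurableSpace X] [BorelSpace X]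
  [TopologicalSpace B] [CompactSpace B] [T2Space B] [SecondCountableTopology B] [MulAction Γ B]
  [ContinuousConstSMul Γ B] [MeasurableSpace B] [BorelSpace B]
  [NormedAddCommGroup E] [InnerProductSpace ℝ E] [FiniteDimensional ℝ E]
  [NormedAddCommGroup V] [NormedSpace ℝ V] [FiniteDimensional ℝ V]
  {F G W : Type} [NormedAddCommGroup F] [NormedSpace ℝ F] [FiniteDimensional ℝ F]
  [NormedAddCommGroup G] [NormedSpace ℝ G] [FiniteDimensional ℝ G]
  [NormedAddCommGroup W] [NormedSpace ℝ W]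

variable {S : Sys Γ X B E V}

theorem Sys.rev_TV : S.rev.TV = S.TV.rev :=
  Bun.ext' (by
    funext x y q
    change fderiv ℝ (S.rev.τ x y) q = fderiv ℝ (S.τ x y) q
    rw [Sys.rev_τ])

/-- the exchange of the axes, as an isometry -/
def Sys.swI (S : Sys Γ X B E V) : V ≃ₗᵢ[ℝ] V where
  toLinearEquiv := LinearEquiv.ofInvolutive (S.sw : V →ₗ[ℝ] V) Sys.sw_sw
  norm_map' := Sys.norm_sw

/-- conjugation by the exchange of the axes -/
def Sys.cj (S : Sys Γ X B E V) : (V →L[ℝ] V) →L[ℝ] V →L[ℝ] V :=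
  ContinuousLinearMap.mulLeftRight ℝ (V →L[ℝ] V) S.sw S.sw

theorem Sys.norm_cj : ‖S.cj‖ ≤ 1 := by
  have h : ‖S.sw‖ ≤ 1 := S.sw.opNorm_le_bound zero_le_one fun v => by rw [Sys.norm_sw, one_mul]
  exact (ContinuousLinearMap.opNorm_mulLeftRight_apply_apply_le ℝ _ S.sw S.sw).trans
    (mul_le_one₀ h (norm_nonneg _) h)

theorem Prj.sw {k n : ℕ} {P : V → V →L[ℝ] V} (h : Prj k n P) :
    Prj k n fun q => S.sw * P (S.sw q) * S.sw := by
  have h1 : ContDiffOn ℝ k (P ∘ S.swI) (ball 0 (rad n)) :=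
    h.ckb.smooth.comp S.sw.contDiff.contDiffOn fun _ hq => Sys.sw_mem.2 hq
  refine ⟨⟨S.cj.contDiff.comp_contDiffOn h1, fun i hi q hq => ?_⟩, fun q hq => ?_⟩
  · refine (S.cj.norm_iteratedFDeriv_comp_left (h1.contDiffAt (isOpen_ball.mem_nhds hq))
      (CalcAux.cast_le hi)).trans ?_
    rw [S.swI.norm_iteratedFDeriv_comp_right]
    exact (mul_le_of_le_one_left (norm_nonneg _) Sys.norm_cj).trans
      (h.ckb.bd i hi _ (Sys.sw_mem.2 hq))
  · calc _ = S.sw * (P (S.sw q) * (S.sw * S.sw) * P (S.sw q)) * S.sw := by noncomm_ring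
      _ = _ := by rw [Sys.sw_mul_sw, mul_one, h.idem _ (Sys.sw_mem.2 hq)]

theorem Eqv.sw {k : ℕ} {M M' : V → V →L[ℝ] V} (h : Eqv k M M') :
    Eqv k (fun q => S.sw * M (S.sw q) * S.sw) fun q => S.sw * M' (S.sw q) * S.sw := by
  have key : ∀ N : V → V →L[ℝ] V,
      Eqv k (fun q => S.sw * N (S.sw q) * S.sw) fun q => N (S.sw q) ∘L S.sw := fun N =>
    ⟨Dom.of_le 1 (Eventually.of_forall fun q v => by
      rw [one_mul]
      exact (Sys.norm_sw _).le), Dom.of_le 1 (Eventually.of_forall fun q v => by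
      rw [one_mul]
      exact (Sys.norm_sw _).ge)⟩
  exact (key M).trans ((h.pull S.sw.differentiableAt (map_zero _) continuousAt_const).trans
    (key M').symm)

theorem Sys.cmp_sw (P : V → V →L[ℝ] V) (q : V) :
    cmp (fun q => S.sw * P (S.sw q) * S.sw) q = S.sw * cmp P (S.sw q) * S.sw := by
  simp only [cmp, mul_sub, sub_mul, mul_one, Sys.sw_mul_sw]

theorem Flip.eqv (f : Flip S) {k : ℕ} {x y : X} {P J : V → V →L[ℝ] V} (h0 : (0 : V) ∈ S.dom y x)
    (h : Eqv k (S.TV.pull (f.f y) (f.f x) (cmp P)) (cmp J)) :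
    Eqv k (S.TV.pull y x (cmp fun q => S.sw * P (S.sw q) * S.sw))
      (cmp fun q => S.sw * J (S.sw q) * S.sw) := by
  refine (h.sw (S := S)).congr (mem_of_superset (Sys.dom_nhds h0) fun q hq => ?_)
    (Eventually.of_forall (Sys.cmp_sw J))
  change cmp (fun q => S.sw * P (S.sw q) * S.sw) (S.τ y x q) * fderiv ℝ (S.τ y x) q =
    S.sw * (cmp P (S.τ (f.f y) (f.f x) (S.sw q)) * fderiv ℝ (S.τ (f.f y) (f.f x)) (S.sw q)) * S.sw
  rw [Sys.cmp_sw, f.τ hq, mul_assoc, ← f.fderiv_τ hq]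
  simp only [mul_assoc]

theorem Sys.jet_sw (k : ℕ) : ∃ Φ : Jet k V (V →L[ℝ] V) → Jet k V (V →L[ℝ] V), Continuous Φ ∧
    ∀ P : V → V →L[ℝ] V, ContDiffAt ℝ k P 0 →
      jet k (fun q => S.sw * P (S.sw q) * S.sw) 0 = Φ (jet k P 0) := by
  refine ⟨fun a i => S.cj.compContinuousMultilinearMap
    ((a i).compContinuousLinearMap fun _ => S.sw), continuous_pi fun i => ?_, fun P hP => ?_⟩
  · exact (ContinuousLinearMap.compContinuousMultilinearMapL ℝ _ _ _ S.cj).continuous.comp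
      ((ContinuousMultilinearMap.compContinuousLinearMapL fun _ => S.sw).continuous.comp
        (continuous_apply i))
  · funext i
    have h1 : ContDiffAt ℝ k (P ∘ S.swI.toContinuousLinearEquiv) 0 :=
      ContDiffAt.comp 0 (by simpa only [map_zero] using hP) S.sw.contDiff.contDiffAt
    have h2 := S.swI.toContinuousLinearEquiv.iteratedFDerivWithin_comp_right P uniqueDiffOn_univ
      (mem_univ (S.swI.toContinuousLinearEquiv 0)) i
    rw [preimage_univ, iteratedFDerivWithin_univ, iteratedFDerivWithin_univ, map_zero] at h2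
    refine (S.cj.iteratedFDeriv_comp_left h1 (CalcAux.cast_le (Nat.le_of_lt_succ i.2))).trans ?_
    rw [h2]
    rfl

/-- the image of a subbundle of the tangent bundle under the flip -/
def SSub.flip (f : Flip S) (W : SSub S.TV) : SSub S.TV where
  H x := (W.H (f.f x)).map (S.sw : V →ₗ[ℝ] V)
  J k x q := S.sw * W.J k (f.f x) (S.sw q) * S.sw
  H_smul g x := by rw [f.f_smul, W.H_smul]
  J_smul k g x := by rw [f.f_smul, W.J_smul]
  meas := by
    obtain ⟨A, hA, h⟩ := W.meas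
    exact MET.MSub.map ⟨_, hA.comp_quasiMeasurePreserving f.qmp, f.ae h⟩ aemeasurable_const
  measJ k := by
    obtain ⟨Φ, hΦ, h⟩ := S.jet_sw k
    refine (hΦ.comp_aestronglyMeasurable
      ((W.measJ k).comp_quasiMeasurePreserving f.qmp)).congr ((f.ae (W.reg k)).mono ?_)
    rintro x ⟨⟨n, hn⟩, -⟩
    exact (h _ (hn.ckb.contDiffAt (mem_ball_self (rad_pos n)))).symm
  reg k := (f.ae (W.reg k)).mono fun x hx => ⟨hx.1.imp fun _ h => h.sw, by
    rw [← hx.2, map_zero]
    ext v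
    constructor
    · rintro ⟨w, rfl⟩
      exact ⟨_, ⟨S.sw w, rfl⟩, rfl⟩
    · rintro ⟨_, ⟨w, rfl⟩, rfl⟩
      exact ⟨S.sw w, congrArg (fun u => S.sw (W.J k (f.f x) 0 u)) (Sys.sw_sw w)⟩⟩
  extU k := (f.tight (W.extS k)).mono (Eventually.of_forall fun x n ⟨P, hP, h1, h2⟩ =>
    ⟨_, hP.sw, fun y hy => f.eqv (Sys.zero_dom hy) (h1 _ (by rw [f.pt_f, f.pt_f, hy])),
      (f.alongU (rad_le_one n) h2).mono le_rfl fun y _ hy =>
        f.eqv (Sys.zero_dom_image (rad_le_one n) hy).1⟩)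
  extS k := (f.tight (W.extU k)).mono (Eventually.of_forall fun x n ⟨P, hP, h1, h2⟩ =>
    ⟨_, hP.sw, fun y hy => f.eqv (Sys.zero_dom hy) (h1 _ (by rw [f.pt_f, f.pt_f, hy])),
      (f.alongS (rad_le_one n) h2).mono le_rfl fun y _ hy =>
        f.eqv (Sys.zero_dom_image (rad_le_one n) hy).1⟩)

end Vale.Agent.P207Z
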