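import Vale.Agent.P207Z.OpsB
import Vale.Agent.P207Z.OpsC
import Vale.Agent.P207Z.Rev

/-!
# P207: preimages, and the derived operations on the class S (block OPS4)
-/

set_option linter.all false

open Set Filter Topology Metric MeasureTheory Asymptotics
open scoped ContDiff

noncomputable section

namespace Vale.Agent.P207Z

open Vale.Agent.P207.N3 (JC)

variable {Γ X B E V : Type} [Group Γ] [Countable Γ] [MetricSpace X] [ProperSpace X]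
  [MulAction Γ X] [IsIsometricSMul Γ X] [MeasurableSpace X] [BorelSpace X]
  [TopologicalSpace B] [CompactSpace B] [T2Space B] [SecondCountableTopology B] [MulAction Γ B]
  [ContinuousConstSMul Γ B] [MeasurableSpace B] [BorelSpace B]
  [NormedAddCommGroup E] [InnerProductSpace ℝ E] [FiniteDimensional ℝ E]
  [NormedAddCommGroup V] [NormedSpace ℝ V] [FiniteDimensional ℝ V]
  {F G W : Type} [NormedAddCommGroup F] [NormedSpace ℝ F] [FiniteDimensional ℝ F]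
  [NormedAddCommGroup G] [NormedSpace ℝ G] [FiniteDimensional ℝ G]
  [NormedAddCommGroup W] [NormedSpace ℝ W]
  {F' : Type} [NormedAddCommGroup F'] [NormedSpace ℝ F'] [FiniteDimensional ℝ F']

variable {S : Sys Γ X B E V} {Y : Type} [MeasurableSpace Y] [MulAction Γ Y]
  {𝔉 : Bun S F} {𝔊 : Bun S G} {ℌ : Bun S F'}

/-- a smooth morphism which depends on the point, up to a scalar factor -/
structure MorV (𝔉 : Bun S F) (𝔊 : Bun S G) (M : X → V → F →L[ℝ] G) : Prop where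
  jc : JC M (univ ×ˢ ball 0 1)
  smul : ∀ (g : Γ) x, M (g • x) = M x
  ex : ∃ f : X → X → V → ℝ, ContinuousOn (fun p : (X × X) × V => f p.1.1 p.1.2 p.2) S.Dm ∧
    ∀ x y, ∀ q ∈ S.dom x y, f x y q ≠ 0 ∧
      M y (S.τ x y q) ∘L 𝔉.A x y q = f x y q • (𝔊.A x y q ∘L M x q)

theorem Mor.morV {M : F →L[ℝ] G} (h : Mor 𝔉 𝔊 M) : MorV 𝔉 𝔊 fun _ _ => M :=
  ⟨JC.const (isOpen_univ.prod isOpen_ball) M, fun _ _ => rfl, h.ex⟩

namespace OpsD

theorem dom_pair {G' W' : Type} [NormedAddCommGroup G'] [NormedSpace ℝ G']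
    [NormedAddCommGroup W'] [NormedSpace ℝ W'] {k : ℕ} {A : V → F →L[ℝ] W} {A' : V → F →L[ℝ] W'}
    {C : V → F →L[ℝ] G} {C' : V → F →L[ℝ] G'} (h : Dom k A A') (h' : Dom k C C') :
    Dom k (fun q => (A q).prod (C q)) fun q => (A' q).prod (C' q) :=
  (h.trans (Dom.of_le 1 (Eventually.of_forall fun q v => by
    rw [one_mul]; exact norm_fst_le ((A' q).prod (C' q) v)))).prod
  (h'.trans (Dom.of_le 1 (Eventually.of_forall fun q v => by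
    rw [one_mul]; exact norm_snd_le ((A' q).prod (C' q) v))))

theorem eqv_pair {k : ℕ} {A A' : V → F →L[ℝ] W} {C C' : V → G →L[ℝ] G} {M : V → F →L[ℝ] G}
    (h : Eqv k A A') (h' : Eqv k C C') (hM : ContinuousAt M 0) :
    Eqv k (fun q => (A q).prod (C q ∘L M q)) fun q => (A' q).prod (C' q ∘L M q) :=
  have h1 := h'.pull (τ := id) differentiableAt_id rfl hM
  ⟨dom_pair h.1 h1.1, dom_pair h.2 h1.2⟩

theorem eqv_smul {k : ℕ} {C : V → F →L[ℝ] G} {f : V → ℝ} (hf : ContinuousAt f 0) (h0 : f 0 ≠ 0) :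
    Eqv k (fun q => f q • C q) C := by
  refine ⟨((Dom.refl C).left (U := fun q => f q • ContinuousLinearMap.id ℝ G)
    (hf.smul continuousAt_const)).congr (Eventually.of_forall fun q => by ext; simp) .rfl,
    ((Dom.refl fun q => f q • C q).left (U := fun q => (f q)⁻¹ • ContinuousLinearMap.id ℝ G)
    ((hf.inv₀ h0).smul continuousAt_const)).congr ?_ .rfl⟩
  filter_upwards [hf.eventually_ne h0] with q hq
  ext
  simp [hq]

variable {M : X → V → F →L[ℝ] G}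

theorem mem0 (x : X) : (x, (0 : V)) ∈ univ ×ˢ ball (0 : V) 1 := ⟨trivial, mem_ball_self one_pos⟩

theorem cd (hM : MorV 𝔉 𝔊 M) (k : ℕ) (x : X) : ContDiffAt ℝ k (M x) 0 :=
  (hM.jc.contDiffAt (mem0 x)).of_le (by exact_mod_cast le_top)

theorem meas0 (hM : MorV 𝔉 𝔊 M) : AEMeasurable (fun x => M x 0) S.μ :=
  (hM.jc.continuousOn.comp_continuous (f := fun x => (x, 0)) (by fun_prop)
    mem0).measurable.aemeasurable

theorem eqv_pull (hM : MorV 𝔉 𝔊 M) {k : ℕ} {x y : X} (h0 : (0 : V) ∈ S.dom y x)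
    {A A' : V → F →L[ℝ] F} {C C' : V → G →L[ℝ] G} (h : Eqv k (𝔉.pull y x A) A')
    (h' : Eqv k (𝔊.pull y x C) C') :
    Eqv k (𝔉.pull y x fun q => (A q).prod (C q ∘L M x q)) fun q => (A' q).prod (C' q ∘L M y q) := by
  obtain ⟨f, hf, hfe⟩ := hM.ex
  have h1 : ContinuousAt (f y x) 0 :=
    (hf.continuousAt (x := ((y, x), 0)) (Sys.isOpen_Dm.mem_nhds h0)).comp
      (f := fun q : V => ((y, x), q)) (by fun_prop)
  have h2 := eqv_smul (k := k) (C := fun q => 𝔊.pull y x C q ∘L M y q) h1 (hfe _ _ _ h0).1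
  refine Eqv.trans (Eqv.congr ⟨dom_pair (Dom.refl _) h2.1, dom_pair (Dom.refl _) h2.2⟩ ?_ .rfl)
    (eqv_pair h h' (cd hM 0 y).continuousAt)
  filter_upwards [Sys.dom_nhds h0] with q hq
  have := (hfe _ _ _ hq).2
  refine ContinuousLinearMap.ext fun v => Prod.ext rfl ?_
  simpa [Bun.pull] using congrArg (fun T => C (S.τ y x q) (T v)) this

theorem val (W₁ : SSub 𝔉) (k : ℕ) : ∀ᵐ x ∂S.μ, ∀ n P, Prj k n P →
    Eqv k (𝔉.pull x x (cmp P)) (cmp (W₁.J k x)) → (P 0).range = W₁.H x := by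
  filter_upwards [W₁.reg k] with x ⟨⟨n', h1⟩, h2⟩ n P hP he
  have := he.ker_eq
  rwa [(𝔉.pull_self x _).eq_of_nhds, ker_cmp (hP.idem 0 (mem_ball_self (rad_pos _))),
    ker_cmp (h1.idem 0 (mem_ball_self (rad_pos _))), h2] at this

theorem norm_le {p P : F →L[ℝ] F} {K : ℝ} (hK : ‖p‖ ≤ K) (h : ∀ v ∈ P.range, p v = v) (v : F) :
    ‖(1 - p) v‖ ≤ (1 + K) * ‖(1 - P) v‖ := by
  have e : (1 - p) v = (1 - P) v - p ((1 - P) v) := by simp [h (P v) ⟨v, rfl⟩]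
  rw [e, add_mul, one_mul]
  exact (norm_sub_le _ _).trans (add_le_add le_rfl ((p.le_opNorm _).trans (by gcongr)))

/-- the pairing of two linear maps -/
def prL (F G : Type) [NormedAddCommGroup F] [NormedSpace ℝ F] [NormedAddCommGroup G]
    [NormedSpace ℝ G] : (F →L[ℝ] F) × (F →L[ℝ] G) →L[ℝ] F →L[ℝ] F × G :=
  (ContinuousLinearMap.prodₗᵢ ℝ : _ ≃ₗᵢ[ℝ] (F →L[ℝ] F × G)).toContinuousLinearEquiv

theorem prL_apply (A : F →L[ℝ] F) (C : F →L[ℝ] G) : prL F G (A, C) = A.prod C := rfl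

theorem ckB_pair (hM : MorV 𝔉 𝔊 M) (k n : ℕ) : ∃ n' ≥ n, ∀ x (P : V → F →L[ℝ] F)
    (Q : V → G →L[ℝ] G), CkB k n P → CkB k n Q →
    CkB k n' fun q => (cmp P q).prod (cmp Q q ∘L M x q) := by
  obtain ⟨C, -, hC⟩ := S.unif_one hM.jc (fun g x q _ => by rw [hM.smul]) one_half_lt_one k
  obtain ⟨m, hm⟩ := exists_nat_ge C
  obtain ⟨n₁, h1, hb⟩ := ckB_bilin (V := V) (ContinuousLinearMap.compL ℝ F G G) k (2 * (n + m + 1))
  obtain ⟨n₂, h2, hc⟩ := ckB_clm (V := V) (prL F G) k n₁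
  refine ⟨n₂, by omega, fun x P Q hP hQ => ?_⟩
  have hr : rad (2 * (n + m + 1)) ≤ 1 / 2 := (rad_anti (n := 1) (by omega)).trans (by norm_num [rad])
  have h3 : CkB k (2 * (n + m + 1)) (M x) := ⟨((hM.jc.smooth x).of_le (by exact_mod_cast le_top)).mono
    fun q hq => ⟨trivial, ball_subset_ball (rad_le_one _) hq⟩, fun i hi q hq =>
      (hC x q ((mem_ball_zero_iff.1 hq).le.trans hr) i hi).trans (hm.trans (by
        exact_mod_cast (by omega : m ≤ 2 * (n + m + 1))))⟩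
  have h4 : (1 : ℝ) ≤ (n + m + 1 : ℕ) := by exact_mod_cast (by omega : 1 ≤ n + m + 1)
  exact hc _ ((((CkB.const 1 (ContinuousLinearMap.norm_id_le.trans h4)).sub
    (hP.mono le_rfl (by omega))).mono le_rfl h1).prod (hb _ _ ((CkB.const 1
      (ContinuousLinearMap.norm_id_le.trans h4)).sub (hQ.mono le_rfl (by omega))) h3))

theorem tight_two {T T' : ℕ → X → Prop} (h : S.Tight T) (h' : S.Tight T') :
    S.Tight fun n x => ∃ n₁ ≤ n, ∃ n₂ ≤ n, T n₁ x ∧ T' n₂ x :=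
  h.imp₂ h' fun n n' =>
    ⟨n + n', Eventually.of_forall fun _ h h' => ⟨n, by omega, n', by omega, h, h'⟩⟩

theorem ext (hM : MorV 𝔉 𝔊 M) (W₁ : SSub 𝔉) (W₂ : SSub 𝔊) (k : ℕ)
    (Al : X → ℝ → (X → Prop) → Prop)
    (hA : ∀ x r r' r'' Q Q' Q'', Al x r Q → Al x r' Q' → r'' ≤ r → r'' ≤ r' →
      (∀ y, S.pt y ∈ S.c x '' ball 0 r'' → Q y → Q' y → Q'' y) → Al x r'' Q'')
    (h₁ : S.Tight fun n x => ∃ P, Prj k n P ∧
      (∀ y, S.pt y = S.pt x → Eqv k (𝔉.pull y x (cmp P)) (cmp (W₁.J k y))) ∧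
        Al x (rad n) fun y => Eqv k (𝔉.pull y x (cmp P)) (cmp (W₁.J k y)))
    (h₂ : S.Tight fun n x => ∃ P, Prj k n P ∧
      (∀ y, S.pt y = S.pt x → Eqv k (𝔊.pull y x (cmp P)) (cmp (W₂.J k y))) ∧
        Al x (rad n) fun y => Eqv k (𝔊.pull y x (cmp P)) (cmp (W₂.J k y))) :
    S.Tight fun n x => ∃ N : V → F →L[ℝ] F × G, CkB k n N ∧
      (N 0).ker = W₁.H x ⊓ (W₂.H x).comap (M x 0 : F →ₗ[ℝ] G) ∧
      (∀ v, infDist v (W₁.H x ⊓ (W₂.H x).comap (M x 0 : F →ₗ[ℝ] G) : Submodule ℝ F) ≤ n * ‖N 0 v‖) ∧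
      (∀ y, S.pt y = S.pt x → Eqv k (𝔉.pull y x N)
        fun q => (cmp (W₁.J k y) q).prod (cmp (W₂.J k y) q ∘L M y q)) ∧
      Al x (rad n) fun y => Eqv k (𝔉.pull y x N)
        fun q => (cmp (W₁.J k y) q).prod (cmp (W₂.J k y) q ∘L M y q) := by
  obtain ⟨p₁, K₁, a1, a2, -, a3⟩ := W₁.meas.exists_proj
  obtain ⟨p₂, K₂, b1, b2, -, b3⟩ := W₂.meas.exists_proj
  have hN : AEMeasurable (fun x => ((1 - p₁ x).prod ((1 - p₂ x) ∘L M x 0) : F →L[ℝ] F × G)) S.μ :=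
    (prL F G).continuous.measurable.comp_aemeasurable
      ((measurable_const.sub a1).aemeasurable.prodMk
        (MET.aem_comp (measurable_const.sub b1).aemeasurable (meas0 hM)))
  have h₃ := Sys.tight_gap (MET.msub_const ⊤) hN
  obtain ⟨K, hK⟩ := exists_nat_ge (1 + max K₁ K₂)
  refine (tight_two h₁ h₂).imp₂ h₃ fun n m => ?_
  obtain ⟨n', hn, hc⟩ := ckB_pair hM k n
  refine ⟨n' + m * K, ?_⟩
  filter_upwards [a3, b3, val W₁ k, val W₂ k] with x a4 b4 v1 v2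
    ⟨n₁, i1, n₂, i2, ⟨P, hP, c1, c2⟩, Q, hQ, d1, d2⟩ hg
  have e1 := v1 _ _ hP (c1 x rfl)
  have e2 := v2 _ _ hQ (d1 x rfl)
  refine ⟨_, (hc x P Q (hP.ckb.mono le_rfl i1) (hQ.ckb.mono le_rfl i2)).mono le_rfl (by omega),
    ?_, fun v => ?_, fun y hy => eqv_pull hM (Sys.zero_dom hy) (c1 y hy) (d1 y hy),
    hA _ _ _ _ _ _ _ c2 d2 (rad_anti (by omega)) (rad_anti (by omega)) fun y ⟨q, hq, he⟩ =>
      eqv_pull hM (Sys.zero_dom' (ball_subset_ball (rad_le_one _) hq) he.symm)⟩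
  · rw [← e1, ← e2, ← ker_cmp (hP.idem 0 (mem_ball_self (rad_pos _))),
      ← ker_cmp (hQ.idem 0 (mem_ball_self (rad_pos _)))]
    ext v
    simp
  · have e3 : ⊤ ⊓ ((1 - p₁ x).prod ((1 - p₂ x) ∘L M x 0)).ker =
        W₁.H x ⊓ (W₂.H x).comap (M x 0 : F →ₗ[ℝ] G) := by
      ext v
      simp only [top_inf_eq, LinearMap.mem_ker, Submodule.mem_inf, Submodule.mem_comap]
      change ((v - p₁ x v, M x 0 v - p₂ x (M x 0 v)) : F × G) = 0 ↔ _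
      rw [Prod.mk_eq_zero, sub_eq_zero, sub_eq_zero]
      exact ⟨fun h => ⟨h.1 ▸ a4.1 v, (h.2 ▸ b4.1 (M x 0 v) : M x 0 v ∈ W₂.H x)⟩,
        fun h => ⟨(a4.2 v h.1).symm, (b4.2 _ h.2).symm⟩⟩
    have h4 := hg v trivial
    rw [e3] at h4
    have h5 := norm_le ((a2 x).trans (le_max_left K₁ K₂)) (P := P 0) (e1 ▸ a4.2) v
    have h6 := norm_le ((b2 x).trans (le_max_right K₁ K₂)) (P := Q 0) (e2 ▸ b4.2) (M x 0 v)
    have h7 : ‖(1 - p₁ x).prod ((1 - p₂ x) ∘L M x 0) v‖ ≤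
        K * ‖(cmp P 0).prod (cmp Q 0 ∘L M x 0) v‖ :=
      max_le (h5.trans (mul_le_mul hK (norm_fst_le ((cmp P 0).prod (cmp Q 0 ∘L M x 0) v))
        (norm_nonneg _) (Nat.cast_nonneg _))) (h6.trans (mul_le_mul hK
          (norm_snd_le ((cmp P 0).prod (cmp Q 0 ∘L M x 0) v)) (norm_nonneg _) (Nat.cast_nonneg _)))
    refine h4.trans ((mul_le_mul_of_nonneg_left h7 (Nat.cast_nonneg _)).trans ?_)
    rw [← mul_assoc]
    push_cast
    exact mul_le_mul_of_nonneg_right (le_add_of_nonneg_left (Nat.cast_nonneg _)) (norm_nonneg _)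

theorem cdJ (W₁ : SSub 𝔉) (k : ℕ) : ∀ᵐ x ∂S.μ, ContDiffAt ℝ k (W₁.J k x) 0 :=
  (W₁.reg k).mono fun _ ⟨⟨_, h⟩, _⟩ => h.ckb.contDiffAt (mem_ball_self (rad_pos _))

theorem cdC (W₁ : SSub 𝔉) (k : ℕ) : ∀ᵐ x ∂S.μ, ContDiffAt ℝ k (cmp (W₁.J k x)) 0 :=
  (cdJ W₁ k).mono fun _ h => contDiffAt_const.sub h

theorem measC (W₁ : SSub 𝔉) (k : ℕ) :
    AEStronglyMeasurable (fun x => jet k (cmp (W₁.J k x)) 0) S.μ :=
  meas_jet_map (Φ := fun T : F →L[ℝ] F => 1 - T) isOpen_univ (by fun_prop) (W₁.measJ k)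
    ((cdJ W₁ k).mono fun _ h => ⟨h, trivial⟩)

/-- the equations of the preimage -/
def comapEq (hM : MorV 𝔉 𝔊 M) (W₁ : SSub 𝔉) (W₂ : SSub 𝔊) : SEq 𝔉 fun _ => F × G where
  H x := W₁.H x ⊓ (W₂.H x).comap (M x 0 : F →ₗ[ℝ] G)
  R k x q := (cmp (W₁.J k x) q).prod (cmp (W₂.J k x) q ∘L M x q)
  H_smul g x := by rw [W₁.H_smul, W₂.H_smul, hM.smul]
  R_smul k g x := by rw [W₁.J_smul, W₂.J_smul, hM.smul]
  meas := W₁.meas.inf (W₂.meas.comap (meas0 hM))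
  measR k := by
    have h1 := (cdC W₂ k).mono fun x h => h.clm_comp (cd hM k x)
    have h2 := meas_jet_bilin (ContinuousLinearMap.compL ℝ F G G) (measC W₂ k)
      (meas_jet_jc hM.jc mem0) (cdC W₂ k) (Eventually.of_forall (cd hM k))
    simp only [ContinuousLinearMap.compL_apply] at h2
    simpa only [prL_apply] using meas_jet_clm (prL F G)
      (meas_jet_prod (measC W₁ k) h2 (cdC W₁ k) h1)
      (((cdC W₁ k).and h1).mono fun x h => h.1.prodMk h.2)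
  reg k := by
    filter_upwards [cdC W₁ k, cdC W₂ k] with x h1 h2
    exact (prL F G).contDiff.contDiffAt.comp 0 (h1.prodMk (h2.clm_comp (cd hM k x)))
  extU k := ext hM W₁ W₂ k S.AlongU (fun x r r' r'' Q Q' Q'' h h' i i' hi =>
    ((h.mono i fun _ _ _ => id).and (h'.mono i' fun _ _ _ => id)).mono le_rfl
      fun y _ hy hq => hi y hy hq.1 hq.2) (W₁.extU k) (W₂.extU k)
  extS k := ext hM W₁ W₂ k S.AlongS (fun x r r' r'' Q Q' Q'' h h' i i' hi =>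
    ((h.mono i fun _ _ _ => id).and (h'.mono i' fun _ _ _ => id)).mono le_rfl
      fun y _ hy hq => hi y hy hq.1 hq.2) (W₁.extS k) (W₂.extS k)

end OpsD

open OpsD

/-- **COMAP** -/
theorem SSub.exists_comapV (P : Prob S Y) {M : X → V → F →L[ℝ] G} (hM : MorV 𝔉 𝔊 M)
    (W₁ : SSub 𝔉) (W₂ : SSub 𝔊) : ∃ Z : SSub 𝔉,
      (∀ x, Z.H x = W₁.H x ⊓ (W₂.H x).comap (M x 0 : F →ₗ[ℝ] G)) ∧ ∀ k, ∀ᵐ x ∂S.μ,
        Eqv k (cmp (Z.J k x)) fun q => (cmp (W₁.J k x) q).prod (cmp (W₂.J k x) q ∘L M x q) := by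
  obtain ⟨Z, h1, h2⟩ := (comapEq hM W₁ W₂).exists_ssub P
  refine ⟨Z, congrFun h1, fun k => ?_⟩
  filter_upwards [h2 k, W₁.J_compat le_rfl k.le_succ, W₂.J_compat le_rfl k.le_succ] with x a b c
  exact a.trans (eqv_pair b c (cd hM 0 x).continuousAt)

/-- **SECOP**, linear -/
theorem SSub.sec_map (P : Prob S Y) {M : X → V → F →L[ℝ] G} (hM : MorV 𝔉 𝔊 M) (W₁ : SSub 𝔉)
    (W₂ : SSub 𝔊) (h : ∀ᵐ x ∂S.μ, ∀ v ∈ W₁.H x, M x 0 v ∈ W₂.H x) (k : ℕ) :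
    ∀ᵐ x ∂S.μ, ∀ s, W₁.Sec k x s → W₂.Sec k x fun q => M x q (s q) := by
  obtain ⟨Z, h1, h2⟩ := SSub.exists_comapV P hM W₁ W₂
  filter_upwards [h2 k, W₁.sec_incl Z (h.mono fun x hx v hv => by rw [h1]; exact ⟨hv, hx v hv⟩) k]
    with x a b s hs
  exact ⟨(cd hM k x).clm_apply hs.1, (a.2.flat_apply le_rfl hs.1.continuousAt (b s hs).2).clm
    (ContinuousLinearMap.snd ℝ F G)⟩

/-- **SECOP**, bilinear -/
theorem SSub.sec_bilin (P : Prob S Y) {M : X → V → F →L[ℝ] G →L[ℝ] F'}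
    (hM : MorV 𝔉 (𝔊.hom ℌ) M) (W₁ : SSub 𝔉) (W₂ : SSub 𝔊) (W₃ : SSub ℌ)
    (h : ∀ᵐ x ∂S.μ, ∀ v ∈ W₁.H x, ∀ w ∈ W₂.H x, M x 0 v w ∈ W₃.H x) (k : ℕ) :
    ∀ᵐ x ∂S.μ, ∀ s s', W₁.Sec k x s → W₂.Sec k x s' →
      W₃.Sec k x fun q => M x q (s q) (s' q) := by
  filter_upwards [SSub.sec_map P hM W₁ (W₂.hom W₃) h k, cdC W₃ k] with x a b s s' hs hs'
  obtain ⟨h1, h2⟩ := a s hs
  refine ⟨h1.clm_apply hs'.1, ((h2.apply hs'.1.continuousAt).add (hs'.2.bilin_right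
    (ContinuousLinearMap.id ℝ (G →L[ℝ] F')) (b.clm_comp h1).continuousAt)).congr
    (Eventually.of_forall fun q => ?_)⟩
  simp [cmp, SSub.hom, SSub.homPrj]
  abel

namespace OpsD

theorem tr {M : X → V → F →L[ℝ] G} (hM : MorV 𝔉 𝔊 M) (ℌ : Bun S F') :
    MorV (𝔊.hom ℌ) (𝔉.hom ℌ) fun x q => (ContinuousLinearMap.compL ℝ F G F').flip (M x q) := by
  obtain ⟨f, hf, hfe⟩ := hM.ex
  refine ⟨hM.jc.clm _, fun g x => by rw [hM.smul], f, hf, fun x y q hq => ⟨(hfe x y q hq).1, ?_⟩⟩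
  ext T v
  have h1 := congrArg (fun L => 𝔊.A y x (S.τ x y q) (L (𝔉.A y x (S.τ x y q) v))) (hfe x y q hq).2
  have h2 := fun v => congrArg (fun L => L v) (𝔉.inv' hq)
  have h3 := fun v => congrArg (fun L => L v) (𝔊.inv hq)
  simp only [ContinuousLinearMap.mul_apply, one_apply_eq_self] at h2 h3
  simp only [ContinuousLinearMap.comp_apply, smul_apply, map_smul, h2, h3] at h1
  simp [Bun.hom_A, h1]

theorem mor_ev : Mor 𝔉 ((𝔉.hom 𝔊).hom 𝔊) (ContinuousLinearMap.apply ℝ G) :=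
  Mor.of_eq fun x y q hq => by
    ext v T
    have h2 := fun v => congrArg (fun L => L v) (𝔊.inv' hq)
    simp only [ContinuousLinearMap.mul_apply, one_apply_eq_self] at h2
    simp [Bun.hom_A, Sys.τ_τ hq, h2]

theorem mor_post : Mor (ℌ.hom 𝔉) ((𝔊.hom ℌ).hom (𝔊.hom 𝔉)) (ContinuousLinearMap.compL ℝ G F' F) :=
  Mor.of_eq fun x y q hq => by
    ext l T v
    have h2 := fun v => congrArg (fun L => L v) (𝔊.inv' hq)
    simp only [ContinuousLinearMap.mul_apply, one_apply_eq_self] at h2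
    simp [Bun.hom_A, Sys.τ_τ hq, h2]

theorem mor_om : Mor S.TV (S.TV.hom (S.triv ℝ)) S.om :=
  Mor.of_eq fun x y q hq => by
    ext v w
    have h2 := congrArg (fun L => L w) (Sys.fderiv_τ_inv' hq)
    have h3 := Sys.om_τ hq v (fderiv ℝ (S.τ y x) (S.τ x y q) w)
    simp only [ContinuousLinearMap.mul_apply, one_apply_eq_self] at h2
    rw [h2] at h3
    simpa [Bun.hom_A, Sys.TV, Sys.triv] using h3

theorem mem_homSub {H : Submodule ℝ F} {K : Submodule ℝ G} {T : F →L[ℝ] G} :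
    T ∈ SSub.homSub H K ↔ ∀ v ∈ H, T v ∈ K := Iff.rfl

theorem bidual {U : Submodule ℝ F} {N : Submodule ℝ (F →L[ℝ] ℝ)}
    (h : ∀ l, l ∈ N ↔ ∀ u ∈ U, l u = 0) :
    ⨅ T ∈ N, (⊥ : Submodule ℝ ℝ).comap (T : F →ₗ[ℝ] ℝ) = U := by
  ext v
  simp only [Submodule.mem_iInf, Submodule.mem_comap, Submodule.mem_bot]
  refine ⟨fun hv => by_contra fun hn => ?_, fun hv T hT => (h T).1 hT v hv⟩
  obtain ⟨l, h1, h2⟩ := U.exists_le_ker_of_notMem hn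
  exact h1 (hv (LinearMap.toContinuousLinearMap l) ((h _).2 fun u hu => h2 hu))

end OpsD

namespace IsS

variable {H H' : X → Submodule ℝ F} {K : X → Submodule ℝ G} {L : X → Submodule ℝ F'}

theorem congr (h : IsS 𝔉 H) (e : ∀ᵐ x ∂S.μ, H x = H' x) : IsS 𝔉 H' :=
  let ⟨W, hW⟩ := h
  ⟨W, (hW.and e).mono fun _ h => h.1.trans h.2⟩
theorem top : IsS 𝔉 fun _ => ⊤ := ⟨SSub.top 𝔉, Eventually.of_forall fun _ => rfl⟩
theorem bot : IsS 𝔉 fun _ => ⊥ := ⟨SSub.bot 𝔉, Eventually.of_forall fun _ => rfl⟩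
theorem hom (h : IsS 𝔉 H) (h' : IsS 𝔊 K) :
    IsS (𝔉.hom 𝔊) fun x => SSub.homSub (H x) (K x) :=
  let ⟨W, hW⟩ := h
  let ⟨W', hW'⟩ := h'
  ⟨W.hom W', (hW.and hW').mono fun _ h => congrArg₂ SSub.homSub h.1 h.2⟩
theorem prod (h : IsS 𝔉 H) (h' : IsS 𝔊 K) : IsS (𝔉.prod 𝔊) fun x => (H x).prod (K x) :=
  let ⟨W, hW⟩ := h
  let ⟨W', hW'⟩ := h'
  ⟨W.prod W', (hW.and hW').mono fun _ h => congrArg₂ (fun a b => Submodule.prod a b) h.1 h.2⟩
theorem inf_comap (P : Prob S Y) {M : X → V → F →L[ℝ] G} (hM : MorV 𝔉 𝔊 M) (h : IsS 𝔉 H)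
    (h' : IsS 𝔊 K) : IsS 𝔉 fun x => H x ⊓ (K x).comap (M x 0 : F →ₗ[ℝ] G) := by
  obtain ⟨W, hW⟩ := h
  obtain ⟨W', hW'⟩ := h'
  obtain ⟨Z, hZ, -⟩ := SSub.exists_comapV P hM W W'
  exact ⟨Z, (hW.and hW').mono fun x h => by rw [hZ, h.1, h.2]⟩
theorem inf (P : Prob S Y) (h : IsS 𝔉 H) (h' : IsS 𝔉 H') : IsS 𝔉 fun x => H x ⊓ H' x :=
  (inf_comap P (Mor.id 𝔉).morV h h').congr (Eventually.of_forall fun x => by ext v; simp)
theorem comap (P : Prob S Y) {M : X → V → F →L[ℝ] G} (hM : MorV 𝔉 𝔊 M) (h : IsS 𝔊 K) :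
    IsS 𝔉 fun x => (K x).comap (M x 0 : F →ₗ[ℝ] G) :=
  (inf_comap P hM top h).congr (Eventually.of_forall fun _ => top_inf_eq _)
/-- the annihilator -/
theorem ann (h : IsS 𝔉 H) : IsS (𝔉.hom (S.triv ℝ)) fun x => SSub.homSub (H x) ⊥ := h.hom bot
/-- the common kernel -/
theorem coann (P : Prob S Y) {N : X → Submodule ℝ (F →L[ℝ] G)} (h : IsS (𝔉.hom 𝔊) N)
    (h' : IsS 𝔊 K) : IsS 𝔉 fun x => ⨅ T ∈ N x, (K x).comap (T : F →ₗ[ℝ] G) :=
  (comap P mor_ev.morV (h.hom h')).congr (Eventually.of_forall fun x => by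
    ext v
    simp only [Submodule.mem_iInf]
    rfl)
theorem of_ann (P : Prob S Y) {N : X → Submodule ℝ (F →L[ℝ] ℝ)} (h : IsS (𝔉.hom (S.triv ℝ)) N)
    (e : ∀ x l, l ∈ N x ↔ ∀ u ∈ H x, l u = 0) : IsS 𝔉 H :=
  (coann P h bot).congr (Eventually.of_forall fun x => bidual (e x))
theorem sup (P : Prob S Y) (h : IsS 𝔉 H) (h' : IsS 𝔉 H') : IsS 𝔉 fun x => H x ⊔ H' x :=
  of_ann P (inf P h.ann h'.ann) fun x l =>
    ⟨fun hl u hu => by
      obtain ⟨a, ha, b, hb, rfl⟩ := Submodule.mem_sup.1 hu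
      rw [map_add, hl.1 a ha, hl.2 b hb, add_zero],
    fun hl => ⟨fun u hu => hl u (Submodule.mem_sup_left hu),
      fun u hu => hl u (Submodule.mem_sup_right hu)⟩⟩
theorem map (P : Prob S Y) {M : X → V → F →L[ℝ] G} (hM : MorV 𝔉 𝔊 M) (h : IsS 𝔉 H) :
    IsS 𝔊 fun x => (H x).map (M x 0 : F →ₗ[ℝ] G) :=
  of_ann P (comap P (tr hM _) h.ann) fun x l =>
    ⟨fun hl _ ⟨u, hu, e⟩ => e ▸ hl u hu, fun hl u hu => hl _ ⟨u, hu, rfl⟩⟩
/-- the span of the values of a bilinear morphism -/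
theorem span₂ (P : Prob S Y) {M : X → V → F →L[ℝ] G →L[ℝ] F'} (hM : MorV 𝔉 (𝔊.hom ℌ) M)
    (h : IsS 𝔉 H) (h' : IsS 𝔊 K) :
    IsS ℌ fun x => Submodule.span ℝ {u | ∃ v ∈ H x, ∃ w ∈ K x, u = M x 0 v w} := by
  have h1 := comap P (tr hM (𝔊.hom (S.triv ℝ))) (h.hom h'.ann)
  have h0 := (mor_post (𝔉 := S.triv ℝ) (𝔊 := 𝔊) (ℌ := ℌ)).morV
  have h2 := comap P h0 h1
  refine of_ann P h2 fun x l => ?_
  rw [Submodule.mem_comap, Submodule.mem_comap, mem_homSub]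
  simp only [mem_homSub, Submodule.mem_bot, ContinuousLinearMap.coe_coe,
    ContinuousLinearMap.flip_apply, ContinuousLinearMap.compL_apply, ContinuousLinearMap.comp_apply]
  refine ⟨fun hl => (Submodule.span_le (p := (l : F' →ₗ[ℝ] ℝ).ker)).2 ?_,
    fun hl v hv w hw => hl _ (Submodule.subset_span ⟨v, hv, w, hw, rfl⟩)⟩
  rintro _ ⟨v, hv, w, hw, rfl⟩
  exact hl v hv w hw
/-- the symplectic orthogonal -/
theorem perp (P : Prob S Y) {H : X → Submodule ℝ V} (h : IsS S.TV H) :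
    IsS S.TV fun x => (SSub.homSub (H x) ⊥).comap (S.om : V →ₗ[ℝ] V →L[ℝ] ℝ) := by
  have := comap P mor_om.morV h.ann
  exact this
theorem flip (f : Flip S) {H : X → Submodule ℝ V} (h : IsS S.TV H) :
    IsS S.TV fun x => (H (f.f x)).map (S.sw : V →ₗ[ℝ] V) :=
  let ⟨W, hW⟩ := h
  ⟨W.flip f, (f.ae hW).mono fun _ h => congrArg (Submodule.map _) h⟩
theorem rank (P : Prob S Y) (h : IsS 𝔉 H) : ∃ d, ∀ᵐ x ∂S.μ, Module.finrank ℝ (H x) = d :=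
  let ⟨W, hW⟩ := h
  let ⟨d, hd⟩ := W.rank P
  ⟨d, (hW.and hd).mono fun _ h => h.1 ▸ h.2⟩

end IsS

end Vale.Agent.P207Z
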