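import Vale.Agent.P207Z.Dyn

/-!
# P207: orbits which stay in the charts (block DYN2)
-/

set_option linter.all false

open Set Filter Topology Metric MeasureTheory Asymptotics
open scoped ContDiff

noncomputable section

namespace Vale.Agent.P207Z

open Vale.Agent.P207.N3 (JC)

variable {Γ X B E V : Type} [Group Γ] [Countable Γ] [MetricSpace X] [ProperSpace X]
  [MulAction Γ X] [IsIsometricSMul Γ X] [MeasurableSpace X] [BorelSpace X]
  [TopologicalSpace B] [CompactSpace B] [T2Space B] [SecondCountableTopology B] [MulAction Γ B]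
  [ContinuousConstSMul Γ B] [MeasurableSpace B] [BorelSpace B]
  [NormedAddCommGroup E] [InnerProductSpace ℝ E] [FiniteDimensional ℝ E]
  [NormedAddCommGroup V] [NormedSpace ℝ V] [FiniteDimensional ℝ V]
  {F G W : Type} [NormedAddCommGroup F] [NormedSpace ℝ F] [FiniteDimensional ℝ F]
  [NormedAddCommGroup G] [NormedSpace ℝ G] [FiniteDimensional ℝ G]
  [NormedAddCommGroup W] [NormedSpace ℝ W]

namespace StayAux

theorem cast_le (n : ℕ) : (n : WithTop ℕ∞) ≤ ∞ := by exact_mod_cast le_top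

theorem mul_le {f g : V → F →L[ℝ] F} {s : Set V} (hs : IsOpen s) (hf : ContDiffOn ℝ ∞ f s)
    (hg : ContDiffOn ℝ ∞ g s) {q : V} (hq : q ∈ s) (n : ℕ) :
    ‖iteratedFDeriv ℝ n (fun y => f y * g y) q‖ ≤ ∑ i ∈ Finset.range (n + 1),
      (n.choose i : ℝ) * ‖iteratedFDeriv ℝ i f q‖ * ‖iteratedFDeriv ℝ (n - i) g q‖ := by
  have h := norm_iteratedFDerivWithin_mul_le hf hg hs.uniqueDiffOn hq (cast_le n)
  simpa only [iteratedFDerivWithin_of_isOpen _ hs hq] using h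

theorem comp_le {g : V → W} {f : V → V} {s t : Set V} (hs : IsOpen s) (ht : IsOpen t)
    (hg : ContDiffOn ℝ ∞ g t) (hf : ContDiffOn ℝ ∞ f s) (hst : MapsTo f s t) {q : V} (hq : q ∈ s)
    (n : ℕ) {C D : ℝ} (hC : ∀ i, i ≤ n → ‖iteratedFDeriv ℝ i g (f q)‖ ≤ C)
    (hD : ∀ i, 1 ≤ i → i ≤ n → ‖iteratedFDeriv ℝ i f q‖ ≤ D ^ i) :
    ‖iteratedFDeriv ℝ n (fun y => g (f y)) q‖ ≤ n.factorial * C * D ^ n := by
  have h := norm_iteratedFDerivWithin_comp_le hg hf (cast_le n) ht.uniqueDiffOn hs.uniqueDiffOn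
    hst hq (C := C) (D := D)
    (by simpa only [iteratedFDerivWithin_of_isOpen _ ht (hst hq)] using hC)
    (by simpa only [iteratedFDerivWithin_of_isOpen _ hs hq] using hD)
  rw [iteratedFDerivWithin_of_isOpen _ hs hq] at h
  exact h

theorem split {m : ℕ} {t : ℝ} (h : |t| ≤ ((m + 1 : ℕ) : ℝ)) :
    ∃ s ∈ uIcc 0 t, |s| ≤ m ∧ |t - s| ≤ 1 := by
  have hm : (0 : ℝ) ≤ m := Nat.cast_nonneg m
  rw [Nat.cast_succ, abs_le] at h
  simp only [mem_uIcc, abs_le]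
  rcases le_total t (-1) with h1 | h1
  · exact ⟨t + 1, Or.inr ⟨by linarith, by linarith⟩, ⟨by linarith, by linarith⟩,
      by linarith, by linarith⟩
  rcases le_total t 1 with h2 | h2
  · exact ⟨0, mem_uIcc.1 left_mem_uIcc, ⟨by linarith, hm⟩, by linarith, by linarith⟩
  · exact ⟨t - 1, Or.inl ⟨by linarith, by linarith⟩, ⟨by linarith, by linarith⟩,
      by linarith, by linarith⟩

theorem pow_ceil {b : ℝ} (hb : 0 ≤ b) (t : ℝ) :
    Real.exp b ^ ⌈|t|⌉₊ ≤ Real.exp (b * (|t| + 1)) := by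
  rw [← Real.exp_nat_mul, mul_comm]
  exact Real.exp_le_exp.2 (mul_le_mul_of_nonneg_left (Nat.ceil_lt_add_one (abs_nonneg t)).le hb)

theorem pow_ceil' {b C : ℝ} (hb : 0 ≤ b) (hC : 0 ≤ C) (t : ℝ) (k : ℕ) :
    C * (Real.exp b ^ ⌈|t|⌉₊) ^ k ≤ C * Real.exp (b * k) * Real.exp (b * k * |t|) := by
  rw [mul_assoc, ← Real.exp_add]
  refine mul_le_mul_of_nonneg_left ((pow_le_pow_left₀ (by positivity) (pow_ceil hb t) k).trans
    (le_of_eq ?_)) hC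
  rw [← Real.exp_nat_mul]
  congr 1
  ring

end StayAux

open StayAux

namespace Sys

variable (S : Sys Γ X B E V)

/-- the point `q` of the chart of `x` stays in the balls of radius `a` up to the time `t` -/
def Stay (a : ℝ) (x : X) (t : ℝ) (q : V) : Prop :=
  ∀ s ∈ uIcc 0 t, q ∈ S.dom x (S.φ s x) ∧ ‖S.τ x (S.φ s x) q‖ ≤ a

variable {S} in
theorem Stay.gen {a t s u : ℝ} {x : X} {q : V} (h : S.Stay a x t q) (hs : s ∈ uIcc 0 t)
    (hu : u + s ∈ uIcc 0 t) : S.Stay a (S.φ s x) u (S.τ x (S.φ s x) q) := by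
  intro v hv
  have h1 : v + s ∈ uIcc 0 t := uIcc_subset_uIcc hs hu (by
    rw [mem_uIcc] at hv ⊢
    rcases hv with hv | hv
    · exact Or.inl ⟨by linarith, by linarith⟩
    · exact Or.inr ⟨by linarith, by linarith⟩)
  rw [← S.φ_add, τ_trans (h s hs).1 (h _ h1).1]
  exact ⟨τ_dom' (h s hs).1 (h _ h1).1, (h _ h1).2⟩

variable {S} in
theorem Stay.symm {a t : ℝ} {x : X} {q : V} (h : S.Stay a x t q) :
    S.Stay a (S.φ t x) (-t) (S.τ x (S.φ t x) q) :=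
  h.gen right_mem_uIcc (by rw [neg_add_cancel]; exact left_mem_uIcc)
variable {S} in
theorem Stay.mono {a a' t t' : ℝ} {x : X} {q : V} (h : S.Stay a x t q) (ha : a ≤ a')
    (ht : t' ∈ uIcc 0 t) : S.Stay a' x t' q := fun s hs =>
  have h1 := h s (uIcc_subset_uIcc left_mem_uIcc ht hs)
  ⟨h1.1, h1.2.trans ha⟩
variable {S} in
theorem Stay.shift {a t s : ℝ} {x : X} {q : V} (h : S.Stay a x t q) (hs : s ∈ uIcc 0 t) :
    S.Stay a (S.φ s x) (t - s) (S.τ x (S.φ s x) q) :=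
  h.gen hs (by rw [sub_add_cancel]; exact right_mem_uIcc)
theorem stay_zero {a : ℝ} (ha : 0 ≤ a) (x : X) (t : ℝ) : S.Stay a x t 0 := fun s _ =>
  ⟨zero_dom (S.pt_φ s x).symm, by rw [τ_zero (S.pt_φ s x).symm, norm_zero]; exact ha⟩

variable {S} in
theorem Stay.ball {a t : ℝ} {x : X} {q : V} (h : S.Stay a x t q) : q ∈ ball (0 : V) 1 :=
  dom_ball (h 0 left_mem_uIcc).1

variable {S} in
theorem Stay.norm_le {a t : ℝ} {x : X} {q : V} (h : S.Stay a x t q) : ‖q‖ ≤ a := by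
  have := (h 0 left_mem_uIcc).2
  rwa [S.φ_zero, τ_self h.ball] at this

theorem dist_φ_le : ∃ D : ℝ, 0 ≤ D ∧ ∀ x s t, |t - s| ≤ 1 → dist (S.φ s x) (S.φ t x) ≤ D := by
  obtain ⟨D, hD, h⟩ := S.dist_le_lv
  refine ⟨D * 2, by positivity, fun x s t hu =>
    (h _ _ ((S.pt_φ s x).trans (S.pt_φ t x).symm)).trans ?_⟩
  rw [S.lv_φ, S.lv_φ, add_sub_add_left_eq_sub, abs_sub_comm]
  exact mul_le_mul_of_nonneg_left (by linarith) hD.le

theorem stay_ball {a a' : ℝ} (ha : a < a') (h1 : a' < 1) : ∃ b r : ℝ, 0 < b ∧ 0 < r ∧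
    ∀ x t q, S.Stay a x t q → ∀ q' ∈ ball q (r * Real.exp (-b * |t|)), S.Stay a' x t q' ∧
      ‖S.τ x (S.φ t x) q' - S.τ x (S.φ t x) q‖ ≤ Real.exp (b * (|t| + 1)) * ‖q' - q‖ := by
  obtain ⟨D, hD, hd⟩ := S.dist_φ_le
  obtain ⟨r, hr, hU⟩ := S.unif_dom D ha h1
  obtain ⟨L, hL, hB⟩ := S.unif_bd jc_τ (fun g _ _ _ hq => τ_smul g hq) D h1 1
  have hΛ : L + 1 + 1 ≤ Real.exp (L + 1) := Real.add_one_le_exp _
  set Λ := Real.exp (L + 1) with hΛd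
  have key : ∀ (m : ℕ) x (t : ℝ) q q', |t| ≤ (m : ℝ) → S.Stay a x t q → Λ ^ m * ‖q' - q‖ ≤ r →
      q' ∈ S.dom x (S.φ t x) ∧ ‖S.τ x (S.φ t x) q'‖ ≤ a' ∧
        ‖S.τ x (S.φ t x) q' - S.τ x (S.φ t x) q‖ ≤ Λ ^ m * ‖q' - q‖ := by
    intro m
    induction m with
    | zero =>
      intro x t q q' ht h hq
      obtain rfl : t = 0 := abs_nonpos_iff.1 (by simpa using ht)
      rw [pow_zero, one_mul] at hq ⊢
      rw [S.φ_zero]
      obtain ⟨h2, -, h3⟩ := hU x x (by simpa using hD) q (dom_self h.ball) h.norm_le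
        (by rw [τ_self h.ball]; exact h.norm_le) q' (mem_closedBall_iff_norm.2 hq)
      exact ⟨h2, h3, by rw [τ_self h.ball, τ_self (dom_ball h2)]⟩
    | succ m ih =>
      intro x t q q' ht h hq
      obtain ⟨s, hs, hs1, hs2⟩ := split ht
      have e1 : Λ ^ m * ‖q' - q‖ ≤ r := le_trans (mul_le_mul_of_nonneg_right
        (pow_le_pow_right₀ (by linarith) (Nat.le_succ m)) (norm_nonneg _)) hq
      obtain ⟨h2, -, h3⟩ := ih x s q q' hs1 (h.mono le_rfl hs) e1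
      have h4 := (h s hs).1
      have h5 := (h t right_mem_uIcc).1
      have h6 := hU _ _ (hd x s t hs2) _ (τ_dom' h4 h5) (h s hs).2
        (by rw [τ_trans h4 h5]; exact (h t right_mem_uIcc).2)
      have h7 : S.τ x (S.φ s x) q' ∈ closedBall (S.τ x (S.φ s x) q) r :=
        mem_closedBall_iff_norm.2 (h3.trans e1)
      have h8 := dom_trans h2 (h6 _ h7).1
      rw [← τ_trans h2 h8, ← τ_trans h4 h5]
      refine ⟨h8, (h6 _ h7).2.2, ?_⟩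
      have h9 := (convex_closedBall (S.τ x (S.φ s x) q) r).norm_image_sub_le_of_norm_fderiv_le
        (𝕜 := ℝ) (f := S.τ (S.φ s x) (S.φ t x)) (C := L)
        (fun p hp => differentiableAt_τ (h6 p hp).1) (fun p hp => by
          rw [← norm_iteratedFDeriv_one]
          exact hB _ _ (hd x s t hs2) p (h6 p hp).1 (h6 p hp).2.1 (h6 p hp).2.2 1 le_rfl)
        (mem_closedBall_self hr.le) h7
      refine h9.trans ?_
      rw [pow_succ', mul_assoc]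
      exact mul_le_mul (by linarith) h3 (norm_nonneg _) (by linarith)
  refine ⟨L + 1, r * Real.exp (-(L + 1)), by linarith, by positivity, fun x t q h q' hq => ?_⟩
  have e1 := mul_le_mul_of_nonneg_right (pow_ceil (by linarith : 0 ≤ L + 1) t)
    (norm_nonneg (q' - q))
  have e2 : Real.exp ((L + 1) * (|t| + 1)) * ‖q' - q‖ ≤ r := by
    refine (mul_le_mul_of_nonneg_left (mem_ball_iff_norm.1 hq).le (by positivity)).trans
      (le_of_eq ?_)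
    rw [mul_assoc r, ← Real.exp_add, mul_left_comm, ← Real.exp_add]
    convert mul_one r using 2
    rw [Real.exp_eq_one_iff]
    ring
  refine ⟨fun s hs => ?_, (key _ x t q q' (Nat.le_ceil _) h (e1.trans e2)).2.2.trans e1⟩
  have h2 : |s| ≤ |t| := by simpa using abs_sub_left_of_mem_uIcc hs
  have h3 := key _ x s q q' (h2.trans (Nat.le_ceil _)) (h.mono le_rfl hs) (e1.trans e2)
  exact ⟨h3.1, h3.2.1⟩

/-- the bound `C (Λ ^ m) ^ e` for the derivative of order `j` up to the time `m` -/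
def StayBd (a Λ : ℝ) (f : X → X → V → W) (j e : ℕ) (C : ℝ) : Prop :=
  ∀ (m : ℕ) x (t : ℝ) q, |t| ≤ (m : ℝ) → S.Stay a x t q →
    ‖iteratedFDeriv ℝ j (f x (S.φ t x)) q‖ ≤ C * (Λ ^ m) ^ e

variable {S} in
theorem StayBd.mono {a Λ Λ' : ℝ} {f : X → X → V → W} {j e : ℕ} {C C' : ℝ}
    (h : S.StayBd a Λ f j e C) (h0 : 0 ≤ Λ) (h1 : Λ ≤ Λ') (h2 : C ≤ C') (h3 : 0 ≤ C') :
    S.StayBd a Λ' f j e C' := fun m x t q ht hq => (h m x t q ht hq).trans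
  (mul_le_mul h2 (by gcongr) (by positivity) h3)

theorem stay_step (𝔉 : Bun S F) {a : ℝ} (ha : a < 1) : ∃ L : ℝ, 0 ≤ L ∧ ∀ Λ, L + 1 ≤ Λ →
    ∀ (k : ℕ) (c : ℝ), 1 ≤ c → (∀ j, 1 ≤ j → j ≤ k → S.StayBd a Λ S.τ j j c) →
      (∀ j < k, S.StayBd a Λ 𝔉.A j (j + 1) c) → ∃ C, S.StayBd a Λ 𝔉.A k (k + 1) C := by
  obtain ⟨D, hD, hd⟩ := S.dist_φ_le
  obtain ⟨L, hL, hB⟩ := S.unif_bd 𝔉.jc 𝔉.smul D ha 0
  refine ⟨L, hL, fun Λ hΛ k c hc hτ hA => ?_⟩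
  obtain ⟨M, hM, hB'⟩ := S.unif_bd 𝔉.jc 𝔉.smul D ha k
  set K : ℝ := ∑ i ∈ Finset.range k,
    (k.choose (i + 1) : ℝ) * ((i + 1).factorial * M * c ^ (i + 1)) * c with hK
  have hK0 : 0 ≤ K := by positivity
  refine ⟨K + 1, fun m => ?_⟩
  induction m with
  | zero =>
    intro x t q ht h
    obtain rfl : t = 0 := abs_nonpos_iff.1 (by simpa using ht)
    have e : 𝔉.A x x =ᶠ[𝓝 q] fun _ => 1 :=
      mem_of_superset (isOpen_ball.mem_nhds h.ball) (𝔉.self x)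
    rw [S.φ_zero, (e.iteratedFDeriv ℝ k).self_of_nhds, pow_zero, one_pow, mul_one]
    rcases eq_or_ne k 0 with rfl | hk
    · rw [norm_iteratedFDeriv_zero]
      exact ContinuousLinearMap.norm_id_le.trans (by linarith)
    · rw [iteratedFDeriv_const_of_ne hk]
      simp only [Pi.zero_apply, norm_zero]
      linarith
  | succ m ih =>
    intro x t q ht h
    obtain ⟨s, hs, hs1, hs2⟩ := split ht
    have h4 := (h s hs).1
    have h5 := (h t right_mem_uIcc).1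
    have hs' := h.mono le_rfl hs
    set y := S.φ s x
    set z := S.φ t x
    have hO : IsOpen (S.dom x y ∩ S.dom x z) := isOpen_dom.inter isOpen_dom
    have hm : MapsTo (S.τ x y) (S.dom x y ∩ S.dom x z) (S.dom y z) := fun p hp =>
      τ_dom' hp.1 hp.2
    have c1 : ContDiffOn ℝ ∞ (S.τ x y) (S.dom x y ∩ S.dom x z) :=
      (jc_τ.smooth (x, y)).mono inter_subset_left
    have c2 : ContDiffOn ℝ ∞ (𝔉.A y z) (S.dom y z) := 𝔉.jc.smooth (y, z)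
    have c3 : ContDiffOn ℝ ∞ (𝔉.A x y) (S.dom x y ∩ S.dom x z) :=
      (𝔉.jc.smooth (x, y)).mono inter_subset_left
    have e : 𝔉.A x z =ᶠ[𝓝 q] fun p => 𝔉.A y z (S.τ x y p) * 𝔉.A x y p :=
      mem_of_superset (hO.mem_nhds ⟨h4, h5⟩) fun p hp => (𝔉.coc x y z p hp.1 hp.2).symm
    have b1 : ‖S.τ y z (S.τ x y q)‖ ≤ a := by
      rw [τ_trans h4 h5]; exact (h t right_mem_uIcc).2
    have hP : 1 ≤ Λ ^ m := one_le_pow₀ (by linarith)
    set P := Λ ^ m with hPd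
    rw [(e.iteratedFDeriv ℝ k).self_of_nhds]
    refine (mul_le hO (c2.comp c1 hm) c3 ⟨h4, h5⟩ k).trans ?_
    rw [Finset.sum_range_succ']
    have s1 : ∑ i ∈ Finset.range k, (k.choose (i + 1) : ℝ) *
        ‖iteratedFDeriv ℝ (i + 1) (𝔉.A y z ∘ S.τ x y) q‖ *
        ‖iteratedFDeriv ℝ (k - (i + 1)) (𝔉.A x y) q‖ ≤ K * P ^ (k + 1) := by
      rw [hK, Finset.sum_mul]
      refine Finset.sum_le_sum fun i hi => ?_
      have hi : i < k := Finset.mem_range.1 hi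
      have t1 := comp_le hO isOpen_dom c2 c1 hm ⟨h4, h5⟩ (i + 1) (C := M) (D := c * P)
        (fun j hj => hB' y z (hd x s t hs2) _ (τ_dom' h4 h5) (h s hs).2 b1 j (by omega))
        (fun j hj1 hj => (hτ j hj1 (by omega) m x s q hs1 hs').trans (by
          rw [mul_pow]
          exact mul_le_mul_of_nonneg_right (le_self_pow₀ hc (by omega)) (by positivity)))
      have t2 := hA (k - (i + 1)) (by omega) m x s q hs1 hs'
      refine (mul_le_mul (mul_le_mul_of_nonneg_left t1 (Nat.cast_nonneg _)) t2 (norm_nonneg _)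
        (by positivity)).trans (le_of_eq ?_)
      rw [show k + 1 = (i + 1) + (k - (i + 1) + 1) by omega, pow_add P, mul_pow]
      ring
    have s2 : ‖iteratedFDeriv ℝ 0 (𝔉.A y z ∘ S.τ x y) q‖ ≤ L := by
      have := hB y z (hd x s t hs2) _ (τ_dom' h4 h5) (h s hs).2 b1 0 le_rfl
      rw [norm_iteratedFDeriv_zero] at this ⊢
      exact this
    have s3 := mul_le_mul s2 (ih x s q hs1 hs') (norm_nonneg _) hL
    have s4 : (L + 1) * P ^ (k + 1) ≤ (Λ ^ (m + 1)) ^ (k + 1) := by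
      rw [pow_succ' Λ, mul_pow]
      exact mul_le_mul_of_nonneg_right (hΛ.trans (le_self_pow₀ (by linarith) (by omega)))
        (by positivity)
    rw [Nat.choose_zero_right, Nat.cast_one, one_mul, Nat.sub_zero]
    have s5 : 0 ≤ P ^ (k + 1) := by positivity
    have s6 := mul_le_mul_of_nonneg_left s4 (by linarith : 0 ≤ K + 1)
    refine (add_le_add s1 s3).trans (le_trans ?_ s6)
    nlinarith

theorem stay_all (𝔉 : Bun S F) {a : ℝ} (ha : a < 1) : ∃ L : ℝ, 0 ≤ L ∧ ∀ Λ, L + 1 ≤ Λ →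
    (∀ k c, 1 ≤ c → (∀ j < k, S.StayBd a Λ 𝔉.A j (j + 1) c) →
      ∃ c', ∀ j, 1 ≤ j → j ≤ k → S.StayBd a Λ S.τ j j c') →
    ∀ k : ℕ, ∃ c, 1 ≤ c ∧ ∀ j < k, S.StayBd a Λ 𝔉.A j (j + 1) c := by
  obtain ⟨L, hL, h⟩ := S.stay_step 𝔉 ha
  refine ⟨L, hL, fun Λ hΛ H k => ?_⟩
  have h0 : 0 ≤ Λ := by linarith
  induction k with
  | zero => exact ⟨1, le_rfl, fun j hj => absurd hj (Nat.not_lt_zero j)⟩
  | succ k ih =>
    obtain ⟨c, hc, h1⟩ := ih
    obtain ⟨c', h2⟩ := H k c hc h1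
    have e1 : 0 ≤ max c c' := le_max_of_le_left (by linarith)
    obtain ⟨C, h3⟩ := h Λ hΛ k (max c c') (le_max_of_le_left hc)
      (fun j a1 a2 => (h2 j a1 a2).mono h0 le_rfl (le_max_right _ _) e1)
      fun j a1 => (h1 j a1).mono h0 le_rfl (le_max_left _ _) e1
    have e2 : 0 ≤ max c C := le_max_of_le_left (by linarith)
    refine ⟨max c C, le_max_of_le_left hc, fun j hj => ?_⟩
    rcases Nat.lt_succ_iff_lt_or_eq.1 hj with hj | rfl
    · exact (h1 j hj).mono h0 le_rfl (le_max_left _ _) e2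
    · exact h3.mono h0 le_rfl (le_max_right _ _) e2

/-- the tangent cocycle -/
def stayT : Bun S V where
  A x y := fderiv ℝ (S.τ x y)
  jc := jc_τ.fderiv
  self _ _ hq := fderiv_τ_self hq
  coc _ _ _ _ h h' := fderiv_τ_trans h h'
  smul g _ _ _ h := Filter.EventuallyEq.fderiv_eq
    (mem_of_superset (dom_nhds h) fun _ hp => τ_smul g hp)

theorem stay_tan {a : ℝ} (ha : a < 1) : ∃ L : ℝ, 0 ≤ L ∧ ∀ Λ, L + 1 ≤ Λ →
    ∀ k : ℕ, ∃ c, 1 ≤ c ∧ ∀ j, 1 ≤ j → j ≤ k → S.StayBd a Λ S.τ j j c := by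
  obtain ⟨L, hL, h⟩ := S.stay_all S.stayT ha
  have H : ∀ Λ k c, (∀ j < k, S.StayBd a Λ S.stayT.A j (j + 1) c) →
      ∀ j, 1 ≤ j → j ≤ k → S.StayBd a Λ S.τ j j c := by
    intro Λ k c h1 j a1 a2 m x t q ht hq
    obtain ⟨i, rfl⟩ : ∃ i, j = i + 1 := ⟨j - 1, by omega⟩
    rw [← norm_iteratedFDeriv_fderiv]
    exact h1 i (by omega) m x t q ht hq
  refine ⟨L, hL, fun Λ hΛ k => ?_⟩
  obtain ⟨c, hc, h1⟩ := h Λ hΛ (fun k c _ h1 => ⟨c, H Λ k c h1⟩) k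
  exact ⟨c, hc, H Λ k c h1⟩

/-- the rate `b` does not depend on the order -/
theorem stay_τ {a : ℝ} (ha : a < 1) : ∃ b : ℝ, 0 < b ∧ ∀ k : ℕ, 1 ≤ k → ∃ C : ℝ, 0 ≤ C ∧
    ∀ x t q, S.Stay a x t q →
      ‖iteratedFDeriv ℝ k (S.τ x (S.φ t x)) q‖ ≤ C * Real.exp (b * k * |t|) := by
  obtain ⟨L, hL, h⟩ := S.stay_tan ha
  refine ⟨L + 1, by linarith, fun k hk => ?_⟩
  obtain ⟨c, hc, h1⟩ := h (Real.exp (L + 1)) (by linarith [Real.add_one_le_exp (L + 1)]) k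
  exact ⟨c * Real.exp ((L + 1) * k), by positivity, fun x t q hq =>
    (h1 k hk le_rfl _ x t q (Nat.le_ceil _) hq).trans
      (pow_ceil' (by linarith) (by linarith) t k)⟩

theorem stay_A (𝔉 : Bun S F) {a : ℝ} (ha : a < 1) : ∃ b : ℝ, 0 < b ∧ ∀ k : ℕ, ∃ C : ℝ, 0 ≤ C ∧
    ∀ x t q, S.Stay a x t q →
      ‖iteratedFDeriv ℝ k (𝔉.A x (S.φ t x)) q‖ ≤ C * Real.exp (b * (k + 1) * |t|) := by
  obtain ⟨L, hL, h⟩ := S.stay_tan ha
  obtain ⟨L', hL', h'⟩ := S.stay_all 𝔉 ha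
  have e := Real.add_one_le_exp (L + L' + 1)
  refine ⟨L + L' + 1, by linarith, fun k => ?_⟩
  obtain ⟨c, hc, h1⟩ := h' (Real.exp (L + L' + 1)) (by linarith)
    (fun k _ _ _ => (h _ (by linarith) k).imp fun _ hc => hc.2) (k + 1)
  refine ⟨c * Real.exp ((L + L' + 1) * (k + 1 : ℕ)), by positivity, fun x t q hq =>
    (h1 k (Nat.lt_succ_self k) _ x t q (Nat.le_ceil _) hq).trans ?_⟩
  have := pow_ceil' (b := L + L' + 1) (C := c) (by linarith) (by linarith) t (k + 1)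
  rwa [Nat.cast_succ k] at this ⊢

theorem stay_axis {a : ℝ} (ha : 0 < a) (i : E →L[ℝ] V) (σ : ℝ → ℝ)
    (hσ : ∀ t ≥ (0 : ℝ), ∀ s ∈ uIcc 0 (σ t), ∃ s' ≥ (0 : ℝ), s = σ s')
    (hd : ∀ x, ∀ t ≥ (0 : ℝ), ∀ w ∈ ball (0 : E) S.ρ, i w ∈ S.dom x (S.φ (σ t) x))
    (hc : ∃ C, ∀ x, ∀ t ≥ (0 : ℝ), ∀ w ∈ ball (0 : E) S.ρ,
      ‖iteratedFDeriv ℝ 1 (fun w => S.τ x (S.φ (σ t) x) (i w)) w‖ ≤ C * Real.exp (-S.lam * t)) :
    ∃ r C : ℝ, 0 < r ∧ 0 ≤ C ∧ ∀ x, ∀ t ≥ (0 : ℝ),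
    ∀ w ∈ ball (0 : E) r, S.Stay a x (σ t) (i w) ∧
      ‖S.τ x (S.φ (σ t) x) (i w)‖ ≤ C * Real.exp (-S.lam * t) * ‖w‖ := by
  obtain ⟨C, hC⟩ := hc
  have key : ∀ x, ∀ t ≥ (0 : ℝ), ∀ w ∈ ball (0 : E) S.ρ,
      ‖S.τ x (S.φ (σ t) x) (i w)‖ ≤ |C| * Real.exp (-S.lam * t) * ‖w‖ := by
    intro x t ht w hw
    have h1 := (convex_ball (0 : E) S.ρ).norm_image_sub_le_of_norm_fderiv_le (𝕜 := ℝ)
      (f := fun w => S.τ x (S.φ (σ t) x) (i w)) (C := |C| * Real.exp (-S.lam * t))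
      (fun p hp => (differentiableAt_τ (hd x t ht p hp)).comp p i.differentiableAt)
      (fun p hp => by
        rw [← norm_iteratedFDeriv_one]
        exact (hC x t ht p hp).trans (mul_le_mul_of_nonneg_right (le_abs_self C) (by positivity)))
      (mem_ball_self S.ρ_pos) hw
    rwa [map_zero, τ_zero (S.pt_φ _ x).symm, sub_zero, sub_zero] at h1
  have h0 : 0 < |C| + 1 := by positivity
  refine ⟨min S.ρ (a / (|C| + 1)), |C|, lt_min S.ρ_pos (div_pos ha h0), abs_nonneg C,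
    fun x t ht w hw => ?_⟩
  have h1 : w ∈ ball (0 : E) S.ρ := ball_subset_ball (min_le_left _ _) hw
  refine ⟨fun s hs => ?_, key x t ht w h1⟩
  obtain ⟨s', h2, rfl⟩ := hσ t ht s hs
  refine ⟨hd x s' h2 w h1, (key x s' h2 w h1).trans ?_⟩
  have h3 : ‖w‖ * (|C| + 1) < a :=
    (lt_div_iff₀ h0).1 ((mem_ball_zero_iff.1 hw).trans_le (min_le_right _ _))
  have h4 : Real.exp (-S.lam * s') ≤ 1 :=
    Real.exp_le_one_iff.2 (by nlinarith [S.lam_pos])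
  have h5 : |C| * Real.exp (-S.lam * s') ≤ |C| := mul_le_of_le_one_right (abs_nonneg C) h4
  nlinarith [norm_nonneg w, mul_le_mul_of_nonneg_right h5 (norm_nonneg w)]

theorem stayS {a : ℝ} (ha : 0 < a) : ∃ r C : ℝ, 0 < r ∧ 0 ≤ C ∧ ∀ x, ∀ t ≥ (0 : ℝ),
    ∀ w ∈ ball (0 : E) r, S.Stay a x t (S.iS w) ∧
      ‖S.τ x (S.φ t x) (S.iS w)‖ ≤ C * Real.exp (-S.lam * t) * ‖w‖ :=
  S.stay_axis ha S.iS (fun t => t) (fun t ht s hs => ⟨s, (uIcc_of_le ht ▸ hs).1, rfl⟩) S.domS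
    (S.contrS 1 le_rfl)

theorem stayU {a : ℝ} (ha : 0 < a) : ∃ r C : ℝ, 0 < r ∧ 0 ≤ C ∧ ∀ x, ∀ t ≥ (0 : ℝ),
    ∀ u ∈ ball (0 : E) r, S.Stay a x (-t) (S.iU u) ∧
      ‖S.τ x (S.φ (-t) x) (S.iU u)‖ ≤ C * Real.exp (-S.lam * t) * ‖u‖ :=
  S.stay_axis ha S.iU (fun t => -t) (fun t ht s hs =>
    ⟨-s, neg_nonneg.2 (uIcc_of_ge (neg_nonpos.2 ht) ▸ hs).2, (neg_neg s).symm⟩) S.domU
    (S.contrU 1 le_rfl)

end Sys

end Vale.Agent.P207Z
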