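import Vale.Agent.P207Z.Calc.Dom
import Vale.Agent.P207Z.Calc.CkB

/-!
# P207: little-o calculus (block CALC1)
-/
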