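import Vale.Agent.P207Z.StayG.Loc
import Vale.Agent.P207Z.Calc

/-!
# P207: the stable leaves near the centre of a chart are graphs (block DYN3)
-/

set_option linter.all false

open Set Filter Topology Metric MeasureTheory Asymptotics
open scoped ContDiff

noncomputable section

namespace Vale.Agent.P207Z

open Vale.Agent.P207.N3 (JC)

variable {Γ X B E V : Type} [Group Γ] [Countable Γ] [MetricSpace X] [ProperSpace X]
  [MulAction Γ X] [IsIsometricSMul Γ X] [MeasurableSpace X] [BorelSpace X]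
  [TopologicalSpace B] [CompactSpace B] [T2Space B] [SecondCountableTopology B] [MulAction Γ B]
  [ContinuousConstSMul Γ B] [MeasurableSpace B] [BorelSpace B]
  [NormedAddCommGroup E] [InnerProductSpace ℝ E] [FiniteDimensional ℝ E]
  [NormedAddCommGroup V] [NormedSpace ℝ V] [FiniteDimensional ℝ V]
  {F G W : Type} [NormedAddCommGroup F] [NormedSpace ℝ F] [FiniteDimensional ℝ F]
  [NormedAddCommGroup G] [NormedSpace ℝ G] [FiniteDimensional ℝ G]
  [NormedAddCommGroup W] [NormedSpace ℝ W]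

namespace Sys

variable (S : Sys Γ X B E V)

/-- the stable leaves near the centre of a chart are graphs of slope at most `ε` -/
structure GrS (ε : ℝ) where
  r : ℝ
  r_pos : 0 < r
  r_le : 3 * r < 1
  g : X → B → E → E
  g_smul : ∀ (γ : Γ) x η, g (γ • x) (γ • η) = g x η
  on : ∀ x η, (∃ z ∈ ball (0 : V) r, (S.c x z).2 = η) → ∀ w ∈ ball (0 : E) (2 * r),
    ‖g x η w‖ < 2 * r ∧ (S.c x (S.iS w + S.iU (g x η w))).2 = η
  uniq : ∀ x η, (∃ z ∈ ball (0 : V) r, (S.c x z).2 = η) → ∀ z ∈ ball (0 : V) (2 * r),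
    (S.c x z).2 = η → S.pU z = g x η (S.pS z)
  smooth : ∀ x η, (∃ z ∈ ball (0 : V) r, (S.c x z).2 = η) → ContDiffOn ℝ ∞ (g x η) (ball 0 (2 * r))
  slope : ∀ x η, (∃ z ∈ ball (0 : V) r, (S.c x z).2 = η) → ∀ w ∈ ball (0 : E) (2 * r),
    ‖fderiv ℝ (g x η) w‖ ≤ ε
  bd : ∀ k : ℕ, ∃ C : ℝ, ∀ x η, (∃ z ∈ ball (0 : V) r, (S.c x z).2 = η) →
    ∀ w ∈ ball (0 : E) (2 * r), ‖iteratedFDeriv ℝ k (g x η) w‖ ≤ C
  /-- the jets tend to zero when the leaf tends to the axis -/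
  small : ∀ (k : ℕ) (δ : ℝ), 0 < δ → ∃ r' > 0, ∀ x η, (∃ z ∈ ball (0 : V) r', (S.c x z).2 = η) →
    ∀ w ∈ ball (0 : E) (2 * r), ‖iteratedFDeriv ℝ k (g x η) w‖ ≤ δ
  /-- the jets depend continuously on the leaf -/
  cont : ∀ (k : ℕ) x, ContinuousOn (fun p : V × E => iteratedFDeriv ℝ k (g x (S.c x p.1).2) p.2)
    (ball 0 r ×ˢ ball 0 (2 * r))

theorem exists_grS_aux {ε r₀ : ℝ} (hε : 0 < ε) (hε' : ε ≤ 1 / 4) (hr : 0 < r₀) :
    ∃ G : S.GrS ε, G.r ≤ r₀ := by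
  obtain ⟨K, hK, hKx⟩ := S.cocompact
  obtain ⟨D, hD⟩ := S.fr_near (a := 1 / 2) (by norm_num)
  obtain ⟨R₀, hR₀, h⟩ := S.exists_gr hε hε' (D + 1)
  obtain ⟨r, r0, r1, r2, r3⟩ : ∃ r : ℝ, 0 < r ∧ r ≤ r₀ ∧ 2 * r ≤ R₀ ∧ r ≤ 1 / 8 :=
    ⟨min r₀ (min (R₀ / 2) (1 / 8)), by positivity, min_le_left _ _,
      by linarith [(min_le_right r₀ _).trans (min_le_left (R₀ / 2) (1 / 8))],
      (min_le_right _ _).trans (min_le_right _ _)⟩
  have L := h (2 * r) r2
  set g := S.gr (2 * (2 * r)) with hg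
  have gs : ∀ (γ : Γ) x η, g (γ • x) (γ • η) = g x η := S.gr_smul (by linarith)
  have sub : ball (0 : E) (2 * r) ⊆ ball 0 (2 * (2 * r)) := ball_subset_ball (by linarith)
  have subc : closedBall (0 : E) (2 * r) ⊆ ball 0 (2 * (2 * r)) :=
    closedBall_subset_ball (by linarith)
  have om : ∀ x y z, ‖z‖ ≤ r → S.pt y = S.c x z → dist x y ≤ D → (x, y) ∈ S.Om (2 * r) (D + 1) :=
    fun x y z a1 a2 a3 => ⟨⟨z, mem_ball_zero_iff.2 (by linarith), a2.symm⟩, by
      show dist x y < D + 1; linarith⟩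
  have fr : ∀ x η, (∃ z ∈ ball (0 : V) r, (S.c x z).2 = η) → ∃ y, ∃ z ∈ ball (0 : V) r,
      (x, y) ∈ S.Om (2 * r) (D + 1) ∧ (S.c x z).2 = S.ep y ∧ S.ep y = η := by
    rintro x _ ⟨z, hz, rfl⟩
    have a0 := mem_ball_zero_iff.1 hz
    obtain ⟨y, a1, a2⟩ := hD x z (by linarith)
    exact ⟨y, z, hz, om x y z a0.le a1 a2, (congrArg Prod.snd a1).symm, congrArg Prod.snd a1⟩
  have red : ∀ (k : ℕ) (C r' : ℝ), r' ≤ 1 / 2 →
      (∀ x ∈ K, ∀ y z, ‖z‖ < r' → S.pt y = S.c x z → dist x y ≤ D →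
        ∀ w ∈ ball (0 : E) (2 * r), ‖iteratedFDeriv ℝ k (g x (S.ep y)) w‖ ≤ C) →
      ∀ x η, (∃ z ∈ ball (0 : V) r', (S.c x z).2 = η) →
        ∀ w ∈ ball (0 : E) (2 * r), ‖iteratedFDeriv ℝ k (g x η) w‖ ≤ C := by
    rintro k C r' a0 H x _ ⟨z, hz, rfl⟩ w hw
    rw [mem_ball_zero_iff] at hz
    obtain ⟨γ, hγ⟩ := hKx x
    obtain ⟨y, a1, a2⟩ := hD (γ • x) z (by linarith)
    have a3 := H _ hγ y z hz a1 a2 w hw
    rw [show S.ep y = γ • (S.c x z).2 by
      rw [← Prod.smul_snd, ← S.c_smul γ x z (mem_ball_zero_iff.2 (by linarith)), ← a1]; rfl,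
      gs] at a3
    exact a3
  refine ⟨⟨r, r0, by linarith, g, gs, fun x η H w hw => ?_, fun x η H z hz e => ?_,
    fun x η H => ?_, fun x η H w hw => ?_, fun k => ?_, fun k δ hδ => ?_, fun k x => ?_⟩, r1⟩
  · obtain ⟨y, z, hz, a1, a2, rfl⟩ := fr x η H
    exact ⟨L.norm_lt hε' a1 (by linarith) hz a2 hw, (L.on _ a1 w (sub hw)).2⟩
  · obtain ⟨y, -, -, a1, -, rfl⟩ := fr x η H
    exact L.uniq _ a1 z (ball_subset_ball (by linarith) hz) e
  · obtain ⟨y, -, -, a1, -, rfl⟩ := fr x η H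
    exact (L.jc.smooth (x, y)).mono fun w hw => ⟨a1, sub hw⟩
  · obtain ⟨y, -, -, a1, -, rfl⟩ := fr x η H
    exact L.slope _ a1 w (sub hw)
  · have hb : closedBall (0 : V) r ⊆ ball 0 1 := closedBall_subset_ball (by linarith)
    have c0 := (isCompact_pairs hK D).prod (isCompact_closedBall (0 : V) r)
    have c1 := c0.of_isClosed_subset (c0.isClosed.isClosed_eq
      (f := fun u : (X × X) × V => S.pt u.1.2) (g := fun u : (X × X) × V => S.c u.1.1 u.2)
      (S.pt_cont.comp (by fun_prop)).continuousOn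
      (S.c_cont.comp (f := fun u : (X × X) × V => (u.1.1, u.2)) (by fun_prop)
        fun u hu => ⟨trivial, hb hu.2⟩)) fun u hu => hu.1
    obtain ⟨C, hC⟩ := L.jc.bound ((c1.image continuous_fst).prod
      (isCompact_closedBall (0 : E) (2 * r))) (by
        rintro ⟨_, w⟩ ⟨⟨u, ⟨⟨a1, a2⟩, a3⟩, rfl⟩, hw⟩
        exact ⟨om _ _ _ (mem_closedBall_zero_iff.1 a2) a3 a1.2, subc hw⟩) k
    exact ⟨C, red k C r (by linarith) fun x hx y z a1 a2 a3 w hw => hC ((x, y), w)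
      ⟨⟨((x, y), z), ⟨⟨⟨hx, a3⟩, mem_closedBall_zero_iff.2 a1.le⟩, a2⟩, rfl⟩,
        ball_subset_closedBall hw⟩⟩
  · have h1 : ∀ᶠ z in 𝓝 (0 : V), ∀ u ∈ {p : X × X | p.1 ∈ K ∧ dist p.1 p.2 ≤ D} ×ˢ
        closedBall (0 : E) (2 * r), S.pt u.1.2 = S.c u.1.1 z →
          ‖iteratedFDeriv ℝ k (g u.1.1 (S.ep u.1.2)) u.2‖ ≤ δ := by
      refine ((isCompact_pairs hK D).prod (isCompact_closedBall _ _)
        ).eventually_forall_of_forall_eventually fun u hu => ?_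
      by_cases e : S.pt u.1.2 = S.c u.1.1 0
      · have a1 := om _ _ 0 (by simpa using r0.le) e hu.1.2
        have a2 : g u.1.1 (S.ep u.1.2) =ᶠ[𝓝 u.2] fun _ => 0 := by
          filter_upwards [isOpen_ball.mem_nhds (subc hu.2)] with w hw
          have b0 : ‖S.iS w‖ < 2 * (2 * r) := by rwa [S.norm_iS, ← mem_ball_zero_iff]
          have b1 := L.uniq _ a1 (S.iS w) (mem_ball_zero_iff.2 b0) (by
            rw [show S.ep u.1.2 = S.ep u.1.1 from congrArg Prod.snd (e.trans (S.c_zero' _))]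
            exact (S.c_S _ _ (mem_ball_zero_iff.2 (by linarith))).2 (S.pU_iS w))
          rw [S.pU_iS, S.pS_iS] at b1
          exact b1.symm
        have a3 := ((L.jc.cont k).continuousAt (x := u)
          (L.jc.isOpen.mem_nhds ⟨a1, subc hu.2⟩)).norm
        have a4 := a3.eventually (ge_mem_nhds (a := δ) (by
          show ‖iteratedFDeriv ℝ k (g u.1.1 (S.ep u.1.2)) u.2‖ < δ
          rw [(a2.iteratedFDeriv ℝ k).self_of_nhds, iteratedFDeriv_fun_zero]
          simpa using hδ))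
        filter_upwards [continuous_snd.continuousAt.eventually a4] with v hv _ using hv
      · filter_upwards [S.ev_ne (T := V × ((X × X) × E)) (a := fun v => v.2.1.1)
          (b := fun v => v.2.1.2) (z := fun v => v.1) (t₀ := (0, u)) (by fun_prop) (by fun_prop)
          (by fun_prop) (mem_ball_self one_pos) e] with v b1 b2
        exact absurd b2 b1
    obtain ⟨r', hr', h2⟩ := Metric.eventually_nhds_iff_ball.1 h1
    exact ⟨min r' (1 / 2), by positivity, red k δ _ (min_le_right _ _)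
      fun x hx y z a1 a2 a3 w hw => h2 z (mem_ball_zero_iff.2 (a1.trans_le (min_le_left _ _)))
        ((x, y), w) ⟨⟨hx, a3⟩, ball_subset_closedBall hw⟩ a2⟩
  · rintro ⟨z₀, w₀⟩ ⟨hz, hw⟩
    have a0 : ‖z₀‖ < r := mem_ball_zero_iff.1 hz
    refine ContinuousAt.continuousWithinAt (Metric.tendsto_nhds.2 fun δ hδ => ?_)
    have h1 : ∀ᶠ t in 𝓝 ((z₀, w₀) : V × E), ∀ y ∈ closedBall x D, S.pt y = S.c x t.1 →
        dist (iteratedFDeriv ℝ k (g x (S.ep y)) t.2)
          (iteratedFDeriv ℝ k (g x (S.c x z₀).2) w₀) < δ := by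
      refine (isCompact_closedBall x D).eventually_forall_of_forall_eventually fun y hy => ?_
      by_cases e : S.pt y = S.c x z₀
      · have a1 := om x y z₀ a0.le e (mem_closedBall'.1 hy)
        have a3 := (L.jc.cont k).continuousAt (x := ((x, y), w₀))
          (L.jc.isOpen.mem_nhds ⟨a1, sub hw⟩)
        have c1 : Continuous fun v : (V × E) × X => (((x, v.2), v.1.2) : (X × X) × E) := by
          fun_prop
        rw [show (S.c x z₀).2 = S.ep y from (congrArg Prod.snd e).symm]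
        filter_upwards [(c1.tendsto ((z₀, w₀), y)).eventually (Metric.tendsto_nhds.1 a3 δ hδ)]
          with v hv _ using hv
      · filter_upwards [S.ev_ne (T := (V × E) × X) (a := fun _ => x) (b := fun v => v.2)
          (z := fun v => v.1.1) (t₀ := ((z₀, w₀), y)) (by fun_prop) (by fun_prop)
          (by fun_prop) (mem_ball_zero_iff.2 (by linarith)) e] with v b1 b2
        exact absurd b2 b1
    filter_upwards [h1, continuous_fst.continuousAt.eventually (isOpen_ball.mem_nhds hz)]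
      with t b1 b2
    obtain ⟨y, a1, a2⟩ := hD x t.1 (by linarith [mem_ball_zero_iff.1 b2])
    have := b1 y (mem_closedBall'.2 a2) a1
    rwa [show S.ep y = (S.c x t.1).2 from congrArg Prod.snd a1] at this

/-- the radius can be taken as small as one likes -/
theorem exists_grS {ε r₀ : ℝ} (hε : 0 < ε) (hr : 0 < r₀) : ∃ G : S.GrS ε, G.r ≤ r₀ := by
  obtain ⟨G, hG⟩ := S.exists_grS_aux (ε := min ε (1 / 4)) (by positivity) (min_le_right _ _) hr
  exact ⟨{ G with slope := fun x η H w hw => (G.slope x η H w hw).trans (min_le_left _ _) }, hG⟩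

/-- a section which is smooth along the stable axes is smooth along the graphs -/
theorem sec_graph {𝔉 : Bun S F} (s : Sec 𝔉) : ∃ r₁ > 0, ∀ (ε : ℝ) (G : S.GrS ε), ε ≤ 1 / 2 →
    G.r ≤ r₁ → (∀ x η, (∃ z ∈ ball (0 : V) G.r, (S.c x z).2 = η) →
      ContDiffOn ℝ ∞ (fun w => s.e x (S.iS w + S.iU (G.g x η w))) (ball 0 (2 * G.r))) ∧
    ∀ k : ℕ, ∃ C : ℝ, ∀ x η, (∃ z ∈ ball (0 : V) G.r, (S.c x z).2 = η) →
      ∀ w ∈ ball (0 : E) (2 * G.r),
        ‖iteratedFDeriv ℝ k (fun w => s.e x (S.iS w + S.iU (G.g x η w))) w‖ ≤ C := by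
  obtain ⟨D, hD⟩ := S.fr_near (a := 1 / 2) (by norm_num)
  obtain ⟨ρ, hρ, hdom⟩ := S.unif_dom D (a := 1 / 2) (a' := 3 / 4) (by norm_num) (by norm_num)
  let Θ : X × X → V → F := fun p q =>
    𝔉.A p.2 p.1 (S.τ p.1 p.2 q) (s.e p.2 (S.iS (S.pS (S.τ p.1 p.2 q))))
  have hb : ∀ {x y q}, q ∈ S.dom x y → S.pS (S.τ x y q) ∈ ball (0 : E) 1 := fun h =>
    mem_ball_zero_iff.2 ((S.norm_pS_le _).trans_lt (mem_ball_zero_iff.1 (τ_ball h)))
  have hΘ : JC Θ S.Dm :=
    ((𝔉.jc.pullback continuous_swap).comp' jc_τ fun p hp => τ_dom hp).clm_apply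
      ((s.smS.pullback (continuous_snd (X := X))).comp' (jc_τ.clm S.pS)
        fun p hp => ⟨trivial, hb hp⟩)
  have hs : ∀ (γ : Γ) x y, ∀ q ∈ S.dom x y, Θ (γ • x, γ • y) q = Θ (x, y) q := by
    intro γ x y q hq
    simp only [Θ]
    rw [τ_smul γ hq, 𝔉.smul γ y x _ (τ_dom hq), s.smul γ y _ (by
      rw [mem_ball_zero_iff, S.norm_iS, ← mem_ball_zero_iff]; exact hb hq)]
  refine ⟨min (ρ / 3) (1 / 4), by positivity, fun ε G _ hG => ?_⟩
  have r1 := hG.trans (min_le_left _ _)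
  have r2 := hG.trans (min_le_right _ _)
  have r0 := G.r_pos
  have key : ∀ x η, (∃ z ∈ ball (0 : V) G.r, (S.c x z).2 = η) → ∃ y, dist x y ≤ D ∧
      ∀ w ∈ ball (0 : E) (2 * G.r), S.iS w + S.iU (G.g x η w) ∈ S.dom x y ∧
        ‖S.iS w + S.iU (G.g x η w)‖ ≤ 3 / 4 ∧ ‖S.τ x y (S.iS w + S.iU (G.g x η w))‖ ≤ 3 / 4 ∧
        s.e x (S.iS w + S.iU (G.g x η w)) = Θ (x, y) (S.iS w + S.iU (G.g x η w)) := by
    intro x η H
    obtain ⟨z, hz, e⟩ := id H
    rw [mem_ball_zero_iff] at hz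
    have z1 : z ∈ ball (0 : V) 1 := mem_ball_zero_iff.2 (by linarith)
    obtain ⟨y, a1, a2⟩ := hD x z (by linarith)
    have a3 : z ∈ S.dom x y := mem_dom z1 (mem_ball_self one_pos) ((S.c_zero' y).trans a1)
    have a4 : S.τ x y z = 0 := τ_eq (mem_ball_self one_pos) ((S.c_zero' y).trans a1)
    refine ⟨y, a2, fun w hw => ?_⟩
    obtain ⟨b1, b2⟩ := G.on x η H w hw
    have b3 : ‖S.iS w + S.iU (G.g x η w)‖ < 2 * G.r := by
      rw [S.norm_add]; exact max_lt (mem_ball_zero_iff.1 hw) b1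
    obtain ⟨b4, b5, b6⟩ := hdom x y a2 z a3 (by linarith) (by rw [a4]; simp)
      (S.iS w + S.iU (G.g x η w)) (by
        rw [mem_closedBall, dist_eq_norm]
        linarith [norm_sub_le (S.iS w + S.iU (G.g x η w)) z])
    refine ⟨b4, b5, b6, ?_⟩
    have b7 := (S.snd_eq_iff b4).1 (b2.trans (e.symm.trans (congrArg Prod.snd a1).symm))
    have b8 := S.iS_add (S.τ x y (S.iS w + S.iU (G.g x η w)))
    rw [b7, map_zero, add_zero] at b8
    have b9 := s.eqv y x _ (τ_dom b4)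
    rw [τ_τ b4] at b9
    simp only [Θ]
    rw [b8, b9]
  have sm : ∀ x η, (∃ z ∈ ball (0 : V) G.r, (S.c x z).2 = η) →
      ContDiffOn ℝ ∞ (fun w => S.iS w + S.iU (G.g x η w)) (ball 0 (2 * G.r)) := fun x η H =>
    S.iS.contDiff.contDiffOn.add (S.iU.contDiff.comp_contDiffOn (G.smooth x η H))
  refine ⟨fun x η H => ?_, fun k => ?_⟩
  · obtain ⟨y, -, a2⟩ := key x η H
    exact ((hΘ.smooth (x, y)).comp (sm x η H) fun w hw => (a2 w hw).1).congr
      fun w hw => (a2 w hw).2.2.2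
  · obtain ⟨C, -, hC⟩ := S.unif_bd hΘ hs D (a := 3 / 4) (by norm_num) k
    choose C₁ hC₁ using G.bd
    obtain ⟨C₂, -, hC₂⟩ := exists_bound_le (f := fun i (w : E) => iteratedFDeriv ℝ i S.iS w)
      (isCompact_closedBall (0 : E) 1) (fun i =>
        (S.iS.contDiff.continuous_iteratedFDeriv (m := i) (n := ∞)
          (by exact_mod_cast le_top)).continuousOn) k
    obtain ⟨n, -, hn⟩ := CalcAux.exists_bd (fun i => C₂ + ‖S.iU‖ * C₁ i) k 0
    refine ⟨k.factorial * C * ((n : ℝ) + 1) ^ k, fun x η H w hw => ?_⟩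
    obtain ⟨y, a1, a2⟩ := key x η H
    have a3 : (fun w => s.e x (S.iS w + S.iU (G.g x η w))) =ᶠ[𝓝 w]
        fun w => Θ (x, y) (S.iS w + S.iU (G.g x η w)) := by
      filter_upwards [isOpen_ball.mem_nhds hw] with v hv using (a2 v hv).2.2.2
    rw [(a3.iteratedFDeriv ℝ k).self_of_nhds]
    refine CalcAux.comp_bd (k := k) ((hΘ.smooth (x, y)).of_le (by exact_mod_cast le_top))
      ((sm x η H).of_le (by exact_mod_cast le_top)) isOpen_ball isOpen_dom
      (fun v hv => (a2 v hv).1) hw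
      (hC x y a1 _ (a2 w hw).1 (a2 w hw).2.1 (a2 w hw).2.2.1) (fun j hj => ?_) le_rfl
    have b1 : ContDiffAt ℝ j (G.g x η) w :=
      ((G.smooth x η H).contDiffAt (isOpen_ball.mem_nhds hw)).of_le (by exact_mod_cast le_top)
    have b2 : iteratedFDeriv ℝ j (fun w => S.iS w + S.iU (G.g x η w)) w =
        iteratedFDeriv ℝ j S.iS w + iteratedFDeriv ℝ j (S.iU ∘ G.g x η) w :=
      iteratedFDeriv_add_apply S.iS.contDiff.contDiffAt (S.iU.contDiff.contDiffAt.comp w b1)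
    rw [b2]
    refine (norm_add_le _ _).trans (le_trans (add_le_add (hC₂ w (mem_closedBall_zero_iff.2
      (by linarith [mem_ball_zero_iff.1 hw])) j hj) ?_) (hn j hj))
    exact (S.iU.norm_iteratedFDeriv_comp_left b1 le_rfl).trans
      (mul_le_mul_of_nonneg_left (hC₁ j x η H w hw) (norm_nonneg _))

end Sys

end Vale.Agent.P207Z
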