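import Vale.Agent.P207Z.StayA

/-!
# P207: Hoelder continuity of the stable leaves (block DYN4)
-/

set_option linter.all false

open Set Filter Topology Metric MeasureTheory Asymptotics
open scoped ContDiff

noncomputable section

namespace Vale.Agent.P207Z

open Vale.Agent.P207.N3 (JC)

variable {Γ X B E V : Type} [Group Γ] [Countable Γ] [MetricSpace X] [ProperSpace X]
  [MulAction Γ X] [IsIsometricSMul Γ X] [MeasurableSpace X] [BorelSpace X]
  [TopologicalSpace B] [CompactSpace B] [T2Space B] [SecondCountableTopology B] [MulAction Γ B]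
  [ContinuousConstSMul Γ B] [MeasurableSpace B] [BorelSpace B]
  [NormedAddCommGroup E] [InnerProductSpace ℝ E] [FiniteDimensional ℝ E]
  [NormedAddCommGroup V] [NormedSpace ℝ V] [FiniteDimensional ℝ V]

namespace Sys

variable (S : Sys Γ X B E V)

/-- frames over the points of the stable axis which follow the centre in the future -/
theorem asym_unif {a : ℝ} (ha : a < 1) : ∃ D : ℝ, ∀ x, ∀ w : E, ‖w‖ ≤ a →
    ∃ y, S.pt y = S.c x (S.iS w) ∧ ∀ t ≥ (0 : ℝ), dist (S.φ t x) (S.φ t y) ≤ D := by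
  obtain ⟨K, hK, hc⟩ := S.cocompact
  have hb : ∀ w : E, ‖w‖ ≤ a → S.iS w ∈ ball (0 : V) 1 := fun w hw => by
    rw [mem_ball_zero_iff, S.norm_iS]
    exact hw.trans_lt ha
  have hcont : ContinuousOn (fun p : X × E => ((S.c p.1 (S.iS p.2)).1, p.1))
      (K ×ˢ closedBall 0 a) := by
    refine ContinuousOn.prodMk (continuous_fst.comp_continuousOn ?_) continuousOn_fst
    exact S.c_cont.comp (f := fun p : X × E => (p.1, S.iS p.2))
      (continuous_fst.prodMk (S.iS.continuous.comp continuous_snd)).continuousOn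
      fun p hp => ⟨mem_univ _, hb _ (mem_closedBall_zero_iff.1 hp.2)⟩
  obtain ⟨C, hC⟩ := S.asymS _ ((hK.prod (isCompact_closedBall (0 : E) a)).image_of_continuousOn
    hcont) (by
      rintro _ ⟨p, hp, rfl⟩
      have h1 := hb _ (mem_closedBall_zero_iff.1 hp.2)
      have h2 := S.c_ne p.1 _ h1
      rwa [(S.c_S p.1 _ h1).2 (S.pU_iS _)] at h2)
  refine ⟨|C|, fun x w hw => ?_⟩
  obtain ⟨g, hg⟩ := hc x
  obtain ⟨y, h1, h2, -, h3⟩ := hC _ ⟨(g • x, w), ⟨hg, mem_closedBall_zero_iff.2 hw⟩, rfl⟩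
  refine ⟨g⁻¹ • y, ?_, fun t ht => ?_⟩
  · rw [S.pt_smul, inv_smul_eq_iff, ← S.c_smul g x _ (hb w hw)]
    exact Prod.ext h1 (h2.trans ((S.c_S _ _ (hb w hw)).2 (S.pU_iS _)).symm)
  · rw [← dist_smul g, ← S.φ_smul, ← S.φ_smul, smul_inv_smul]
    refine (h3 t ht).trans ((mul_le_mul_of_nonneg_right (le_abs_self C) (Real.exp_pos _).le).trans
      (mul_le_of_le_one_right (abs_nonneg C) (Real.exp_le_one_iff.2 ?_)))
    have h4 := mul_nonneg S.lam_pos.le ht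
    linarith

/-- the transition maps are uniformly Lipschitz at the centre -/
theorem lip_zero (D : ℝ) : ∃ r L : ℝ, 0 < r ∧ 0 ≤ L ∧ ∀ y x, dist y x ≤ D → (0 : V) ∈ S.dom y x →
    ‖S.τ y x 0‖ ≤ 1 / 2 → ∀ v : V, ‖v‖ ≤ r → v ∈ S.dom y x ∧ ‖S.τ y x v - S.τ y x 0‖ ≤ L * ‖v‖ := by
  obtain ⟨r, hr, h1⟩ := S.unif_dom D (a := 1 / 2) (a' := 3 / 4) (by norm_num) (by norm_num)
  obtain ⟨L, hL, h2⟩ := S.unif_bd jc_τ (fun g x y q hq => τ_smul g hq) D (a := 3 / 4)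
    (by norm_num) 1
  refine ⟨r, L, hr, hL, fun y x hd h0 hτ v hv => ?_⟩
  have h3 := h1 y x hd 0 h0 (by norm_num) hτ
  refine ⟨(h3 v (mem_closedBall_zero_iff.2 hv)).1, ?_⟩
  have h4 := (convex_closedBall (0 : V) r).norm_image_sub_le_of_norm_fderiv_le (𝕜 := ℝ)
    (f := S.τ y x) (C := L) (fun q hq => differentiableAt_τ (h3 q hq).1) (fun q hq => by
      have h5 := h2 y x hd q (h3 q hq).1 (h3 q hq).2.1 (h3 q hq).2.2 1 le_rfl
      rwa [norm_iteratedFDeriv_one] at h5) (mem_closedBall_self hr.le)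
    (mem_closedBall_zero_iff.2 hv)
  rwa [sub_zero] at h4

/-- the exponential form of the estimate -/
theorem holder_exp : ∃ r C b ρ : ℝ, 0 < r ∧ 0 ≤ C ∧ 0 < b ∧ 2 * r ≤ ρ ∧ r ≤ 1 ∧ ∀ x,
    ∀ z ∈ ball (0 : V) r, ∀ z' ∈ ball (0 : V) r, (S.c x z).2 = (S.c x z').2 → ∀ T ≥ (0 : ℝ),
      ‖S.pU z‖ < ρ * Real.exp (-b * T) → ‖S.pU z'‖ ≤ C * Real.exp (-S.lam * T) := by
  obtain ⟨D, hD⟩ := S.asym_unif (a := 1 / 2) (by norm_num)
  obtain ⟨r1, L, hr1, hL, h1⟩ := S.lip_zero D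
  obtain ⟨rU, CU, hrU, hCU, h2⟩ := S.stayU hr1
  have hρ : 0 < min rU 1 := lt_min hrU one_pos
  have hρ1 := min_le_left rU 1
  have hρ2 := min_le_right rU 1
  obtain ⟨r0, hr0, h3⟩ := S.unif_dom D (a := min rU 1 / 4) (a' := min rU 1 / 2) (by linarith)
    (by linarith)
  have ha3 : 0 < min (min rU 1 / 4) (r0 / 2) := lt_min (by linarith) (by linarith)
  have ha31 := min_le_left (min rU 1 / 4) (r0 / 2)
  have ha32 := min_le_right (min rU 1 / 4) (r0 / 2)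
  set a3 := min (min rU 1 / 4) (r0 / 2)
  obtain ⟨a4, ha4, h4⟩ := S.box ha3
  have ha5 : 0 < min a3 a4 := lt_min ha3 ha4
  have ha51 := min_le_left a3 a4
  have ha52 := min_le_right a3 a4
  set a5 := min a3 a4
  obtain ⟨rS, CS, hrS, -, h5⟩ := S.stayS (a := a5 / 4) (by linarith)
  obtain ⟨b, rb, hb, hrb, h6⟩ := S.stay_ball (a := a5 / 4) (a' := a5 / 2) (by linarith)
    (by linarith)
  obtain ⟨a6, ha6, h7⟩ := S.box (a := min rS (1 / 2)) (lt_min hrS (by norm_num))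
  refine ⟨min (min a6 rS) (min (rb / 2) 1), L * CU, b, rb,
    lt_min (lt_min ha6 hrS) (lt_min (by linarith) one_pos), mul_nonneg hL hCU, hb, ?_,
    (min_le_right _ _).trans (min_le_right _ _), fun x z hz z' hz' he T hT hzT => ?_⟩
  · have h8 := (min_le_right (min a6 rS) _).trans (min_le_left (rb / 2) 1)
    linarith
  rw [mem_ball_zero_iff, lt_min_iff, lt_min_iff, lt_min_iff] at hz hz'
  obtain ⟨z2, hz2, hc2⟩ := h7 x z' (mem_ball_zero_iff.2 hz'.1.1) 0 (mem_ball_self ha6)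
  rw [mem_ball_zero_iff, lt_min_iff] at hz2
  have hz21 : z2 ∈ ball (0 : V) 1 := mem_ball_zero_iff.2 (by linarith [hz2.2])
  have hU2 : S.pU z2 = 0 := (S.c_S x z2 hz21).1 (by rw [hc2, S.c_zero])
  have he2 : S.iS (S.pS z2) = z2 := by
    have h8 := S.iS_add z2
    rwa [hU2, map_zero, add_zero] at h8
  have hw := S.norm_pS_le z2
  obtain ⟨y, hy, hd⟩ := hD x (S.pS z2) (by linarith [hz2.2])
  have s1 := (h5 x T hT (S.pS z2) (mem_ball_zero_iff.2 (by linarith [hz2.1]))).1 T right_mem_uIcc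
  rw [he2] at hy s1
  have s2 := (h6 x T _ (h5 x T hT (S.pS z)
    (mem_ball_zero_iff.2 ((S.norm_pS_le z).trans_lt hz.1.2))).1 z (by
      rw [mem_ball, dist_eq_norm, abs_of_nonneg hT, ← S.iS_add z, map_add, S.pS_iS, S.pS_iU,
        add_zero, add_sub_cancel_left, S.norm_iU]
      exact hzT)).1 T right_mem_uIcc
  obtain ⟨q3, hq3, hc3⟩ := h4 (S.φ T x) (S.τ x (S.φ T x) z2)
    (mem_ball_zero_iff.2 (by linarith [s1.2])) (S.τ x (S.φ T x) z)
    (mem_ball_zero_iff.2 (by linarith [s2.2]))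
  rw [c_τ s1.1, c_τ s2.1, hc2, he] at hc3
  rw [mem_ball_zero_iff] at hq3
  have hpt : S.c (S.φ T y) 0 = S.c (S.φ T x) (S.τ x (S.φ T x) z2) := by
    rw [c_τ s1.1, S.c_zero', S.pt_φ, hy]
  obtain ⟨d3, -, n3⟩ := h3 (S.φ T x) (S.φ T y) (hd T hT) _
    (mem_dom (τ_ball s1.1) (mem_ball_self one_pos) hpt) (by linarith [s1.2])
    (by rw [τ_eq (mem_ball_self one_pos) hpt, norm_zero]; linarith) q3 (by
      rw [mem_closedBall, dist_eq_norm]
      linarith [norm_sub_le q3 (S.τ x (S.φ T x) z2), s1.2])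
  have hc4 := (c_τ d3).trans hc3
  have hS3 : S.pS (S.τ (S.φ T x) (S.φ T y) q3) = 0 := (S.c_U _ _ (τ_ball d3)).1 (by
    rw [hc4, S.em_φ]
    exact (congrArg Prod.fst (hy.trans hc2)).symm)
  have he3 := S.iS_add (S.τ (S.φ T x) (S.φ T y) q3)
  rw [hS3, map_zero, zero_add] at he3
  have hu := S.norm_pU_le (S.τ (S.φ T x) (S.φ T y) q3)
  obtain ⟨s3, s4⟩ := h2 (S.φ T y) T hT (S.pU (S.τ (S.φ T x) (S.φ T y) q3))
    (mem_ball_zero_iff.2 (by linarith))
  have s5 := s3 (-T) right_mem_uIcc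
  rw [← S.φ_add, neg_add_cancel, S.φ_zero, he3] at s4 s5
  have hd0 := hd 0 le_rfl
  rw [S.φ_zero, S.φ_zero, dist_comm] at hd0
  have hτ0 := τ_zero' hz21 hy
  obtain ⟨-, l2⟩ := h1 y x hd0 (zero_dom' hz21 hy) (by rw [hτ0]; exact hz2.2.le) _ s5.2
  rw [hτ0, τ_eq (mem_ball_zero_iff.2 hz'.2.2) ((c_τ s5.1).trans hc4).symm] at l2
  have l3 := S.norm_pU_le (z' - z2)
  rw [map_sub, hU2, sub_zero] at l3
  refine l3.trans (l2.trans ?_)
  rw [mul_assoc]
  exact mul_le_mul_of_nonneg_left (s4.trans (mul_le_of_le_one_right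
    (mul_nonneg hCU (Real.exp_pos _).le) (by linarith))) hL

/-- the distance of a stable leaf to the axis, read at two points -/
theorem holderS : ∃ r C α : ℝ, 0 < r ∧ 0 < C ∧ 0 < α ∧ α ≤ 1 ∧ ∀ x, ∀ z ∈ ball (0 : V) r,
    ∀ z' ∈ ball (0 : V) r, (S.c x z).2 = (S.c x z').2 → ‖S.pU z'‖ ≤ C * ‖S.pU z‖ ^ α := by
  obtain ⟨r, C, b, ρ, hr, hC, hb, hρ, hr1, h⟩ := S.holder_exp
  have hρ0 : 0 < ρ := by linarith
  have hα : 0 < min (S.lam / b) 1 := lt_min (div_pos S.lam_pos hb) one_pos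
  refine ⟨r, (C + 1) * (2 / ρ) ^ min (S.lam / b) 1, min (S.lam / b) 1, hr, by positivity, hα,
    min_le_right _ _, fun x z hz z' hz' he => ?_⟩
  rcases (norm_nonneg (S.pU z)).eq_or_lt with h0 | h0
  · have h1 := (S.c_S x z (ball_subset_ball hr1 hz)).2 (norm_eq_zero.1 h0.symm)
    rw [(S.c_S x z' (ball_subset_ball hr1 hz')).1 (he.symm.trans h1), norm_zero]
    positivity
  · have h1 : ‖S.pU z‖ < r := (S.norm_pU_le z).trans_lt (mem_ball_zero_iff.1 hz)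
    have h2 : 0 < 2 / ρ * ‖S.pU z‖ := by positivity
    have h3 : 2 / ρ * ‖S.pU z‖ ≤ 1 := by
      rw [div_mul_eq_mul_div, div_le_one hρ0]
      linarith
    have h4 := h x z hz z' hz' he (-Real.log (2 / ρ * ‖S.pU z‖) / b)
      (div_nonneg (neg_nonneg.2 (Real.log_nonpos h2.le h3)) hb.le) (by
        rw [show -b * (-Real.log (2 / ρ * ‖S.pU z‖) / b) = Real.log (2 / ρ * ‖S.pU z‖) by
          field_simp, Real.exp_log h2, ← mul_assoc, mul_div_cancel₀ _ hρ0.ne']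
        linarith)
    rw [show -S.lam * (-Real.log (2 / ρ * ‖S.pU z‖) / b) =
      Real.log (2 / ρ * ‖S.pU z‖) * (S.lam / b) by ring, ← Real.rpow_def_of_pos h2] at h4
    rw [mul_assoc, ← Real.mul_rpow (by positivity) h0.le]
    exact h4.trans (mul_le_mul (by linarith)
      (Real.rpow_le_rpow_of_exponent_ge h2 h3 (min_le_left _ _)) (by positivity) (by linarith))

end Sys

end Vale.Agent.P207Z
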