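import Vale.Agent.P207Z.Bun
import Vale.Agent.P207Z.StayA
import Vale.Agent.P207Z.StayG
import Vale.Agent.P207Z.StayH

/-!
# P207: orbits which stay in the charts, graphs, Hoelder continuity (block DYN2)
-/
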