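import Vale.Agent.P207Z.OpsA
import Vale.Agent.P207Z.Stay
import Vale.Agent.P207Z.Rev

/-!
# P207: extensions of fixed radius along the leaves (block OPS5)
-/

set_option linter.all false

open Set Filter Topology Metric MeasureTheory Asymptotics
open scoped ContDiff

noncomputable section

namespace Vale.Agent.P207Z

open Vale.Agent.P207.N3 (JC)

variable {Γ X B E V : Type} [Group Γ] [Countable Γ] [MetricSpace X] [ProperSpace X]
  [MulAction Γ X] [IsIsometricSMul Γ X] [MeasurableSpace X] [BorelSpace X]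
  [TopologicalSpace B] [CompactSpace B] [T2Space B] [SecondCountableTopology B] [MulAction Γ B]
  [ContinuousConstSMul Γ B] [MeasurableSpace B] [BorelSpace B]
  [NormedAddCommGroup E] [InnerProductSpace ℝ E] [FiniteDimensional ℝ E]
  [NormedAddCommGroup V] [NormedSpace ℝ V] [FiniteDimensional ℝ V]
  {F G W : Type} [NormedAddCommGroup F] [NormedSpace ℝ F] [FiniteDimensional ℝ F]
  [NormedAddCommGroup G] [NormedSpace ℝ G] [FiniteDimensional ℝ G]
  [NormedAddCommGroup W] [NormedSpace ℝ W]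
  {F' : Type} [NormedAddCommGroup F'] [NormedSpace ℝ F'] [FiniteDimensional ℝ F']

variable {S : Sys Γ X B E V} {Y : Type} [MeasurableSpace Y] [MulAction Γ Y]
  {𝔉 : Bun S F} {𝔊 : Bun S G} {ℌ : Bun S F'}

namespace OpsE

/-- uniform bounds near a point which is not the centre of the chart -/
theorem unif_shift {f : X × X → V → W} (hf : JC f S.Dm)
    (hs : ∀ (g : Γ) x y, ∀ q ∈ S.dom x y, f (g • x, g • y) q = f (x, y) q) (D : ℝ) (k : ℕ) :
    ∃ n, ∀ x y, dist x y ≤ D → ∀ p ∈ S.dom x y, ‖p‖ ≤ 1 / 4 → ‖S.τ x y p‖ ≤ 1 / 4 →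
      (∀ q ∈ ball (0 : V) (rad n), p + q ∈ S.dom x y) ∧ CkB k n fun q => f (x, y) (p + q) := by
  obtain ⟨r, hr, h1⟩ := S.unif_dom D (a := 1 / 4) (a' := 1 / 2) (by norm_num) (by norm_num)
  obtain ⟨C, -, h2⟩ := S.unif_bd hf hs D (a := 1 / 2) (by norm_num) k
  obtain ⟨n, -, h3, h4⟩ := CalcAux.exists_ckB (V := V) (W := W) (fun _ => C) k 0 hr
  refine ⟨n, fun x y hd p hp a b => ?_⟩
  have h5 := fun q (hq : q ∈ ball (0 : V) (rad n)) => h1 x y hd p hp a b (p + q) (by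
    rw [mem_closedBall, dist_eq_norm, add_sub_cancel_left]
    exact (mem_ball_zero_iff.1 hq).le.trans h3)
  refine ⟨fun q hq => (h5 q hq).1, h4 _ (fun q hq => ?_) fun i hi q hq => ?_⟩
  · exact (((hf.contDiffAt (p := ((x, y), p + q)) (h5 q hq).1).of_le
      (by exact_mod_cast le_top)).comp q (contDiffAt_const.add contDiffAt_id)).contDiffWithinAt
  · rw [iteratedFDeriv_comp_add_left]
    exact h2 x y hd _ (h5 q hq).1 (h5 q hq).2.1 (h5 q hq).2.2 i hi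

theorem rad_two (n : ℕ) : rad (2 * n + 1) = rad n / 2 := by
  unfold rad
  push_cast
  field_simp
  ring

theorem add_mem {n : ℕ} {p q : V} (hp : ‖p‖ ≤ rad n / 2) (hq : q ∈ ball (0 : V) (rad (2 * n + 1))) :
    p + q ∈ ball (0 : V) (rad n) := by
  rw [mem_ball_zero_iff, rad_two] at *
  linarith [norm_add_le p q]

theorem ckB_shift {k n : ℕ} {f : V → W} (h : CkB k n f) {p : V} (hp : ‖p‖ ≤ rad n / 2) :
    CkB k (2 * n + 1) fun q => f (p + q) := by
  refine ⟨fun q hq => ?_, fun i hi q hq => ?_⟩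
  · exact ((h.contDiffAt (add_mem hp hq)).comp q
      (contDiffAt_const.add contDiffAt_id)).contDiffWithinAt
  · rw [iteratedFDeriv_comp_add_left]
    refine (h.bd i hi _ (add_mem hp hq)).trans ?_
    exact_mod_cast (by omega : n ≤ 2 * n + 1)

/-- a field of projections read in another chart, near a point which is not the centre -/
theorem prj_shift (𝔉 : Bun S F) (D : ℝ) (k n : ℕ) : ∃ m, ∀ x y, dist x y ≤ D →
    ∀ p ∈ S.dom x y, ‖p‖ ≤ 1 / 4 → ‖S.τ x y p‖ ≤ 1 / 4 → ∀ n' ≤ n, ‖S.τ x y p‖ ≤ rad n' / 2 →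
      ∀ P, Prj k n' P → Prj k m fun q => 𝔉.conj x y P (p + q) := by
  obtain ⟨n₁, h1⟩ := unif_shift (Sys.jc_τ (S := S)) (fun g x y q hq => Sys.τ_smul g hq) D (k + 1)
  obtain ⟨n₂, h2⟩ := unif_shift 𝔉.jc 𝔉.smul D k
  obtain ⟨n₃, h3⟩ := unif_shift 𝔉.jc_inv (fun g x y q hq => by
    change 𝔉.A _ _ _ = _
    rw [Sys.τ_smul g hq, 𝔉.smul g y x _ (Sys.τ_dom hq)]) D k
  obtain ⟨n₄, a4, h4⟩ := ckB_comp (V := V) (V' := V) (W := F →L[ℝ] F) k (2 * (n₁ + 1) + (2 * n + 1))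
  obtain ⟨n₅, a5, h5⟩ := ckB_bilin (V := V) (ContinuousLinearMap.mul ℝ (F →L[ℝ] F)) k (n₃ + n₄)
  obtain ⟨n₆, a6, h6⟩ := ckB_bilin (V := V) (ContinuousLinearMap.mul ℝ (F →L[ℝ] F)) k (n₅ + n₂)
  refine ⟨n₆, fun x y hd p hp a b n' hn c P hP => ?_⟩
  obtain ⟨d1, e1⟩ := h1 x y hd p hp a b
  obtain ⟨e4, d4⟩ := h4 (fun q => P (S.τ x y p + q)) (fun q => S.τ x y (p + q) - S.τ x y p)
    ((ckB_shift hP.ckb c).mono le_rfl (by omega))
    (((e1.mono le_rfl (Nat.le_succ _)).sub (CkB.const _ (by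
      push_cast
      linarith [Nat.cast_nonneg (α := ℝ) n₁]))).mono le_rfl (by omega)) (by simp)
  simp only [add_sub_cancel] at e4
  refine ⟨h6 _ _ ((h5 _ _ ((h3 x y hd p hp a b).2.mono le_rfl (by omega))
    (e4.mono le_rfl (by omega))).mono le_rfl (by omega))
    ((h2 x y hd p hp a b).2.mono le_rfl (by omega)), fun q hq => ?_⟩
  have f1 := d1 q (ball_subset_ball (rad_anti (by omega)) hq)
  have f2 := add_mem c (ball_subset_ball (rad_anti (by omega))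
    (d4 (ball_subset_ball (rad_anti (by omega)) hq)))
  rw [add_sub_cancel] at f2
  simp only [Bun.conj]
  calc _ = 𝔉.A y x (S.τ x y (p + q)) * (P (S.τ x y (p + q)) * ((𝔉.A x y (p + q) *
        𝔉.A y x (S.τ x y (p + q))) * P (S.τ x y (p + q)))) * 𝔉.A x y (p + q) := by
          simp only [mul_assoc]
    _ = _ := by rw [𝔉.inv' f1, one_mul, hP.idem _ f2]

theorem eqv_conj (𝔉 : Bun S F) {k : ℕ} (P : V → F →L[ℝ] F) {x y z : X} (h : (0 : V) ∈ S.dom y x)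
    (h' : (0 : V) ∈ S.dom y z) :
    Eqv k (𝔉.pull y x (cmp (𝔉.conj x z P))) (𝔉.pull y z (cmp P)) := by
  have e : ∀ᶠ q in 𝓝 (0 : V), q ∈ S.dom y x ∧ q ∈ S.dom y z :=
    inter_mem (Sys.dom_nhds h) (Sys.dom_nhds h')
  have k1 : ∀ q ∈ S.dom y x, q ∈ S.dom y z → 𝔉.pull y x (cmp (𝔉.conj x z P)) q =
      𝔉.A z x (S.τ y z q) * 𝔉.pull y z (cmp P) q := fun q a b => by
    change (1 - 𝔉.conj x z P _) * _ = _ * ((1 - P _) * _)
    rw [Bun.conj, Sys.τ_trans a b, sub_mul, sub_mul, mul_sub, one_mul, one_mul, mul_assoc,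
      𝔉.coc y x z q a b, 𝔉.coc y z x q b a, mul_assoc]
  refine ⟨((Dom.refl _).left ((𝔉.continuousAt (Sys.τ_dom' h' h)).comp
    (Sys.differentiableAt_τ h').continuousAt)).congr (e.mono fun q a => k1 q a.1 a.2) .rfl,
    ((Dom.refl _).left ((𝔉.continuousAt (Sys.τ_dom' h h')).comp
    (Sys.differentiableAt_τ h).continuousAt)).congr (e.mono fun q a => ?_) .rfl⟩
  change _ = 𝔉.A x z (S.τ y x q) * _
  rw [k1 q a.1 a.2, ← mul_assoc, ← Sys.τ_trans a.1 a.2, 𝔉.inv' (Sys.τ_dom' a.1 a.2), one_mul]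

end OpsE

/-! ### OPS5: extensions of fixed radius, whole leaves -/

/-- `P` is a field of projections near the disc of radius `a` of the `S`-axis -/
structure TubeS (S : Sys Γ X B E V) (k n : ℕ) (a : ℝ) (P : V → F →L[ℝ] F) : Prop where
  loc : ∀ w ∈ ball (0 : E) a, Prj k n fun q => P (S.iS w + q)

/-- **GLOB**: the radius along the leaf can be fixed, the width and the norm are measurable -/
theorem SSub.globS (P : Prob S Y) : ∃ a > 0, ∀ (F : Type) [NormedAddCommGroup F] [NormedSpace ℝ F]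
    [FiniteDimensional ℝ F] (𝔉 : Bun S F) (W : SSub 𝔉) (k : ℕ), S.Tight fun n x =>
      ∃ Q, TubeS S k n a Q ∧
        (∀ y, S.pt y = S.pt x → Eqv k (𝔉.pull y x (cmp Q)) (cmp (W.J k y))) ∧
        S.AlongS x a fun y => Eqv k (𝔉.pull y x (cmp Q)) (cmp (W.J k y)) := by
  obtain ⟨r, C, hr, hC, h1⟩ := S.stayS (a := 1 / 4) (by norm_num)
  obtain ⟨D, hD, h2⟩ := S.dist_le_lv
  refine ⟨min r (1 / 4), lt_min hr (by norm_num), fun F _ _ _ 𝔉 W k => ?_⟩
  have h3 : ∀ n, ∃ N : ℕ, ∀ j ≥ N, C * Real.exp (-S.lam * (j : ℕ)) ≤ rad n / 2 := fun n => by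
    have : Tendsto (fun j : ℕ => C * Real.exp (-S.lam * j)) atTop (𝓝 (C * 0)) :=
      (Real.tendsto_exp_atBot.comp (tendsto_natCast_atTop_atTop.const_mul_atTop_of_neg
        (neg_neg_of_pos S.lam_pos))).const_mul C
    rw [mul_zero] at this
    exact eventually_atTop.1 (this.eventually_le_const (half_pos (rad_pos n)))
  choose N hN using h3
  refine (P.tight_ret (W.extS k) (W.port_QS k) N).imp fun n => ?_
  obtain ⟨m, hm⟩ := OpsE.prj_shift 𝔉 (D * (n + 1)) k n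
  refine ⟨m, ae_of_all _ ?_⟩
  rintro x ⟨n', hn, j, j1, j2, Q, q1, q2, q3⟩
  have e : S.pt (S.φ j x) = S.pt x := S.pt_φ j x
  have h4 : ∀ w ∈ ball (0 : E) (min r (1 / 4)), ‖S.iS w‖ ≤ 1 / 4 ∧ S.iS w ∈ S.dom x (S.φ j x) ∧
      ‖S.τ x (S.φ j x) (S.iS w)‖ ≤ 1 / 4 ∧ ‖S.τ x (S.φ j x) (S.iS w)‖ ≤ rad n' / 2 := by
    intro w hw
    obtain ⟨a, b⟩ := h1 x j (Nat.cast_nonneg j) w (ball_subset_ball (min_le_left _ _) hw)
    have c := (mem_ball_zero_iff.1 hw).le.trans (min_le_right _ _)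
    refine ⟨by rwa [S.norm_iS], (a _ right_mem_uIcc).1, (a _ right_mem_uIcc).2,
      b.trans ((mul_le_of_le_one_right (by positivity) (by linarith)).trans (hN n' j j1))⟩
  refine ⟨𝔉.conj x (S.φ j x) Q, ⟨fun w hw => ?_⟩, fun y hy => ?_,
    Filter.Eventually.mono q3 fun ξ a y hy hc => ?_⟩
  · obtain ⟨a, b, c, d⟩ := h4 w hw
    refine hm x _ ((h2 x _ e.symm).trans ?_) _ b a c n' hn d Q q1
    rw [S.lv_φ, sub_add_cancel_left, abs_neg, Nat.abs_cast]
    gcongr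
  · exact (OpsE.eqv_conj 𝔉 Q (Sys.zero_dom hy) (Sys.zero_dom (hy.trans e.symm))).trans
      (q2 y (hy.trans e.symm))
  · obtain ⟨q, hq, b⟩ := hc
    have c : q ∈ ball (0 : V) 1 :=
      ball_subset_ball ((min_le_right _ _).trans (by norm_num)) hq
    have d : S.iS (S.pS q) = q := by
      have := S.iS_add q
      rwa [(S.c_S x q c).1 (by rw [b, hy]), map_zero, add_zero] at this
    obtain ⟨-, f1, -, f2⟩ := h4 (S.pS q) (mem_ball_zero_iff.2
      ((S.norm_pS_le q).trans_lt (mem_ball_zero_iff.1 hq)))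
    rw [d] at f1 f2
    have f3 := (Sys.c_τ f1).trans b
    exact (OpsE.eqv_conj 𝔉 Q (Sys.zero_dom' c b.symm) (Sys.zero_dom' (Sys.τ_ball f1) f3.symm)).trans
      (a y (by rw [S.ep_φ, hy]) ⟨_, mem_ball_zero_iff.2 (f2.trans_lt (half_lt_self (rad_pos n'))),
        f3⟩)

theorem SSub.globU (P : Prob S Y) : ∃ a > 0, ∀ (F : Type) [NormedAddCommGroup F] [NormedSpace ℝ F]
    [FiniteDimensional ℝ F] (𝔉 : Bun S F) (W : SSub 𝔉) (k : ℕ), S.Tight fun n x =>
      ∃ Q, TubeS S.rev k n a Q ∧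
        (∀ y, S.pt y = S.pt x → Eqv k (𝔉.pull y x (cmp Q)) (cmp (W.J k y))) ∧
        S.AlongU x a fun y => Eqv k (𝔉.pull y x (cmp Q)) (cmp (W.J k y)) := by
  obtain ⟨a, ha, h⟩ := SSub.globS P.rev
  refine ⟨a, ha, fun F _ _ _ 𝔉 W k => ?_⟩
  have h1 := h F 𝔉.rev W.rev k
  simp only [Sys.rev_tight, Sys.rev_pt_iff, Bun.rev_pull, Sys.rev_alongS] at h1
  exact h1

end Vale.Agent.P207Z
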