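import Vale.Agent.P207Z.ErgS
import Vale.Agent.P207Z.Rev
import Vale.Agent.P207Z.Stay
import Vale.Agent.P207Z.JetM
import Vale.Agent.P207Z.OpsA
import Vale.Agent.P207Z.OpsB
import Vale.Agent.P207Z.OpsC
import Vale.Agent.P207Z.OpsD
import Vale.Agent.P207Z.OpsE

/-!
# P207: operations on the class S (block OPS)
-/
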