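import Vale.Agent.P207Z.AnnD
import Vale.Agent.P207Z.Ops

/-!
# P207: the hull of a continuous invariant section is of class S (block HULLS)
-/

set_option linter.all false

open Set Filter Topology Metric MeasureTheory Asymptotics
open scoped ContDiff

noncomputable section

namespace Vale.Agent.P207Z

open Vale.Agent.P207.N3 (JC)

namespace AnnHx

section Lin

variable {V W F J J' : Type} [NormedAddCommGroup V] [NormedSpace ℝ V] [NormedAddCommGroup W]
  [NormedSpace ℝ W] [NormedAddCommGroup F] [NormedSpace ℝ F] [NormedAddCommGroup J]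
  [NormedSpace ℝ J] [FiniteDimensional ℝ J] [NormedAddCommGroup J'] [NormedSpace ℝ J'] {k : ℕ}

theorem ckB_sum {ι : Type} (s : Finset ι) (k n : ℕ) : ∃ n' ≥ n, ∀ f : ι → V → W,
    (∀ i ∈ s, CkB k n (f i)) → CkB k n' fun q => ∑ i ∈ s, f i q := by
  classical
  induction s using Finset.induction_on with
  | empty => exact ⟨n, le_rfl, fun f _ => by simpa using CkB.const (0 : W) (by simp)⟩
  | insert a s ha ih =>
    obtain ⟨m, hm, h⟩ := ih
    refine ⟨2 * m, by omega, fun f hf => ?_⟩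
    simp only [Finset.sum_insert ha]
    exact ((hf a (Finset.mem_insert_self _ _)).mono le_rfl hm).add
      (h f fun i hi => hf i (Finset.mem_insert_of_mem hi))

theorem jet_sum {ι : Type} (s : Finset ι) (c : ι → ℝ) {f : ι → V → W} {z : V}
    (hf : ∀ i, ContDiffAt ℝ k (f i) z) :
    jet k (fun q => ∑ i ∈ s, c i • f i q) z = ∑ i ∈ s, c i • jet k (f i) z := by
  classical
  induction s using Finset.induction_on with
  | empty => exact (flat_iff_jet contDiffAt_const).1 Flat.zero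
  | insert a s ha ih =>
    simp only [Finset.sum_insert ha]
    rw [jet_add ((hf a).const_smul _) (ContDiffAt.sum fun i _ => (hf i).const_smul _), ih,
      jet_smul _ (hf a)]

/-- the coordinates in the standard basis -/
def crd (J : Type) [NormedAddCommGroup J] [NormedSpace ℝ J] [FiniteDimensional ℝ J]
    (i : Fin (Module.finrank ℝ J)) : J →L[ℝ] ℝ :=
  ((Module.finBasis ℝ J).coord i).toContinuousLinearMap

theorem crd_sum (T : J →L[ℝ] J') (a : J) :
    ∑ i, crd J i a • T (Module.finBasis ℝ J i) = T a := by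
  conv_rhs => rw [← (Module.finBasis ℝ J).sum_repr a, map_sum]
  simp [crd]

/-- the linear map with given values on the standard basis -/
def lin (t : Fin (Module.finrank ℝ J) → J') : J →L[ℝ] J' := ∑ i, (crd J i).smulRight (t i)

theorem lin_apply (t : Fin (Module.finrank ℝ J) → J') (a : J) : lin t a = ∑ i, crd J i a • t i := by
  simp [lin]

theorem lin_basis (t : Fin (Module.finrank ℝ J) → J') (i) : lin t (Module.finBasis ℝ J i) = t i := by
  simp [lin_apply, crd, Finsupp.single_apply, eq_comm]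

theorem range_lin {W W' : Submodule ℝ J} {t : Fin (Module.finrank ℝ J) → J} (ht : ∀ i, t i ∈ W')
    (hr : Module.finrank ℝ W' ≤ Module.finrank ℝ W) (hi : ∀ a ∈ W, lin t a = 0 → a = 0) :
    (lin t : J →L[ℝ] J).range = W' := by
  refine Submodule.eq_of_le_of_finrank_le ?_ (hr.trans (LinearMap.finrank_le_finrank_of_injective
    (f := ((lin t : J →L[ℝ] J) : J →ₗ[ℝ] J).rangeRestrict.domRestrict W)
    ((injective_iff_map_eq_zero _).2 fun a h => Subtype.ext (hi _ a.2 (congrArg Subtype.val h)))))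
  rintro _ ⟨a, rfl⟩
  rw [ContinuousLinearMap.coe_coe, lin_apply]
  exact Submodule.sum_mem _ fun i _ => Submodule.smul_mem _ _ (ht i)

theorem small {δ : ℝ} (hδ : 0 < δ) (n : ℕ) : ∃ ε > 0, ∀ (t t' : Fin (Module.finrank ℝ J) → J)
    (a : J) (r : ℝ), 0 ≤ r → r < ε → lin t a = δ • a → lin t' a = 0 →
    (∀ i, ‖t' i - t i‖ ≤ n * r) → a = 0 := by
  set c : ℝ := ∑ i, ‖crd J i‖ with hc
  have hc0 : 0 ≤ c := by positivity
  refine ⟨δ / (c * n + 1), by positivity, fun t t' a r r0 hr h1 h2 h3 => ?_⟩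
  have h8 : δ • a = -∑ i, crd J i a • (t' i - t i) := by
    simp only [smul_sub, Finset.sum_sub_distrib, ← lin_apply, h1, h2, zero_sub, neg_neg]
  have h9 : δ * ‖a‖ ≤ c * ‖a‖ * (n * r) := by
    rw [← Real.norm_of_nonneg hδ.le, ← norm_smul, h8, norm_neg, hc, Finset.sum_mul, Finset.sum_mul]
    refine (norm_sum_le _ _).trans (Finset.sum_le_sum fun i _ => ?_)
    rw [norm_smul]
    exact mul_le_mul ((crd J i).le_opNorm a) (h3 i) (norm_nonneg _) (by positivity)
  rw [lt_div_iff₀ (by positivity)] at hr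
  refine norm_le_zero_iff.1 (le_of_not_gt fun h10 => ?_)
  nlinarith [mul_lt_mul_of_pos_right hr h10, mul_nonneg r0 h10.le]

/-- a canonical family of generators of a subspace -/
theorem exists_pj (J : Type) [NormedAddCommGroup J] [NormedSpace ℝ J] [FiniteDimensional ℝ J] :
    ∃ (π : Submodule ℝ J → Fin (Module.finrank ℝ J) → J) (δ : ℝ), 0 < δ ∧ (∀ H i, π H i ∈ H) ∧
      (∀ H, ∀ a ∈ H, lin (π H) a = δ • a) ∧ (∀ H i, ‖π H i‖ ≤ 1) ∧
      ∀ {X : Type} [MeasurableSpace X] {μ : Measure X} {H : X → Submodule ℝ J}, MET.MSub μ H →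
        ∀ i, AEStronglyMeasurable (fun x => π (H x) i) μ := by
  let e := toEuclidean (E := J)
  let c := e.conjContinuousAlgEquiv
  obtain ⟨K, hK, h1⟩ := MET.conj_norm c.symm
  set D := K * ∑ i, ‖Module.finBasis ℝ J i‖ + 1 with hD
  have hD0 : 0 < D := by positivity
  refine ⟨fun H i => (D⁻¹ • c.symm (H.map (e.toContinuousLinearMap : J →ₗ[ℝ] _)).starProjection)
    (Module.finBasis ℝ J i), D⁻¹, by positivity, fun H i => H.smul_mem _ ?_, fun H a ha => ?_,
    fun H i => ?_, fun {X} _ {μ H} hH i => ?_⟩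
  · obtain ⟨w, hw, h2⟩ := (H.map (e.toContinuousLinearMap : J →ₗ[ℝ] _)).starProjection_apply_mem
      (e (Module.finBasis ℝ J i))
    change e.symm ((H.map (e.toContinuousLinearMap : J →ₗ[ℝ] _)).starProjection (e _)) ∈ H
    rw [← h2]
    simpa using hw
  · rw [lin_apply, crd_sum]
    change D⁻¹ • e.symm ((H.map (e.toContinuousLinearMap : J →ₗ[ℝ] _)).starProjection (e a)) = _
    have h2 : e a ∈ H.map (e.toContinuousLinearMap : J →ₗ[ℝ] _) := ⟨a, ha, rfl⟩
    rw [Submodule.starProjection_eq_self_iff.2 h2, e.symm_apply_apply]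
  · beta_reduce
    rw [smul_apply, norm_smul, Real.norm_of_nonneg (by positivity), inv_mul_le_iff₀ hD0, mul_one]
    refine (ContinuousLinearMap.le_of_opNorm_le _ ((h1 _).trans
      (mul_le_of_le_one_right hK (Submodule.starProjection_norm_le _))) _).trans ?_
    have := Finset.single_le_sum (f := fun i => ‖Module.finBasis ℝ J i‖)
      (fun _ _ => norm_nonneg _) (Finset.mem_univ i)
    nlinarith
  · obtain ⟨A, hA, h2⟩ := hH
    have h3 : Measurable fun x => e.toContinuousLinearMap ∘L hA.mk A x :=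
      (continuous_const.clm_comp continuous_id).measurable.comp hA.measurable_mk
    refine (((c.symm.continuous.const_smul D⁻¹).clm_apply
      (continuous_const (y := Module.finBasis ℝ J i))).comp_aestronglyMeasurable
      (MET.meas_proj_range h3).aestronglyMeasurable).congr ?_
    filter_upwards [h2, hA.ae_eq_mk] with x h4 h5
    have : (e.toContinuousLinearMap ∘L hA.mk A x).range =
        (H x).map (e.toContinuousLinearMap : J →ₗ[ℝ] _) := by
      rw [← h5, ← h4]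
      exact LinearMap.range_comp _ _
    simp only [this]
    rfl

/-- the generators -/
def pj (H : Submodule ℝ J) : Fin (Module.finrank ℝ J) → J := (exists_pj J).choose H

theorem pj_mem (H : Submodule ℝ J) (i) : pj H i ∈ H := (exists_pj J).choose_spec.choose_spec.2.1 H i

theorem pj_lin : ∃ δ : ℝ, 0 < δ ∧ ∀ H : Submodule ℝ J, ∀ a ∈ H, lin (pj H) a = δ • a :=
  ⟨_, (exists_pj J).choose_spec.choose_spec.1, (exists_pj J).choose_spec.choose_spec.2.2.1⟩

theorem pj_norm (H : Submodule ℝ J) (i) : ‖pj H i‖ ≤ 1 :=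
  (exists_pj J).choose_spec.choose_spec.2.2.2.1 H i

theorem pj_meas {X : Type} [MeasurableSpace X] {μ : Measure X} {H : X → Submodule ℝ J}
    (h : MET.MSub μ H) (i) : AEStronglyMeasurable (fun x => pj (H x) i) μ :=
  (exists_pj J).choose_spec.choose_spec.2.2.2.2 h i

theorem range_pj (H : Submodule ℝ J) : (lin (pj H) : J →L[ℝ] J).range = H := by
  obtain ⟨δ, hδ, h⟩ := pj_lin (J := J)
  exact range_lin (pj_mem H) le_rfl fun a ha e => by simpa [h H a ha, hδ.ne'] using e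

variable {d : ℕ}

/-- the inclusion of one form in a system -/
def inc (F : Type) [NormedAddCommGroup F] [NormedSpace ℝ F] (i : Fin d) :
    (F →L[ℝ] ℝ) →L[ℝ] F →L[ℝ] Fin d → ℝ :=
  ContinuousLinearMap.compL ℝ F ℝ (Fin d → ℝ) (ContinuousLinearMap.single ℝ (fun _ => ℝ) i)

/-- a family of forms as one system of equations -/
def Sm (σ : Fin d → V → F →L[ℝ] ℝ) (q : V) : F →L[ℝ] Fin d → ℝ := ∑ i, inc F i (σ i q)

theorem Sm_apply (σ : Fin d → V → F →L[ℝ] ℝ) (q : V) (v : F) (i) : Sm σ q v i = σ i q v := by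
  simp [Sm, inc, Pi.single_apply]

theorem ckB_Sm (d k n : ℕ) : ∃ n' ≥ n, ∀ σ : Fin d → V → F →L[ℝ] ℝ, (∀ i, CkB k n (σ i)) →
    CkB k n' (Sm σ) := by
  choose l hl hL using fun i : Fin d => ckB_clm (V := V) (inc F i) k n
  obtain ⟨m, hm, h⟩ := ckB_sum (V := V) (W := F →L[ℝ] Fin d → ℝ) (Finset.univ : Finset (Fin d)) k
    (max n (Finset.univ.sup l))
  exact ⟨m, (le_max_left _ _).trans hm, fun σ hσ => h _ fun i _ => (hL i _ (hσ i)).mono le_rfl
    ((Finset.le_sup (Finset.mem_univ i)).trans (le_max_right _ _))⟩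

theorem flat_Sm {σ σ' : Fin d → V → F →L[ℝ] ℝ} (h : ∀ i, Flat k (fun q => σ i q - σ' i q) 0) :
    Eqv k (Sm σ) (Sm σ') := by
  refine Eqv.of_flat ((Flat.sum (s := Finset.univ) (f := fun i q => inc F i (σ i q - σ' i q))
    fun i _ => (h i).clm (inc F i)).congr (Eventually.of_forall fun q => ?_))
  simp only [Sm, map_sub, Finset.sum_sub_distrib]

variable (pl : V → J →L[ℝ] F →L[ℝ] ℝ)

/-- the equations given by a family of jets -/
def Ev (t : Fin d → J) : V → F →L[ℝ] Fin d → ℝ := Sm fun i q => pl q (t i)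

theorem dom_Ev {t t' : Fin (Module.finrank ℝ J) → J}
    (h : (lin t : J →L[ℝ] J).range ≤ (lin t' : J →L[ℝ] J).range) :
    Dom k (Ev pl t) (Ev pl t') := by
  choose u hu using fun i => h ⟨Module.finBasis ℝ J i, lin_basis t i⟩
  refine Dom.of_le (∑ i, ∑ j, |crd J j (u i)|) (Eventually.of_forall fun q v => ?_)
  refine (pi_norm_le_iff_of_nonneg (by positivity)).2 fun i => le_trans ?_
    (mul_le_mul_of_nonneg_right (Finset.single_le_sum (f := fun i => ∑ j, |crd J j (u i)|)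
      (fun _ _ => by positivity) (Finset.mem_univ i)) (norm_nonneg _))
  rw [Ev, Sm_apply, ← hu i, ContinuousLinearMap.coe_coe, lin_apply, map_sum,
    ContinuousLinearMap.sum_apply, Finset.sum_mul]
  refine (norm_sum_le _ _).trans (Finset.sum_le_sum fun j _ => ?_)
  rw [map_smul, smul_apply, norm_smul, ← Sm_apply (fun i q => pl q (t' i))]
  exact mul_le_mul_of_nonneg_left (norm_le_pi_norm _ j) (norm_nonneg _)

theorem mem_ker_Ev (H : Submodule ℝ J) (v : F) :
    v ∈ (Ev pl (pj H) 0).ker ↔ ∀ a ∈ H, pl 0 a v = 0 := by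
  refine ⟨fun h a ha => ?_, fun h => funext fun i => (Sm_apply _ _ _ i).trans (h _ (pj_mem H i))⟩
  obtain ⟨b, rfl⟩ := (range_pj H).ge ha
  have h1 : ∀ i, pl 0 (pj H i) v = 0 := fun i => (Sm_apply _ _ _ i).symm.trans (congrFun h i)
  simp [lin_apply, h1]

theorem contDiff_Ev (h : ContDiff ℝ ∞ pl) (t : Fin d → J) : ContDiff ℝ ∞ (Ev pl t) :=
  ContDiff.sum (s := Finset.univ) (f := fun i q => inc F i (pl q (t i))) fun i _ =>
    (inc F i).contDiff.comp (h.clm_apply contDiff_const)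

theorem meas_Ev [FiniteDimensional ℝ V] [FiniteDimensional ℝ F] (h : ContDiff ℝ ∞ pl) {X : Type}
    [MeasurableSpace X] {μ : Measure X} {t : X → Fin d → J}
    (ht : ∀ i, AEStronglyMeasurable (fun x => t x i) μ) :
    AEStronglyMeasurable (fun x => jet k (Ev pl (t x)) 0) μ := by
  have c : ∀ i : Fin d, ContDiffAt ℝ k (fun q => inc F i ∘L pl q) 0 := fun i =>
    (contDiff_const.clm_comp h).contDiffAt.of_le (by exact_mod_cast le_top)
  refine (Finset.aestronglyMeasurable_fun_sum Finset.univ fun i _ =>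
    meas_jet_param (c i) (ht i)).congr (Eventually.of_forall fun x => ?_)
  have := jet_sum (k := k) Finset.univ (fun _ => 1) (f := fun i q => (inc F i ∘L pl q) (t x i))
    fun i => (c i).clm_apply contDiffAt_const
  simp only [one_smul] at this
  exact this.symm

end Lin

end AnnHx

open AnnHx

variable {Γ X B E V : Type} [Group Γ] [Countable Γ] [MetricSpace X] [ProperSpace X]
  [MulAction Γ X] [IsIsometricSMul Γ X] [MeasurableSpace X] [BorelSpace X]
  [TopologicalSpace B] [CompactSpace B] [T2Space B] [SecondCountableTopology B] [MulAction Γ B]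
  [ContinuousConstSMul Γ B] [MeasurableSpace B] [BorelSpace B]
  [NormedAddCommGroup E] [InnerProductSpace ℝ E] [FiniteDimensional ℝ E]
  [NormedAddCommGroup V] [NormedSpace ℝ V] [FiniteDimensional ℝ V]
  {F G W : Type} [NormedAddCommGroup F] [NormedSpace ℝ F] [FiniteDimensional ℝ F]
  [NormedAddCommGroup G] [NormedSpace ℝ G] [FiniteDimensional ℝ G]
  [NormedAddCommGroup W] [NormedSpace ℝ W]

variable {S : Sys Γ X B E V} {Y : Type} [MeasurableSpace Y] [MulAction Γ Y] {𝔉 : Bun S F}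

theorem Bun.contDiffAt_pull (𝔉 : Bun S F) {k : ℕ} {x y : X} {σ : V → F →L[ℝ] G}
    (h : (0 : V) ∈ S.dom y x) (hσ : ContDiffAt ℝ k σ (S.τ y x 0)) :
    ContDiffAt ℝ k (𝔉.pull y x σ) 0 :=
  (hσ.comp 0 ((Sys.contDiffAt_τ h).of_le (by exact_mod_cast le_top))).clm_comp
    ((𝔉.contDiffAt h).of_le (by exact_mod_cast le_top))

theorem Bun.flat_of_pull (𝔉 : Bun S F) {k : ℕ} {x y : X} {σ : V → F →L[ℝ] G}
    (h : (0 : V) ∈ S.dom y x) (hσ : Flat k (𝔉.pull y x σ) 0) : Flat k σ (S.τ y x 0) := by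
  have h1 := Sys.τ_dom h
  rw [← Sys.τ_τ h] at hσ
  refine ((hσ.comp (Sys.differentiableAt_τ h1)).comp_left (𝔉.continuousAt h1)).congr ?_
  filter_upwards [Sys.dom_nhds h1] with q hq
  rw [Bun.pull, Sys.τ_τ hq, ContinuousLinearMap.comp_assoc]
  exact (congrArg (σ q).comp (𝔉.inv hq)).symm

namespace CSec

variable (s : CSec 𝔉)

/-- the extension of the flat annihilators along the stable leaves -/
theorem extS_𝒜 (P : Prob S Y) (k : ℕ) : S.Tight fun n x =>
    ∀ a ∈ s.𝒜 k x, ‖a‖ ≤ 1 → ∃ σ : V → F →L[ℝ] ℝ, CkB (k + 1) n σ ∧ jet k σ 0 = a ∧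
      S.AlongS x (rad n) fun y => jet k (𝔉.pull y x σ) 0 ∈ s.𝒜 k y := by
  obtain ⟨K₀, hK₀, hst⟩ := s.stab P k
  obtain ⟨w, hw⟩ := s.slow P k
  obtain ⟨K, hK, hd⟩ := s.detS (K₀ + 1) (K₀ + 1) w
  obtain ⟨r, C₀, hr, hC₀, hd⟩ := hd K le_rfl
  obtain ⟨m, hm⟩ := exists_rad_le hr
  refine (hw K (by omega)).imp fun n => ⟨max m ⌈C₀ * n⌉₊, ?_⟩
  filter_upwards [P.window (s.tight_annB K) (s.port_annB K), Sys.ae_alongS hst]
    with x hx hal h a ha ha1
  have hrn := hm _ (le_max_left m ⌈C₀ * n⌉₊)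
  obtain ⟨b, hb, rfl, hb2⟩ := h a ha
  obtain ⟨σ, s1, s2, s3, s4⟩ := hd x b n hb fun i => (hb2 i).trans (by
    rw [Nat.abs_cast]
    exact mul_le_mul_of_nonneg_right (mul_le_of_le_one_right (Nat.cast_nonneg n) ha1)
      (Real.exp_pos _).le)
  obtain ⟨C', s4⟩ := s4 ((hx 1 one_pos).imp fun n hn => hn.mono fun t ht => by
    simpa only [one_add_one_eq_two] using ht.1)
  have s5 : ∀ q ∈ ball (0 : V) r, ContDiffAt ℝ (K₀ + 1 : ℕ) σ q := fun q hq =>
    s1.contDiffAt (isOpen_ball.mem_nhds hq)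
  refine ⟨σ, ⟨(s1.of_le (by exact_mod_cast by omega)).mono (ball_subset_ball hrn),
    fun i hi q hq => (s2 i (by omega) q (ball_subset_ball hrn hq)).trans
      ((Nat.le_ceil _).trans (Nat.cast_le.2 (le_max_right _ _)))⟩, ?_,
    (hal _).mono le_rfl fun y he ⟨z, hz, hy⟩ hs => ?_⟩
  · rw [(jet_eq_iff ((s5 0 (mem_ball_self hr)).of_le (by exact_mod_cast by omega))
      ((contDiff_poly b).contDiffAt.of_le (by exact_mod_cast le_top))).2 (s3.mono (by omega)),
      ← trunc_jet (by omega : k ≤ K), hb.1]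
  have hz1 : z ∈ ball (0 : V) 1 := ball_subset_ball (rad_le_one _) hz
  have h0 := Sys.zero_dom' hz1 hy.symm
  have h1 : S.τ y x 0 ∈ ball (0 : V) r := by
    rw [Sys.τ_zero' hz1 hy.symm]; exact ball_subset_ball hrn hz
  have h2 : S.pU (S.τ y x 0) = 0 := (Sys.pU_τ he h0).2 (map_zero _)
  obtain ⟨c, hc, h3⟩ := (S.pU.differentiableAt.comp 0
    (Sys.differentiableAt_τ h0)).isBigO_sub.exists_pos
  rw [hs K₀ le_rfl hK₀, ← trunc_jet hK₀]
  refine ⟨_, s.jet_mem_ann (𝔉.contDiffAt_pull h0 (s5 _ h1)) (C := |C'| * c ^ (K₀ + 1)) ?_, rfl⟩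
  filter_upwards [Sys.dom_nhds h0, h3.bound, (Sys.contDiffAt_τ h0).continuousAt.eventually
    (isOpen_ball.mem_nhds h1)] with q q1 q2 q3
  simp only [Function.comp, h2, sub_zero] at q2
  rw [Bun.pull, ContinuousLinearMap.comp_apply, ← s.eqv _ _ _ q1, mul_assoc, ← mul_pow]
  refine (s4 _ q3).trans ?_
  gcongr
  exact le_abs_self _

/-- the fibre of the hull -/
def hull (x : X) : Submodule ℝ F := ⨅ a ∈ s.𝒜 0 x, (poly a 0).ker

theorem mem_hull (x : X) : s.e x 0 ∈ s.hull x := by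
  simp only [hull, Submodule.mem_iInf]
  exact fun a ha => s.ann_val (s.𝒜_le 0 x ha)

/-- the reference equations of the hull -/
def Req (k : ℕ) (x : X) : V → F →L[ℝ] Fin (Module.finrank ℝ (Jet k V (F →L[ℝ] ℝ))) → ℝ :=
  Ev (polyL k V (F →L[ℝ] ℝ)) (pj (s.𝒜 k x))

theorem meas_Req (P : Prob S Y) (k l : ℕ) :
    AEStronglyMeasurable (fun x => jet l (s.Req k x) 0) S.μ :=
  meas_Ev _ contDiff_polyL (pj_meas (s.msub_𝒜 P k))

theorem ker_Req (P : Prob S Y) (k : ℕ) : ∀ᵐ x ∂S.μ, (s.Req k x 0).ker = s.hull x := by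
  filter_upwards [s.trunc_𝒜 P (Nat.zero_le k)] with x hx
  have e : ∀ a : Jet k V (F →L[ℝ] ℝ), poly (trunc (Nat.zero_le k) a) 0 = poly a 0 := fun a => by
    rw [poly_zero, poly_zero]; rfl
  ext v
  rw [Req, mem_ker_Ev]
  simp only [hull, Submodule.mem_iInf, hx, polyL_apply]
  refine ⟨?_, fun h a ha => e a ▸ h _ ⟨a, ha, rfl⟩⟩
  rintro h _ ⟨a, ha, rfl⟩
  exact (DFunLike.congr_fun (e a) v).trans (h a ha)

theorem eqv_Req (k n : ℕ) : ∃ ε > 0, ∀ (x y : X) (z : V)
    (σ : Fin (Module.finrank ℝ (Jet k V (F →L[ℝ] ℝ))) → V → F →L[ℝ] ℝ),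
    (∀ i, CkB (k + 1) n (σ i)) → (∀ i, jet k (σ i) 0 = pj (s.𝒜 k x) i) → z ∈ ball (0 : V) (rad n) →
    ‖z‖ < ε → S.pt y = S.c x z → Module.finrank ℝ (s.𝒜 k y) ≤ Module.finrank ℝ (s.𝒜 k x) →
    (∀ i, jet k (𝔉.pull y x (σ i)) 0 ∈ s.𝒜 k y) → Eqv k (𝔉.pull y x (Sm σ)) (s.Req k y) := by
  obtain ⟨δ, hδ, h2⟩ := pj_lin (J := Jet k V (F →L[ℝ] ℝ))
  obtain ⟨ε, hε, hs⟩ := small (J := Jet k V (F →L[ℝ] ℝ)) hδ n
  refine ⟨ε, hε, fun x y z σ σ1 σ2 hz2 hz3 hy y1 y2 => ?_⟩
  have hz1 : z ∈ ball (0 : V) 1 := ball_subset_ball (rad_le_one _) hz2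
  have h0 := Sys.zero_dom' hz1 hy
  have hz0 := Sys.τ_zero' hz1 hy
  have c1 : ∀ i, ContDiffAt ℝ k (σ i) z := fun i =>
    ((σ1 i).mono (Nat.le_succ k) le_rfl).contDiffAt hz2
  have c2 : ∀ i, ContDiffAt ℝ k (𝔉.pull y x (σ i)) 0 := fun i =>
    𝔉.contDiffAt_pull h0 (hz0 ▸ c1 i)
  have hr := range_lin y2 y1 fun a ha h6 => by
    rw [lin_apply, ← jet_sum _ _ c2,
      ← flat_iff_jet (ContDiffAt.sum fun i _ => (c2 i).const_smul _)] at h6
    have h7 := 𝔉.flat_of_pull (σ := fun q => ∑ i, crd _ i a • σ i q) h0 (h6.congr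
      (Eventually.of_forall fun q => by ext v; simp [Bun.pull]))
    rw [hz0, flat_iff_jet (ContDiffAt.sum fun i _ => (c1 i).const_smul _), jet_sum _ _ c1] at h7
    exact hs _ (fun i => jet k (σ i) z) a _ (norm_nonneg z) hz3 (h2 _ a ha)
      ((lin_apply _ _).trans h7) fun i => σ2 i ▸ (σ1 i).lip hz2
  rw [show 𝔉.pull y x (Sm σ) = Sm fun i => 𝔉.pull y x (σ i) by
    ext q v a; simp only [Bun.pull, ContinuousLinearMap.comp_apply, Sm_apply]]
  refine Eqv.trans (flat_Sm fun i => ?_) ⟨dom_Ev _ (hr.trans (range_pj _).symm).le,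
    dom_Ev _ (hr.trans (range_pj _).symm).ge⟩
  simpa only [sub_zero, polyL_apply] using flat_taylor (c2 i)

theorem extS_hull (P : Prob S Y) (k : ℕ) : S.Tight fun n x =>
    ∃ M : V → F →L[ℝ] Fin (Module.finrank ℝ (Jet k V (F →L[ℝ] ℝ))) → ℝ, CkB k n M ∧
      (M 0).ker = s.hull x ∧ (∀ v, infDist v (s.hull x) ≤ n * ‖M 0 v‖) ∧
      𝔉.ExtS k n (s.Req k) x M := by
  obtain ⟨d, hd⟩ := s.rank_𝒜 P k
  refine (s.extS_𝒜 P k).imp₂ (Sys.tight_gap (MET.msub_const ⊤)
    (meas_jet_val (s.meas_Req P k 0)).aemeasurable) fun n n' => ?_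
  obtain ⟨m, hm, hS⟩ := ckB_Sm (V := V) (F := F) (Module.finrank ℝ (Jet k V (F →L[ℝ] ℝ))) k n
  obtain ⟨ε, hε, key⟩ := s.eqv_Req k n
  obtain ⟨m', hm'⟩ := exists_rad_le hε
  refine ⟨max m (max m' n'), ?_⟩
  filter_upwards [hd, Sys.ae_pt hd, Sys.ae_alongS hd, s.ker_Req P k] with x x1 x2 x3 x4 h h'
  choose σ σ1 σ2 σ3 using fun i => h _ (pj_mem _ i) (pj_norm _ i)
  have e0 : Sm σ 0 = s.Req k x 0 := by
    ext v a
    simp only [Req, Ev, Sm_apply, ← σ2, polyL_apply, poly_jet_zero]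
  have hn : rad (max m (max m' n')) ≤ rad n := rad_anti (hm.trans (le_max_left _ _))
  refine ⟨Sm σ, (hS _ fun i => (σ1 i).mono (Nat.le_succ k) le_rfl).mono le_rfl (le_max_left _ _),
    by rw [e0, x4], fun v => ?_, fun y hy => key x y 0 σ σ1 σ2 (mem_ball_self (rad_pos _))
      (by simpa using hε) (hy.trans (S.c_zero' x).symm) ((x2 y hy).trans x1.symm).le fun i => ?_, ?_⟩
  · have := h' v trivial
    rw [top_inf_eq, x4] at this
    rw [e0]
    exact this.trans (mul_le_mul_of_nonneg_right (Nat.cast_le.2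
      ((le_max_right _ _).trans (le_max_right _ _))) (norm_nonneg _))
  · rw [← 𝔉.gsys_pb, ← (𝔉.gsys ℝ).coc0_jet k hy.symm
      (((σ1 i).mono (Nat.le_succ k) le_rfl).contDiffAt (mem_ball_self (rad_pos _))), σ2]
    exact s.𝒜_eqv k hy.symm (pj_mem _ _)
  · have h5 : S.AlongS x (rad n) fun y => ∀ i, jet k (𝔉.pull y x (σ i)) 0 ∈ s.𝒜 k y :=
      (ae_all_iff.2 σ3).mono fun ξ h y a b i => h i y a b
    exact (h5.and (x3 _)).mono hn fun y _ ⟨z, hz, hy⟩ h6 => key x y z σ σ1 σ2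
      (ball_subset_ball hn hz) ((mem_ball_zero_iff.1 hz).trans_le
        (hm' _ ((le_max_left _ _).trans (le_max_right _ _)))) hy.symm (h6.2.trans x1.symm).le h6.1

/-- **the hull is of class S** -/
theorem isS_hull (P : Prob S Y) : IsS 𝔉 s.hull := by
  obtain ⟨W, hW, -⟩ := SEq.exists_ssub P (𝔉 := 𝔉)
    (G := fun k => Fin (Module.finrank ℝ (Jet k V (F →L[ℝ] ℝ))) → ℝ)
    { H := s.hull
      R := s.Req
      H_smul := fun g x => by simp only [hull, s.𝒜_smul]
      R_smul := fun k g x => by rw [Req, Req, s.𝒜_smul]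
      meas := (MET.msub_ker (meas_jet_val (s.meas_Req P 0 0)).aemeasurable).congr (s.ker_Req P 0)
      measR := fun k => s.meas_Req P k k
      reg := fun k => Eventually.of_forall fun x =>
        (contDiff_Ev _ contDiff_polyL _).contDiffAt.of_le (by exact_mod_cast le_top)
      extU := fun k => by
        have := Sys.rev_tight.1 (s.rev.extS_hull P.rev k)
        simp only [Bun.rev_extS] at this
        exact this
      extS := fun k => s.extS_hull P k }
  exact ⟨W, Eventually.of_forall fun x => congrFun hW x⟩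

end CSec

end Vale.Agent.P207Z
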