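import Vale.Agent.P207Z.GS
import Vale.Agent.P207Z.Stay
import Vale.Agent.P207Z.Ops
import Vale.Agent.P207Z.AnnA
import Vale.Agent.P207Z.AnnD
import Vale.Agent.P207Z.AnnH

/-!
# P207: the flat annihilators of a continuous invariant section (blocks ANN, DET, HULLS)
-/
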