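import Vale.Agent.P207Z.Sl
import Vale.Agent.P207Z.Ann

/-!
# P207: the hull (HULL, CHAR)
-/

set_option linter.all false

open Set Filter Topology Metric MeasureTheory Asymptotics
open scoped ContDiff

noncomputable section

namespace Vale.Agent.P207Z

open Vale.Agent.P207.N3 (JC)

variable {Γ X B E V : Type} [Group Γ] [Countable Γ] [MetricSpace X] [ProperSpace X]
  [MulAction Γ X] [IsIsometricSMul Γ X] [MeasurableSpace X] [BorelSpace X]
  [TopologicalSpace B] [CompactSpace B] [T2Space B] [SecondCountableTopology B] [MulAction Γ B]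
  [ContinuousConstSMul Γ B] [MeasurableSpace B] [BorelSpace B]
  [NormedAddCommGroup E] [InnerProductSpace ℝ E] [FiniteDimensional ℝ E]
  [NormedAddCommGroup V] [NormedSpace ℝ V] [FiniteDimensional ℝ V]
  {F G W : Type} [NormedAddCommGroup F] [NormedSpace ℝ F] [FiniteDimensional ℝ F]
  [NormedAddCommGroup G] [NormedSpace ℝ G] [FiniteDimensional ℝ G]
  [NormedAddCommGroup W] [NormedSpace ℝ W]

variable {S : Sys Γ X B E V} {Y : Type} [MeasurableSpace Y] [MulAction Γ Y] {𝔉 : Bun S F}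

namespace Hu

theorem mem_hull_iff (s : CSec 𝔉) {x : X} {v : F} :
    v ∈ s.hull x ↔ ∀ a ∈ s.𝒜 0 x, poly a 0 v = 0 := by
  simp only [CSec.hull, Submodule.mem_iInf]
  rfl

theorem hull_pt (s : CSec 𝔉) {x y : X} (h : S.pt x = S.pt y) {v : F} (hv : v ∈ s.hull y) :
    𝔉.A y x 0 v ∈ s.hull x := by
  refine (mem_hull_iff s).2 fun a ha => ?_
  have h1 := (mem_hull_iff s).1 hv _ (s.𝒜_eqv 0 h ha)
  rwa [𝔉.jetC_apply 0 h, poly_jet_zero, Bun.pull, Sys.τ_zero h.symm] at h1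

theorem top_form {m : ℕ} (b : Module.Basis (Fin m) ℝ E) (i : E →L[ℝ] V)
    (α : V [⋀^Fin m]→L[ℝ] ℝ) (v : Fin m → E) :
    α (fun j => i (v j)) = α (fun j => i (b j)) * b.det v :=
  congrArg (fun β : E [⋀^Fin m]→ₗ[ℝ] ℝ => β v)
    ((α.compContinuousLinearMap i).toAlternatingMap.eq_smul_basis_det b)

variable {m : ℕ} {b : Module.Basis (Fin m) ℝ E} (M : Marg S b)

theorem vol_ne (x : X) : (M.es x 0 fun i => S.iU (b i)) ≠ 0 := fun h0 => by
  obtain ⟨s, hs⟩ := M.es_zero x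
  have h1 := hs fun i => S.iU (b i)
  simp only [S.pU_iU, h0] at h1
  rw [show b.det (fun i => b i) = 1 from b.det_self, mul_one] at h1
  exact M.es_ne x 0 (mem_ball_self one_pos) (by ext v; rw [hs, ← h1, zero_mul]; rfl)

/-- the affine equation -/
def aff (l : G →L[ℝ] ℝ) (c : ℝ) : G × ℝ →L[ℝ] ℝ :=
  c • l ∘L ContinuousLinearMap.fst ℝ G ℝ - ContinuousLinearMap.snd ℝ G ℝ

theorem contDiff_aff (l : G →L[ℝ] ℝ) : ContDiff ℝ ∞ (aff l) :=
  (contDiff_id.smul contDiff_const).sub contDiff_const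

/-- the volume of the unstable axis -/
def vol (S : Sys Γ X B E V) (b : Module.Basis (Fin m) ℝ E) : (V [⋀^Fin m]→L[ℝ] ℝ) →L[ℝ] ℝ :=
  ContinuousAlternatingMap.apply ℝ V ℝ fun i => S.iU (b i)

theorem aff_apply (c : ℝ) (v : (V [⋀^Fin m]→L[ℝ] ℝ) × ℝ) :
    aff (vol S b) c v = c * v.1 (fun i => S.iU (b i)) - v.2 := rfl

end Hu

open Hu

/-- **HULL** -/
theorem Sec.hull (P : Prob S Y) (s : Sec 𝔉) {σ : X → F →L[ℝ] ℝ} (hc : Continuous σ)
    (hs : ∀ (g : Γ) x, σ (g • x) = σ x)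
    (hp : ∀ x y, S.pt x = S.pt y → σ y ∘L 𝔉.A x y 0 = σ x)
    (hU : ∀ x, ∃ σ' : E → F →L[ℝ] ℝ, ContDiffAt ℝ ∞ σ' 0 ∧ σ' 0 = σ x ∧
      ∀ᶠ a in 𝓝 (0 : E), σ' a (s.e x (S.iU a)) = 0) :
    ∃ W : SSub 𝔉, ∀ᵐ x ∂S.μ, s.e x 0 ∈ W.H x ∧ ∀ v ∈ W.H x, σ x v = 0 := by
  obtain ⟨W, hW⟩ := s.c.isS_hull P
  have hQ : ∀ᵐ x ∂S.μ, ∀ v ∈ s.c.hull x, σ x v = 0 := by
    have h1 : ∀ x y, S.pt x = S.pt y → (∀ v ∈ s.c.hull x, σ x v = 0) →
        ∀ v ∈ s.c.hull y, σ y v = 0 := fun x y h hx v hv => by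
      rw [← hp y x h.symm]
      exact hx _ (hull_pt s.c h hv)
    refine (P.zero_one ?_ (Eventually.of_forall fun x y h => ⟨h1 y x h, h1 x y h.symm⟩)
      fun g => Eventually.of_forall fun x => ?_).resolve_right fun hn => ?_
    · obtain ⟨A, hA, hr⟩ := W.meas.congr hW
      refine ((MET.aem_comp hc.measurable.aemeasurable hA).nullMeasurableSet_preimage
        (measurableSet_singleton 0)).congr (eventuallyEq_set.2 (hr.mono fun x hx => ?_))
      change σ x ∘L A x = 0 ↔ ∀ v ∈ s.c.hull x, σ x v = 0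
      rw [← hx]
      exact ⟨by rintro h _ ⟨v, rfl⟩; exact congrArg (fun T : F →L[ℝ] ℝ => T v) h,
        fun h => ContinuousLinearMap.ext fun v => h _ ⟨v, rfl⟩⟩
    · rw [hs, CSec.hull, CSec.hull, s.c.𝒜_smul]
    · obtain ⟨K, -, hK⟩ := s.c.stab P 0
      obtain ⟨x, ⟨O, h2, h3, h4, h5⟩, h6⟩ :=
        Sys.ae_exists ((s.sl P K).and (Sys.ae_alongS (hK.and hn)))
      obtain ⟨w, hw, y, hy, h7, h8⟩ := (h6 1).dense h2 h3 h4 h4
      obtain ⟨σ', h9, h10, h11⟩ := hU y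
      obtain ⟨c, hc, h12⟩ := h5 w hw y hy σ' h9 h11
      refine h8 fun v hv => ?_
      have h13 := (mem_hull_iff s.c).1 hv (trunc (Nat.zero_le K) c)
        (by rw [h7 K le_rfl (Nat.zero_le K)]; exact ⟨c, hc, rfl⟩)
      rw [← h10, ← h12, poly_zero]
      rwa [poly_zero] at h13
  refine ⟨W, ?_⟩
  filter_upwards [hW, hQ] with x h1 h2
  rw [h1]
  exact ⟨s.c.mem_hull x, h2⟩

/-- **CHAR**, affine form -/
theorem Marg.char (P : Prob S Y) {m : ℕ} {b : Module.Basis (Fin m) ℝ E} (M : Marg S b) :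
    ∃ W : SSub M.bun, ∀ᵐ x ∂S.μ, (M.es x 0, (1 : ℝ)) ∈ W.H x ∧
      ∀ v ∈ W.H x, v.1 (fun i => S.iU (b i)) = v.2 * M.es x 0 fun i => S.iU (b i) := by
  have h0 : (0 : V) ∈ ball (0 : V) 1 := mem_ball_self one_pos
  have hc : Continuous fun x => M.es x 0 :=
    M.es_cont.comp_continuous (continuous_id.prodMk continuous_const) fun _ => ⟨trivial, h0⟩
  refine (Sec.hull P M.sec (σ := fun x => aff (vol S b) (M.es x 0 fun i => S.iU (b i))⁻¹)
    ((contDiff_aff (vol S b)).continuous.comp ((hc.eval_const _).inv₀ (vol_ne M)))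
    (fun g x => by rw [M.es_smul g x 0 h0]) (fun x y h => ?_) fun x => ?_).imp
      fun W hW => hW.mono fun x hx => ⟨hx.1, fun v hv => ?_⟩
  · have h1 := Sys.zero_dom h
    have h2 : ∀ α : V [⋀^Fin m]→L[ℝ] ℝ, M.tw.A x y 0 α (fun i => S.iU (b i)) =
        M.f x y 0 * b.det (fun i => S.pU (fderiv ℝ (S.τ y x) (S.τ x y 0) (S.iU (b i)))) *
          α fun i => S.iU (b i) := fun α => by
      rw [mul_assoc, mul_comm (b.det _), ← top_form]
      change M.f x y 0 * α (fun i => fderiv ℝ (S.τ y x) (S.τ x y 0) (S.iU (b i))) = _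
      congr 2
      funext i
      exact (S.iU_pU (Sys.pS_fderiv_τ (congrArg Prod.fst h).symm (Sys.τ_dom h1)
        (by rw [Sys.τ_zero h, map_zero]) _)).symm
    have h3 : M.es y 0 = M.tw.A x y 0 (M.es x 0) := by
      have := M.es_eqv' h1
      rwa [Sys.τ_zero h] at this
    have h4 := vol_ne M y
    refine ContinuousLinearMap.ext fun v => ?_
    change aff (vol S b) _ (M.tw.A x y 0 v.1, v.2) = _
    rw [h3, h2] at h4
    rw [aff_apply, aff_apply, h3, h2, h2, mul_inv, mul_mul_mul_comm,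
      inv_mul_cancel₀ (left_ne_zero_of_mul h4), one_mul]
  · have h1 := (M.es_U x).contDiffAt (ball_mem_nhds (0 : E) one_pos)
    have h2 : (M.es x (S.iU 0) fun i => S.iU (b i)) ≠ 0 := by
      rw [map_zero]
      exact vol_ne M x
    refine ⟨fun a => aff (vol S b) (M.es x (S.iU a) fun i => S.iU (b i))⁻¹,
      (contDiff_aff (vol S b)).contDiffAt.comp 0 (h1.inv h2), by simp only [map_zero], ?_⟩
    filter_upwards [h1.continuousAt.eventually_ne h2] with a ha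
    exact sub_eq_zero.2 (inv_mul_cancel₀ ha)
  · have h1 := hx.2 v hv
    rwa [aff_apply, sub_eq_zero, inv_mul_eq_iff_eq_mul₀ (vol_ne M x), mul_comm] at h1

end Vale.Agent.P207Z
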