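import Vale.Agent.P207Z.DynT

/-!
# P207: first facts on `Sys` (block DYN1): transitions, null sets, tightness, uniform bounds, reversal
-/

set_option linter.unusedSectionVars false

open Set Filter Topology Metric MeasureTheory Asymptotics
open scoped ContDiff

noncomputable section

namespace Vale.Agent.P207Z

open Vale.Agent.P207.N3 (JC)

variable {Γ X B E V : Type} [Group Γ] [Countable Γ] [MetricSpace X] [ProperSpace X]
  [MulAction Γ X] [IsIsometricSMul Γ X] [MeasurableSpace X] [BorelSpace X]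
  [TopologicalSpace B] [CompactSpace B] [T2Space B] [SecondCountableTopology B] [MulAction Γ B]
  [ContinuousConstSMul Γ B] [MeasurableSpace B] [BorelSpace B]
  [NormedAddCommGroup E] [InnerProductSpace ℝ E] [FiniteDimensional ℝ E]
  [NormedAddCommGroup V] [NormedSpace ℝ V] [FiniteDimensional ℝ V]
  {F G W : Type} [NormedAddCommGroup F] [NormedSpace ℝ F] [FiniteDimensional ℝ F]
  [NormedAddCommGroup G] [NormedSpace ℝ G] [FiniteDimensional ℝ G]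
  [NormedAddCommGroup W] [NormedSpace ℝ W]

namespace Sys

variable (S : Sys Γ X B E V) {x y z : X} {q : V} {Q Q' : X → Prop}

theorem norm_iS (w : E) : ‖S.iS w‖ = ‖w‖ := by
  rw [S.norm_eq, S.pS_iS, S.pU_iS, norm_zero, max_eq_left (norm_nonneg _)]
theorem norm_iU (a : E) : ‖S.iU a‖ = ‖a‖ := by
  rw [S.norm_eq, S.pS_iU, S.pU_iU, norm_zero, max_eq_right (norm_nonneg _)]
theorem norm_pS_le (v : V) : ‖S.pS v‖ ≤ ‖v‖ := (S.norm_eq v).symm ▸ le_max_left _ _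
theorem norm_pU_le (v : V) : ‖S.pU v‖ ≤ ‖v‖ := (S.norm_eq v).symm ▸ le_max_right _ _
theorem norm_add (w a : E) : ‖S.iS w + S.iU a‖ = max ‖w‖ ‖a‖ := by
  rw [S.norm_eq, map_add, map_add, S.pS_iS, S.pS_iU, S.pU_iS, S.pU_iU, add_zero, zero_add]
theorem om_apply (v w : V) :
    S.om v w = inner ℝ (S.pS v) (S.pU w) - inner ℝ (S.pU v) (S.pS w) := rfl
theorem iS_pS {v : V} (h : S.pU v = 0) : S.iS (S.pS v) = v := by simpa [h] using S.iS_add v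
theorem iU_pU {v : V} (h : S.pS v = 0) : S.iU (S.pU v) = v := by simpa [h] using S.iS_add v
theorem mem_Es {v : V} : v ∈ S.Es ↔ S.pU v = 0 :=
  ⟨fun ⟨w, h⟩ => h ▸ S.pU_iS w, fun h => ⟨_, S.iS_pS h⟩⟩
theorem mem_Eu {v : V} : v ∈ S.Eu ↔ S.pS v = 0 :=
  ⟨fun ⟨w, h⟩ => h ▸ S.pS_iU w, fun h => ⟨_, S.iU_pU h⟩⟩
theorem iS_mem {w : E} {r : ℝ} : S.iS w ∈ ball (0 : V) r ↔ w ∈ ball (0 : E) r := by
  rw [mem_ball_zero_iff, mem_ball_zero_iff, S.norm_iS]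
theorem iU_mem {a : E} {r : ℝ} : S.iU a ∈ ball (0 : V) r ↔ a ∈ ball (0 : E) r := by
  rw [mem_ball_zero_iff, mem_ball_zero_iff, S.norm_iU]
theorem pt_φ (t : ℝ) (x : X) : S.pt (S.φ t x) = S.pt x := Prod.ext (S.em_φ t x) (S.ep_φ t x)
theorem pt_smul (g : Γ) (x : X) : S.pt (g • x) = g • S.pt x :=
  Prod.ext (S.em_smul g x) (S.ep_smul g x)
theorem pt_smul_iff (g : Γ) : S.pt (g • x) = S.pt (g • y) ↔ S.pt x = S.pt y := by
  rw [S.pt_smul, S.pt_smul, smul_left_cancel_iff]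
theorem c_zero' (x : X) : S.c x 0 = S.pt x := S.c_zero x
theorem fact : MET.FAct S.φ := ⟨S.φ_zero, S.φ_add⟩
theorem exists_pt {p : B × B} (h : p.1 ≠ p.2) : ∃ y, S.pt y = p := by
  obtain ⟨y, h1, h2⟩ := S.exists_frame _ _ h
  exact ⟨y, Prod.ext h1 h2⟩
theorem exists_frame_lv {p : B × B} (hp : p.1 ≠ p.2) (t : ℝ) : ∃ x, S.pt x = p ∧ S.lv x = t := by
  obtain ⟨y, hy⟩ := S.exists_pt hp
  exact ⟨S.φ (t - S.lv y) y, (S.pt_φ _ _).trans hy, by rw [S.lv_φ, add_sub_cancel]⟩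
theorem exists_pt_c (x : X) (hq : q ∈ ball (0 : V) 1) : ∃ y, S.pt y = S.c x q :=
  S.exists_pt (S.c_ne x q hq)
theorem c_iU (x : X) {a : E} (ha : a ∈ ball (0 : E) 1) : (S.c x (S.iU a)).1 = S.em x :=
  (S.c_U x _ (S.iU_mem.2 ha)).2 (S.pS_iU a)
theorem c_iS (x : X) {w : E} (hw : w ∈ ball (0 : E) 1) : (S.c x (S.iS w)).2 = S.ep x :=
  (S.c_S x _ (S.iS_mem.2 hw)).2 (S.pU_iS w)
theorem continuousOn_c (x : X) : ContinuousOn (S.c x) (ball 0 1) :=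
  S.c_cont.comp (continuous_const.prodMk continuous_id).continuousOn fun _ h => ⟨trivial, h⟩
theorem isOpen_image (x : X) {O : Set V} (hO : IsOpen O) (h : O ⊆ ball 0 1) :
    IsOpen (S.c x '' O) :=
  (S.c_open O hO h).preimage (f := fun p => (x, p)) (by fun_prop)

/-! ### transitions -/

variable {S}

theorem dom_ball (h : q ∈ S.dom x y) : q ∈ ball (0 : V) 1 := h.1
theorem c_τ (h : q ∈ S.dom x y) : S.c y (S.τ x y q) = S.c x q := Function.invFunOn_eq h.2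
theorem τ_ball (h : q ∈ S.dom x y) : S.τ x y q ∈ ball (0 : V) 1 := Function.invFunOn_mem h.2
theorem τ_eq {v : V} (hv : v ∈ ball (0 : V) 1) (h : S.c y v = S.c x q) : S.τ x y q = v := by
  show Function.invFunOn (S.c y) (ball 0 1) (S.c x q) = v
  rw [← h]
  exact (S.c_inj y).leftInvOn_invFunOn hv
theorem mem_dom {v : V} (hq : q ∈ ball (0 : V) 1) (hv : v ∈ ball (0 : V) 1)
    (h : S.c y v = S.c x q) : q ∈ S.dom x y := ⟨hq, v, hv, h⟩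
theorem dom_self (hq : q ∈ ball (0 : V) 1) : q ∈ S.dom x x := mem_dom hq hq rfl
theorem τ_self (hq : q ∈ ball (0 : V) 1) : S.τ x x q = q := τ_eq hq rfl
theorem τ_dom (h : q ∈ S.dom x y) : S.τ x y q ∈ S.dom y x := mem_dom (τ_ball h) h.1 (c_τ h).symm
theorem τ_τ (h : q ∈ S.dom x y) : S.τ y x (S.τ x y q) = q := τ_eq h.1 (c_τ h).symm
theorem τ_dom' (h : q ∈ S.dom x y) (h' : q ∈ S.dom x z) : S.τ x y q ∈ S.dom y z :=
  mem_dom (τ_ball h) (τ_ball h') ((c_τ h').trans (c_τ h).symm)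
theorem τ_trans (h : q ∈ S.dom x y) (h' : q ∈ S.dom x z) :
    S.τ y z (S.τ x y q) = S.τ x z q := τ_eq (τ_ball h') ((c_τ h').trans (c_τ h).symm)
theorem dom_trans (h : q ∈ S.dom x y) (h' : S.τ x y q ∈ S.dom y z) : q ∈ S.dom x z :=
  mem_dom h.1 (τ_ball h') ((c_τ h').trans (c_τ h))
theorem jc_τ : JC (fun (p : X × X) q => S.τ p.1 p.2 q) S.Dm := S.τ_jc
theorem isOpen_Dm : IsOpen S.Dm := S.τ_jc.isOpen
theorem isOpen_dom : IsOpen (S.dom x y) := Vale.Agent.P207.N3.isOpen_slice isOpen_Dm (x, y)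
theorem dom_nhds (h : q ∈ S.dom x y) : S.dom x y ∈ 𝓝 q := isOpen_dom.mem_nhds h
theorem dom_smul (g : Γ) : S.dom (g • x) (g • y) = S.dom x y := by
  ext q
  constructor
  · rintro ⟨hq, q', hq', e⟩
    rw [S.c_smul g y q' hq', S.c_smul g x q hq] at e
    exact mem_dom hq hq' (MulAction.injective g e)
  · rintro ⟨hq, q', hq', e⟩
    exact mem_dom hq hq' (by rw [S.c_smul g y q' hq', S.c_smul g x q hq, e])
theorem τ_smul (g : Γ) (h : q ∈ S.dom x y) : S.τ (g • x) (g • y) q = S.τ x y q :=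
  τ_eq (τ_ball h) (by rw [S.c_smul g y _ (τ_ball h), S.c_smul g x q h.1, c_τ h])
theorem zero_dom' (hq : q ∈ ball (0 : V) 1) (h : S.pt y = S.c x q) : (0 : V) ∈ S.dom y x :=
  mem_dom (mem_ball_self one_pos) hq (h.symm.trans (S.c_zero' y).symm)
theorem τ_zero' (hq : q ∈ ball (0 : V) 1) (h : S.pt y = S.c x q) : S.τ y x 0 = q :=
  τ_eq hq (h.symm.trans (S.c_zero' y).symm)
theorem zero_dom (h : S.pt x = S.pt y) : (0 : V) ∈ S.dom x y :=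
  zero_dom' (mem_ball_self one_pos) (h.trans (S.c_zero' y).symm)
theorem τ_zero (h : S.pt x = S.pt y) : S.τ x y 0 = 0 :=
  τ_zero' (mem_ball_self one_pos) (h.trans (S.c_zero' y).symm)
theorem zero_dom_image {r : ℝ} (hr : r ≤ 1) (h : S.pt y ∈ S.c x '' ball 0 r) :
    (0 : V) ∈ S.dom y x ∧ S.τ y x 0 ∈ ball (0 : V) r := by
  obtain ⟨q, hq, e⟩ := h
  exact ⟨zero_dom' (ball_subset_ball hr hq) e.symm,
    (τ_zero' (ball_subset_ball hr hq) e.symm).symm ▸ hq⟩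
theorem pt_eq_c (h : (0 : V) ∈ S.dom y x) : S.pt y = S.c x (S.τ y x 0) :=
  ((c_τ h).trans (S.c_zero' y)).symm
theorem contDiffAt_τ (h : q ∈ S.dom x y) : ContDiffAt ℝ ∞ (S.τ x y) q :=
  jc_τ.contDiffAt (p := ((x, y), q)) h
theorem differentiableAt_τ (h : q ∈ S.dom x y) : DifferentiableAt ℝ (S.τ x y) q :=
  (contDiffAt_τ h).differentiableAt (by simp)
theorem continuousAt_τ (h : q ∈ S.dom x y) : ContinuousAt (S.τ x y) q :=
  (contDiffAt_τ h).continuousAt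
theorem τ_trans_ev (h : q ∈ S.dom x y) (h' : q ∈ S.dom x z) :
    (fun q => S.τ y z (S.τ x y q)) =ᶠ[𝓝 q] S.τ x z := by
  filter_upwards [dom_nhds h, dom_nhds h'] with q a b using τ_trans a b
theorem τ_τ_ev (h : q ∈ S.dom x y) : (fun q => S.τ y x (S.τ x y q)) =ᶠ[𝓝 q] fun q => q := by
  filter_upwards [dom_nhds h] with q a using τ_τ a
theorem τ_self_ev (hq : q ∈ ball (0 : V) 1) : S.τ x x =ᶠ[𝓝 q] fun q => q := by
  filter_upwards [isOpen_ball.mem_nhds hq] with q a using τ_self a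
theorem fderiv_τ_trans (h : q ∈ S.dom x y) (h' : q ∈ S.dom x z) :
    fderiv ℝ (S.τ y z) (S.τ x y q) * fderiv ℝ (S.τ x y) q = fderiv ℝ (S.τ x z) q := by
  rw [← (τ_trans_ev h h').fderiv_eq]
  exact (fderiv_comp q (differentiableAt_τ (τ_dom' h h')) (differentiableAt_τ h)).symm
theorem fderiv_τ_self (hq : q ∈ ball (0 : V) 1) : fderiv ℝ (S.τ x x) q = 1 := by
  rw [(τ_self_ev hq).fderiv_eq]
  exact fderiv_id
theorem fderiv_τ_inv (h : q ∈ S.dom x y) :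
    fderiv ℝ (S.τ y x) (S.τ x y q) * fderiv ℝ (S.τ x y) q = 1 :=
  (fderiv_τ_trans h (dom_self h.1)).trans (fderiv_τ_self h.1)
theorem fderiv_τ_inv' (h : q ∈ S.dom x y) :
    fderiv ℝ (S.τ x y) q * fderiv ℝ (S.τ y x) (S.τ x y q) = 1 := by
  have h1 := fderiv_τ_inv (τ_dom h)
  rwa [τ_τ h] at h1
theorem om_τ (h : q ∈ S.dom x y) (v w : V) :
    S.om (fderiv ℝ (S.τ x y) q v) (fderiv ℝ (S.τ x y) q w) = S.om v w := S.τ_symp x y q h v w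
theorem pU_τ (he : S.ep x = S.ep y) (h : q ∈ S.dom x y) :
    S.pU (S.τ x y q) = 0 ↔ S.pU q = 0 := by
  rw [← S.c_S y _ (τ_ball h), ← S.c_S x _ h.1, c_τ h, he]
theorem pS_τ (he : S.em x = S.em y) (h : q ∈ S.dom x y) :
    S.pS (S.τ x y q) = 0 ↔ S.pS q = 0 := by
  rw [← S.c_U y _ (τ_ball h), ← S.c_U x _ h.1, c_τ h, he]
theorem fderiv_axis {f : V → V} {i : E →L[ℝ] V} {p : V →L[ℝ] E} (hf : DifferentiableAt ℝ f q)
    (h : ∀ᶠ q' in 𝓝 q, p q' = 0 → p (f q') = 0) (hq : p q = 0) (hi : ∀ w, p (i w) = 0) (w : E) :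
    p (fderiv ℝ f q (i w)) = 0 := by
  have h1 : HasFDerivAt (fun w : E => q + i w) i 0 := i.hasFDerivAt.const_add q
  have h0 : q + i 0 = q := by rw [map_zero, add_zero]
  have h4 : HasFDerivAt f (fderiv ℝ f q) (q + i 0) := by
    rw [h0]
    exact hf.hasFDerivAt
  have h2 := p.hasFDerivAt.comp 0 (HasFDerivAt.comp 0 h4 h1)
  have ht : Tendsto (fun w : E => q + i w) (𝓝 0) (𝓝 q) := by
    simpa using h1.continuousAt.tendsto
  have h3 : HasFDerivAt (p ∘ f ∘ fun w : E => q + i w) (0 : E →L[ℝ] E) 0 :=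
    (hasFDerivAt_const 0 0).congr_of_eventuallyEq ((ht.eventually h).mono fun w hw =>
      hw (by rw [map_add, hq, hi, add_zero]))
  exact congrArg (fun L : E →L[ℝ] E => L w) (h2.unique h3)
theorem pU_fderiv_τ (he : S.ep x = S.ep y) (h : q ∈ S.dom x y) (hq : S.pU q = 0) (w : E) :
    S.pU (fderiv ℝ (S.τ x y) q (S.iS w)) = 0 :=
  fderiv_axis (differentiableAt_τ h) (mem_of_superset (dom_nhds h) fun _ a => (pU_τ he a).2) hq
    S.pU_iS w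
theorem pS_fderiv_τ (he : S.em x = S.em y) (h : q ∈ S.dom x y) (hq : S.pS q = 0) (a : E) :
    S.pS (fderiv ℝ (S.τ x y) q (S.iU a)) = 0 :=
  fderiv_axis (differentiableAt_τ h) (mem_of_superset (dom_nhds h) fun _ a => (pS_τ he a).2) hq
    S.pS_iU a

/-! ### null sets -/

theorem qmp_smul (g : Γ) : Measure.QuasiMeasurePreserving (fun ξ : B => g • ξ) S.ν S.ν :=
  ⟨(continuous_const_smul g).measurable, Measure.AbsolutelyContinuous.mk fun A hA h0 => by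
    rw [Measure.map_apply (continuous_const_smul g).measurable hA]
    exact S.ν_smul g A h0⟩
theorem ae_ν_smul {R : B → Prop} (g : Γ) (h : ∀ᵐ ξ ∂S.ν, R ξ) : ∀ᵐ ξ ∂S.ν, R (g • ξ) :=
  (qmp_smul g).ae h
theorem ae_smul (h : ∀ᵐ x ∂S.μ, Q x) : ∀ᵐ x ∂S.μ, ∀ g : Γ, Q (g • x) := by
  refine ae_all_iff.2 fun g => S.ae_iff.2 ?_
  have h1 := (QuasiMeasurePreserving.prodMap (qmp_smul (S := S) g) (qmp_smul g)).ae
    (S.ae_iff.1 h)
  refine h1.mono fun p hp x hx => hp _ ?_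
  rw [S.pt_smul, hx]
  rfl
theorem ae_pt (h : ∀ᵐ x ∂S.μ, Q x) : ∀ᵐ x ∂S.μ, ∀ y, S.pt y = S.pt x → Q y :=
  S.ae_iff.2 ((S.ae_iff.1 h).mono fun _ hp _ hx y hy => hp y (hy.trans hx))
theorem ae_φ (h : ∀ᵐ x ∂S.μ, Q x) : ∀ᵐ x ∂S.μ, ∀ t, Q (S.φ t x) :=
  (ae_pt h).mono fun x hx t => hx _ (S.pt_φ t x)
theorem ae_of_ep {R : B → Prop} (h : ∀ᵐ η ∂S.ν, R η) : ∀ᵐ x ∂S.μ, R (S.ep x) :=
  S.ae_iff.2 ((Measure.quasiMeasurePreserving_snd.ae h).mono fun _ hp _ hx => by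
    subst hx
    exact hp)
theorem ae_of_em {R : B → Prop} (h : ∀ᵐ ξ ∂S.ν, R ξ) : ∀ᵐ x ∂S.μ, R (S.em x) :=
  S.ae_iff.2 ((Measure.quasiMeasurePreserving_fst.ae h).mono fun _ hp _ hx => by
    subst hx
    exact hp)
theorem ae_ae_S (h : ∀ᵐ x ∂S.μ, Q x) : ∀ᵐ η ∂S.ν, ∀ᵐ ξ ∂S.ν, ∀ y, S.pt y = (ξ, η) → Q y :=
  Measure.ae_ae_of_ae_prod (p := fun p : B × B => ∀ y, S.pt y = (p.2, p.1) → Q y)
    ((Measure.measurePreserving_swap (μ := S.ν) (ν := S.ν)).quasiMeasurePreserving.ae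
      (S.ae_iff.1 h))
theorem ae_ae_U (h : ∀ᵐ x ∂S.μ, Q x) : ∀ᵐ ξ ∂S.ν, ∀ᵐ η ∂S.ν, ∀ y, S.pt y = (ξ, η) → Q y :=
  Measure.ae_ae_of_ae_prod (S.ae_iff.1 h)
theorem ae_leafS (h : ∀ᵐ x ∂S.μ, Q x) :
    ∀ᵐ x ∂S.μ, ∀ᵐ ξ ∂S.ν, ∀ y, S.pt y = (ξ, S.ep x) → Q y :=
  ae_of_ep (R := fun η => ∀ᵐ ξ ∂S.ν, ∀ y, S.pt y = (ξ, η) → Q y) (ae_ae_S h)
theorem ae_leafU (h : ∀ᵐ x ∂S.μ, Q x) :
    ∀ᵐ x ∂S.μ, ∀ᵐ η ∂S.ν, ∀ y, S.pt y = (S.em x, η) → Q y :=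
  ae_of_em (R := fun ξ => ∀ᵐ η ∂S.ν, ∀ y, S.pt y = (ξ, η) → Q y) (ae_ae_U h)
theorem ν_exists {R : B → Prop} (h : ∀ᵐ ξ ∂S.ν, R ξ) {O : Set B} (hO : IsOpen O)
    (hne : O.Nonempty) : ∃ ξ ∈ O, R ξ :=
  Measure.exists_mem_of_measure_ne_zero_of_ae (S.ν_pos O hO hne) (ae_restrict_of_ae h)
theorem ae_ne (η : B) : ∀ᵐ ξ ∂S.ν, ξ ≠ η := compl_mem_ae_iff.2 (S.ν_point η)
theorem ae_ep (h : ∀ᵐ x ∂S.μ, Q x) : ∀ᵐ η ∂S.ν, ∃ x, S.ep x = η ∧ Q x :=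
  (ae_ae_S h).mono fun η hη => by
    obtain ⟨ξ, -, h1, h2⟩ := ν_exists (hη.and (ae_ne η)) isOpen_univ ⟨η, trivial⟩
    obtain ⟨x, hx⟩ := S.exists_pt (p := (ξ, η)) h2
    exact ⟨x, congrArg Prod.snd hx, h1 x hx⟩
theorem ae_em (h : ∀ᵐ x ∂S.μ, Q x) : ∀ᵐ ξ ∂S.ν, ∃ x, S.em x = ξ ∧ Q x :=
  (ae_ae_U h).mono fun ξ hξ => by
    obtain ⟨η, -, h1, h2⟩ := ν_exists (hξ.and (ae_ne ξ)) isOpen_univ ⟨ξ, trivial⟩
    obtain ⟨x, hx⟩ := S.exists_pt (p := (ξ, η)) h2.symm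
    exact ⟨x, congrArg Prod.fst hx, h1 x hx⟩
theorem ae_exists (h : ∀ᵐ x ∂S.μ, Q x) : ∃ x, Q x := by
  obtain ⟨x₀⟩ := S.nonempty
  obtain ⟨_, -, x, -, hx⟩ := ν_exists (ae_ep h) isOpen_univ ⟨S.ep x₀, trivial⟩
  exact ⟨x, hx⟩
theorem μ_ne : S.μ ≠ 0 := fun h =>
  (ae_exists (S := S) (Q := fun _ => False) (by simp [h])).elim fun _ => id
theorem denseS {R : B → Prop} (h : ∀ᵐ ξ ∂S.ν, R ξ) (x : X) {O : Set E} (hO : IsOpen O)
    (hne : O.Nonempty) (h1 : O ⊆ ball 0 1) : ∃ w ∈ O, R (S.c x (S.iS w)).1 := by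
  have h2 := (S.isOpen_image x ((hO.preimage S.pS.continuous).inter isOpen_ball)
    inter_subset_right).preimage (f := fun ξ => (ξ, S.ep x)) (by fun_prop)
  obtain ⟨a, ha⟩ := hne
  obtain ⟨ξ, ⟨q, hq, e⟩, hξ⟩ := ν_exists h h2 ⟨(S.c x (S.iS a)).1, S.iS a,
    ⟨by rwa [mem_preimage, S.pS_iS], S.iS_mem.2 (h1 ha)⟩, Prod.ext rfl (S.c_iS x (h1 ha))⟩
  refine ⟨S.pS q, hq.1, ?_⟩
  rw [S.iS_pS ((S.c_S x q hq.2).1 (congrArg Prod.snd e)), e]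
  exact hξ
theorem denseU {R : B → Prop} (h : ∀ᵐ η ∂S.ν, R η) (x : X) {O : Set E} (hO : IsOpen O)
    (hne : O.Nonempty) (h1 : O ⊆ ball 0 1) : ∃ a ∈ O, R (S.c x (S.iU a)).2 := by
  have h2 := (S.isOpen_image x ((hO.preimage S.pU.continuous).inter isOpen_ball)
    inter_subset_right).preimage (f := fun η => (S.em x, η)) (by fun_prop)
  obtain ⟨a, ha⟩ := hne
  obtain ⟨η, ⟨q, hq, e⟩, hη⟩ := ν_exists h h2 ⟨(S.c x (S.iU a)).2, S.iU a,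
    ⟨by rwa [mem_preimage, S.pU_iU], S.iU_mem.2 (h1 ha)⟩, Prod.ext (S.c_iU x (h1 ha)) rfl⟩
  refine ⟨S.pU q, hq.1, ?_⟩
  rw [S.iU_pU ((S.c_U x q hq.2).1 (congrArg Prod.fst e)), e]
  exact hη
/-- the version for all the frames over the point -/
theorem AlongS.dense' {r : ℝ} (h : S.AlongS x r Q) {O : Set E} (hO : IsOpen O) (hne : O.Nonempty)
    (h1 : O ⊆ ball 0 1) (hr : O ⊆ ball 0 r) :
    ∃ w ∈ O, ∀ y, S.pt y = S.c x (S.iS w) → Q y := by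
  obtain ⟨w, hw, h2⟩ := denseS h x hO hne h1
  exact ⟨w, hw, fun y hy => h2 y (hy.trans (Prod.ext rfl (S.c_iS x (h1 hw))))
    ⟨_, S.iS_mem.2 (hr hw), hy.symm⟩⟩
theorem AlongU.dense' {r : ℝ} (h : S.AlongU x r Q) {O : Set E} (hO : IsOpen O) (hne : O.Nonempty)
    (h1 : O ⊆ ball 0 1) (hr : O ⊆ ball 0 r) :
    ∃ a ∈ O, ∀ y, S.pt y = S.c x (S.iU a) → Q y := by
  obtain ⟨w, hw, h2⟩ := denseU h x hO hne h1
  exact ⟨w, hw, fun y hy => h2 y (hy.trans (Prod.ext (S.c_iU x (h1 hw)) rfl))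
    ⟨_, S.iU_mem.2 (hr hw), hy.symm⟩⟩
theorem AlongS.dense {r : ℝ} (h : S.AlongS x r Q) {O : Set E} (hO : IsOpen O) (hne : O.Nonempty)
    (h1 : O ⊆ ball 0 1) (hr : O ⊆ ball 0 r) :
    ∃ w ∈ O, ∃ y, S.pt y = S.c x (S.iS w) ∧ Q y := by
  obtain ⟨w, hw, h2⟩ := h.dense' hO hne h1 hr
  obtain ⟨y, hy⟩ := S.exists_pt_c x (S.iS_mem.2 (h1 hw))
  exact ⟨w, hw, y, hy, h2 y hy⟩
theorem AlongU.dense {r : ℝ} (h : S.AlongU x r Q) {O : Set E} (hO : IsOpen O) (hne : O.Nonempty)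
    (h1 : O ⊆ ball 0 1) (hr : O ⊆ ball 0 r) :
    ∃ a ∈ O, ∃ y, S.pt y = S.c x (S.iU a) ∧ Q y := by
  obtain ⟨w, hw, h2⟩ := h.dense' hO hne h1 hr
  obtain ⟨y, hy⟩ := S.exists_pt_c x (S.iU_mem.2 (h1 hw))
  exact ⟨w, hw, y, hy, h2 y hy⟩
theorem AlongS.mono {r r' : ℝ} (h : S.AlongS x r Q) (hr : r' ≤ r)
    (hQ : ∀ y, S.ep y = S.ep x → S.pt y ∈ S.c x '' ball 0 r' → Q y → Q' y) :
    S.AlongS x r' Q' :=
  Eventually.mono h fun _ hη y hy hm =>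
    hQ y (congrArg Prod.snd hy) hm (hη y hy (image_mono (ball_subset_ball hr) hm))
theorem AlongU.mono {r r' : ℝ} (h : S.AlongU x r Q) (hr : r' ≤ r)
    (hQ : ∀ y, S.em y = S.em x → S.pt y ∈ S.c x '' ball 0 r' → Q y → Q' y) :
    S.AlongU x r' Q' :=
  Eventually.mono h fun _ hη y hy hm =>
    hQ y (congrArg Prod.fst hy) hm (hη y hy (image_mono (ball_subset_ball hr) hm))
theorem AlongS.and {r : ℝ} (h : S.AlongS x r Q) (h' : S.AlongS x r Q') :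
    S.AlongS x r fun y => Q y ∧ Q' y :=
  (Eventually.and h h').mono fun _ hη y hy hm => ⟨hη.1 y hy hm, hη.2 y hy hm⟩
theorem AlongU.and {r : ℝ} (h : S.AlongU x r Q) (h' : S.AlongU x r Q') :
    S.AlongU x r fun y => Q y ∧ Q' y :=
  (Eventually.and h h').mono fun _ hη y hy hm => ⟨hη.1 y hy hm, hη.2 y hy hm⟩
theorem alongS_of_forall {r : ℝ}
    (h : ∀ y, S.ep y = S.ep x → S.pt y ∈ S.c x '' ball 0 r → Q y) : S.AlongS x r Q :=
  Eventually.of_forall fun _ y hy hm => h y (congrArg Prod.snd hy) hm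
theorem alongU_of_forall {r : ℝ}
    (h : ∀ y, S.em y = S.em x → S.pt y ∈ S.c x '' ball 0 r → Q y) : S.AlongU x r Q :=
  Eventually.of_forall fun _ y hy hm => h y (congrArg Prod.fst hy) hm
theorem alongS_all {r : ℝ} {ι : Sort*} [Countable ι] {Q : ι → X → Prop}
    (h : ∀ i, S.AlongS x r (Q i)) : S.AlongS x r fun y => ∀ i, Q i y :=
  (ae_all_iff.2 h).mono fun _ hη y hy hm i => hη i y hy hm
theorem alongU_all {r : ℝ} {ι : Sort*} [Countable ι] {Q : ι → X → Prop}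
    (h : ∀ i, S.AlongU x r (Q i)) : S.AlongU x r fun y => ∀ i, Q i y :=
  (ae_all_iff.2 h).mono fun _ hη y hy hm i => hη i y hy hm
theorem ae_alongS (h : ∀ᵐ x ∂S.μ, Q x) : ∀ᵐ x ∂S.μ, ∀ r, S.AlongS x r Q :=
  (ae_leafS h).mono fun _ hx _ => hx.mono fun _ hη y hy _ => hη y hy
theorem ae_alongU (h : ∀ᵐ x ∂S.μ, Q x) : ∀ᵐ x ∂S.μ, ∀ r, S.AlongU x r Q :=
  (ae_leafU h).mono fun _ hx _ => hx.mono fun _ hη y hy _ => hη y hy

/-! ### uniform bounds -/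

variable (S)

theorem isCompact_pairs {K : Set X} (hK : IsCompact K) (D : ℝ) :
    IsCompact {p : X × X | p.1 ∈ K ∧ dist p.1 p.2 ≤ D} := by
  refine (hK.prod (hK.cthickening (r := D))).of_isClosed_subset
    ((hK.isClosed.preimage continuous_fst).inter (isClosed_le continuous_dist continuous_const))
    fun p hp => ⟨hp.1, mem_cthickening_of_dist_le _ _ _ _ hp.1 ((dist_comm _ _).trans_le hp.2)⟩

theorem isCompact_core {K : Set X} (hK : IsCompact K) (D : ℝ) {a : ℝ} (ha : a < 1) :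
    IsCompact {p : (X × X) × V | (p.1.1 ∈ K ∧ dist p.1.1 p.1.2 ≤ D) ∧ p.2 ∈ S.dom p.1.1 p.1.2 ∧
      ‖p.2‖ ≤ a ∧ ‖S.τ p.1.1 p.1.2 p.2‖ ≤ a} := by
  have hb : closedBall (0 : V) a ⊆ ball 0 1 := closedBall_subset_ball ha
  have hL := ((isCompact_pairs hK D).prod (isCompact_closedBall (0 : V) a)).prod
    (isCompact_closedBall (0 : V) a)
  have h1 : ContinuousOn (fun p : ((X × X) × V) × V => (S.c p.1.1.1 p.1.2, S.c p.1.1.2 p.2))
      (({p : X × X | p.1 ∈ K ∧ dist p.1 p.2 ≤ D} ×ˢ closedBall 0 a) ×ˢ closedBall 0 a) :=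
    (S.c_cont.comp (f := fun p : ((X × X) × V) × V => (p.1.1.1, p.1.2)) (by fun_prop)
      fun p hp => ⟨trivial, hb hp.1.2⟩).prodMk
    (S.c_cont.comp (f := fun p : ((X × X) × V) × V => (p.1.1.2, p.2)) (by fun_prop)
      fun p hp => ⟨trivial, hb hp.2⟩)
  have h2 := (hL.of_isClosed_subset
    (h1.preimage_isClosed_of_isClosed hL.isClosed isClosed_diagonal) inter_subset_left).image
    continuous_fst
  convert h2 using 1
  ext p
  constructor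
  · rintro ⟨a1, a2, a3, a4⟩
    exact ⟨(p, S.τ p.1.1 p.1.2 p.2), ⟨⟨⟨a1, mem_closedBall_zero_iff.2 a3⟩,
      mem_closedBall_zero_iff.2 a4⟩, (c_τ a2).symm⟩, rfl⟩
  · rintro ⟨⟨p, v⟩, ⟨⟨⟨a1, a2⟩, a3⟩, a4⟩, rfl⟩
    have a5 : S.c p.1.2 v = S.c p.1.1 p.2 := Eq.symm a4
    refine ⟨a1, mem_dom (hb a2) (hb a3) a5, mem_closedBall_zero_iff.1 a2, ?_⟩
    rw [τ_eq (hb a3) a5]
    exact mem_closedBall_zero_iff.1 a3

theorem unif_dom (D : ℝ) {a a' : ℝ} (ha : a < a') (h1 : a' < 1) : ∃ r > 0, ∀ x y, dist x y ≤ D →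
    ∀ q ∈ S.dom x y, ‖q‖ ≤ a → ‖S.τ x y q‖ ≤ a → ∀ q' ∈ closedBall q r,
      q' ∈ S.dom x y ∧ ‖q'‖ ≤ a' ∧ ‖S.τ x y q'‖ ≤ a' := by
  obtain ⟨K, hK, hKx⟩ := S.cocompact
  have hO : IsOpen (S.Dm ∩ (fun p : (X × X) × V => (p.2, S.τ p.1.1 p.1.2 p.2)) ⁻¹' ball 0 a') :=
    (continuousOn_snd.prodMk jc_τ.continuousOn).isOpen_inter_preimage isOpen_Dm isOpen_ball
  obtain ⟨δ, hδ, hs⟩ := (S.isCompact_core hK D (ha.trans h1)).exists_cthickening_subset_open hO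
    fun p hp => ⟨hp.2.1, mem_ball_zero_iff.2 (max_lt (hp.2.2.1.trans_lt ha)
      (hp.2.2.2.trans_lt ha))⟩
  refine ⟨δ, hδ, fun x y hxy q hq b1 b2 q' hq' => ?_⟩
  obtain ⟨g, hg⟩ := hKx x
  have h2 := hs (mem_cthickening_of_dist_le ((g • x, g • y), q') ((g • x, g • y), q) δ _
    ⟨⟨hg, (dist_smul g x y).trans_le hxy⟩, (dom_smul (S := S) g).symm ▸ hq, b1, (τ_smul g hq).symm ▸ b2⟩
    (by simpa [Prod.dist_eq, hδ.le] using mem_closedBall.1 hq'))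
  have h3 : q' ∈ S.dom x y := dom_smul (S := S) g ▸ h2.1
  have h4 := max_lt_iff.1 (mem_ball_zero_iff.1 h2.2)
  exact ⟨h3, h4.1.le, τ_smul g h3 ▸ h4.2.le⟩

theorem exists_bound_le {Z : Type} [TopologicalSpace Z] {W : ℕ → Type}
    [∀ i, NormedAddCommGroup (W i)] {f : ∀ i, Z → W i} {C : Set Z} (hC : IsCompact C)
    (hf : ∀ i, ContinuousOn (f i) C) (k : ℕ) :
    ∃ M : ℝ, 0 ≤ M ∧ ∀ p ∈ C, ∀ i ≤ k, ‖f i p‖ ≤ M := by
  choose M hM using fun i => hC.exists_bound_of_continuousOn (hf i)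
  obtain ⟨N, hN⟩ := ((finite_Iic k).image M).bddAbove
  exact ⟨max N 0, le_max_right _ _, fun p hp i hi =>
    (hM i p hp).trans ((hN (mem_image_of_mem M hi)).trans (le_max_left _ _))⟩

theorem unif_bd {f : X × X → V → W} (hf : JC f S.Dm)
    (hs : ∀ (g : Γ) x y, ∀ q ∈ S.dom x y, f (g • x, g • y) q = f (x, y) q) (D : ℝ) {a : ℝ}
    (ha : a < 1) (k : ℕ) : ∃ C : ℝ, 0 ≤ C ∧ ∀ x y, dist x y ≤ D → ∀ q ∈ S.dom x y, ‖q‖ ≤ a →
      ‖S.τ x y q‖ ≤ a → ∀ i ≤ k, ‖iteratedFDeriv ℝ i (f (x, y)) q‖ ≤ C := by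
  obtain ⟨K, hK, hKx⟩ := S.cocompact
  obtain ⟨C, h0, hC⟩ := exists_bound_le (S.isCompact_core hK D ha)
    (fun i => (hf.cont i).mono fun p hp => hp.2.1) k
  refine ⟨C, h0, fun x y hxy q hq b1 b2 i hi => ?_⟩
  obtain ⟨g, hg⟩ := hKx x
  have e : f (g • x, g • y) =ᶠ[𝓝 q] f (x, y) := mem_of_superset (dom_nhds hq) (hs g x y)
  rw [← (e.iteratedFDeriv ℝ i).eq_of_nhds]
  exact hC ((g • x, g • y), q) ⟨⟨hg, (dist_smul g x y).trans_le hxy⟩, (dom_smul (S := S) g).symm ▸ hq, b1,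
    (τ_smul g hq).symm ▸ b2⟩ i hi

/-- the version at the centre, in terms of `CkB` -/
theorem unif_ckB {f : X × X → V → W} (hf : JC f S.Dm)
    (hs : ∀ (g : Γ) x y, ∀ q ∈ S.dom x y, f (g • x, g • y) q = f (x, y) q) (D : ℝ) (k : ℕ) :
    ∃ n, ∀ x y, dist x y ≤ D → S.pt x = S.pt y →
      ball (0 : V) (rad n) ⊆ S.dom x y ∧ CkB k n (f (x, y)) := by
  obtain ⟨r, hr, h1⟩ := S.unif_dom D (a := 0) (a' := 1 / 2) one_half_pos one_half_lt_one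
  obtain ⟨C, -, h2⟩ := S.unif_bd hf hs D one_half_lt_one k
  obtain ⟨n, hn⟩ := exists_nat_ge (max C r⁻¹)
  have hr' : rad n ≤ r := inv_le_of_inv_le₀ hr ((le_max_right _ _).trans (hn.trans (by simp)))
  refine ⟨n, fun x y hxy e => ?_⟩
  have h3 := fun q' (hq' : q' ∈ ball (0 : V) (rad n)) => h1 x y hxy 0 (zero_dom e) norm_zero.le
    (by rw [τ_zero e, norm_zero]) q' (ball_subset_closedBall (ball_subset_ball hr' hq'))
  exact ⟨fun q hq => (h3 q hq).1,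
    ((hf.smooth (x, y)).of_le (by exact_mod_cast le_top)).mono fun q hq => (h3 q hq).1,
    fun i hi q hq => (h2 x y hxy q (h3 q hq).1 (h3 q hq).2.1 (h3 q hq).2.2 i hi).trans
      ((le_max_left _ _).trans hn)⟩

include S in
theorem unif_one {V' : Type} [NormedAddCommGroup V'] [NormedSpace ℝ V'] [FiniteDimensional ℝ V']
    {f : X → V' → W} {r : ℝ} (hf : JC f (univ ×ˢ ball 0 r))
    (hs : ∀ (g : Γ) x, ∀ q ∈ ball (0 : V') r, f (g • x) q = f x q) {a : ℝ} (ha : a < r) (k : ℕ) :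
    ∃ C : ℝ, 0 ≤ C ∧ ∀ x, ∀ q : V', ‖q‖ ≤ a → ∀ i ≤ k, ‖iteratedFDeriv ℝ i (f x) q‖ ≤ C := by
  obtain ⟨K, hK, hKx⟩ := S.cocompact
  obtain ⟨C, h0, hC⟩ := exists_bound_le (hK.prod (isCompact_closedBall (0 : V') a))
    (fun i => (hf.cont i).mono (prod_mono (subset_univ _) (closedBall_subset_ball ha))) k
  refine ⟨C, h0, fun x q hq i hi => ?_⟩
  obtain ⟨g, hg⟩ := hKx x
  have e : f (g • x) =ᶠ[𝓝 q] f x :=
    mem_of_superset (isOpen_ball.mem_nhds (mem_ball_zero_iff.2 (hq.trans_lt ha))) (hs g x)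
  rw [← (e.iteratedFDeriv ℝ i).eq_of_nhds]
  exact hC (g • x, q) ⟨hg, mem_closedBall_zero_iff.2 hq⟩ i hi

include S in
theorem unif_cont {V' : Type} [NormedAddCommGroup V'] [NormedSpace ℝ V'] [FiniteDimensional ℝ V']
    {f : X → V' → W} {r : ℝ} (hf : ContinuousOn (fun p : X × V' => f p.1 p.2) (univ ×ˢ ball 0 r))
    (hs : ∀ (g : Γ) x, ∀ q ∈ ball (0 : V') r, f (g • x) q = f x q) {a : ℝ} (ha : a < r) :
    ∃ C : ℝ, 0 ≤ C ∧ ∀ x, ∀ q : V', ‖q‖ ≤ a → ‖f x q‖ ≤ C := by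
  obtain ⟨K, hK, hKx⟩ := S.cocompact
  obtain ⟨C, hC⟩ := (hK.prod (isCompact_closedBall (0 : V') a)).exists_bound_of_continuousOn
    (hf.mono (prod_mono (subset_univ _) (closedBall_subset_ball ha)))
  refine ⟨max C 0, le_max_right _ _, fun x q hq => ?_⟩
  obtain ⟨g, hg⟩ := hKx x
  rw [← hs g x q (mem_ball_zero_iff.2 (hq.trans_lt ha))]
  exact (hC (g • x, q) ⟨hg, mem_closedBall_zero_iff.2 hq⟩).trans (le_max_left _ _)

theorem unif_pair {f : X → X → W}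
    (hf : ContinuousOn (fun p : X × X => f p.1 p.2) {p | S.pt p.1 = S.pt p.2})
    (hs : ∀ (g : Γ) x y, S.pt x = S.pt y → f (g • x) (g • y) = f x y) (D : ℝ) :
    ∃ C : ℝ, 0 ≤ C ∧ ∀ x y, dist x y ≤ D → S.pt x = S.pt y → ‖f x y‖ ≤ C := by
  obtain ⟨K, hK, hKx⟩ := S.cocompact
  obtain ⟨C, hC⟩ := ((isCompact_pairs hK D).inter_right (isClosed_eq
    (S.pt_cont.comp continuous_fst) (S.pt_cont.comp continuous_snd))).exists_bound_of_continuousOn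
    (hf.mono inter_subset_right)
  refine ⟨max C 0, le_max_right _ _, fun x y hxy e => ?_⟩
  obtain ⟨g, hg⟩ := hKx x
  rw [← hs g x y e]
  exact (hC (g • x, g • y) ⟨⟨hg, (dist_smul g x y).trans_le hxy⟩, (S.pt_smul_iff g).2 e⟩).trans
    (le_max_left _ _)

theorem dist_le_one : ∃ D : ℝ, 0 < D ∧ ∀ x y, S.pt x = S.pt y → |S.lv x - S.lv y| ≤ 1 →
    dist x y ≤ D := by
  obtain ⟨K, hK, hKx⟩ := S.cocompact
  obtain ⟨C, hC⟩ := hK.exists_bound_of_continuousOn (S.lv_cont.sub S.lp_cont).continuousOn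
  have h1 := S.hopf_proper _ (hK.image S.pt_cont) (by
    rintro _ ⟨x, -, rfl⟩
    exact S.em_ne_ep x) (C + 2)
  obtain ⟨D, hD⟩ := Metric.isBounded_iff.1 (hK.union h1).isBounded
  refine ⟨max D 1, lt_max_of_lt_right one_pos, fun x y e hl => ?_⟩
  obtain ⟨g, hg⟩ := hKx x
  have e' := (S.pt_smul_iff g).2 e
  have a1 := S.lv_smul g x y (congrArg Prod.fst e)
  have a2 := S.lv_add _ _ (congrArg Prod.fst e') (congrArg Prod.snd e')
  have a3 : |S.lv (g • x) - S.lp (g • x)| ≤ C := hC _ hg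
  rw [← dist_smul g]
  refine (hD (Or.inl hg) (Or.inr ⟨⟨_, hg, e'⟩, ?_⟩)).trans (le_max_left _ _)
  rw [abs_le] at hl a3 ⊢
  constructor <;> linarith [hl.1, hl.2, a3.1, a3.2]

theorem dist_le_lv : ∃ D : ℝ, 0 < D ∧ ∀ x y, S.pt x = S.pt y →
    dist x y ≤ D * (|S.lv x - S.lv y| + 1) := by
  obtain ⟨D, hD, h⟩ := S.dist_le_one
  have key : ∀ n : ℕ, ∀ x y, S.pt x = S.pt y → |S.lv x - S.lv y| ≤ n + 1 →
      dist x y ≤ D * (n + 1) := by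
    intro n
    induction n with
    | zero => exact fun x y e hl => by simpa using h x y e (by simpa using hl)
    | succ n ih =>
      intro x y e hl
      obtain ⟨t, t1, t2⟩ : ∃ t : ℝ, |t| ≤ 1 ∧ |S.lv x + t - S.lv y| ≤ n + 1 := by
        have hn : (0 : ℝ) ≤ n := n.cast_nonneg
        push_cast at hl
        rw [abs_le] at hl
        rcases le_total (S.lv x) (S.lv y) with h1 | h1
        · exact ⟨1, by simp, abs_le.2 ⟨by linarith [hl.1], by linarith⟩⟩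
        · exact ⟨-1, by simp, abs_le.2 ⟨by linarith, by linarith [hl.2]⟩⟩
      have b1 := h x (S.φ t x) (S.pt_φ t x).symm (by simpa [S.lv_φ] using t1)
      have b2 := ih (S.φ t x) y ((S.pt_φ t x).trans e) (by rwa [S.lv_φ])
      have b3 := dist_triangle x (S.φ t x) y
      push_cast
      linarith
  refine ⟨D, hD, fun x y e => (key ⌊|S.lv x - S.lv y|⌋₊ x y e (Nat.lt_floor_add_one _).le).trans ?_⟩
  gcongr
  exact Nat.floor_le (abs_nonneg _)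

theorem lv_le_dist (D : ℝ) : ∃ C : ℝ, ∀ x y, S.pt x = S.pt y → dist x y ≤ D →
    |S.lv x - S.lv y| ≤ C := by
  obtain ⟨C, -, h⟩ := S.unif_pair (f := fun x y => S.lv x - S.lv y)
    ((S.lv_cont.comp continuous_fst).sub (S.lv_cont.comp continuous_snd)).continuousOn
    (fun g x y e => S.lv_smul g x y (congrArg Prod.fst e)) D
  exact ⟨C, fun x y e hd => h x y hd e⟩

theorem fr_near {a : ℝ} (ha : a < 1) : ∃ D : ℝ, ∀ x, ∀ q : V, ‖q‖ ≤ a →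
    ∃ y, S.pt y = S.c x q ∧ dist x y ≤ D := by
  obtain ⟨K, hK, hKx⟩ := S.cocompact
  have hb : closedBall (0 : V) a ⊆ ball 0 1 := closedBall_subset_ball ha
  have h1 := S.hopf_proper _ ((hK.prod (isCompact_closedBall (0 : V) a)).image_of_continuousOn
    (S.c_cont.mono (prod_mono (subset_univ _) hb))) (by
      rintro _ ⟨p, hp, rfl⟩
      exact S.c_ne _ _ (hb hp.2)) 0
  obtain ⟨D, hD⟩ := Metric.isBounded_iff.1 (hK.union h1).isBounded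
  refine ⟨D, fun x q hq => ?_⟩
  obtain ⟨g, hg⟩ := hKx x
  have hq' := mem_closedBall_zero_iff.2 hq
  obtain ⟨y, hy⟩ := S.exists_pt_c (g • x) (hb hq')
  have hy' := (S.pt_φ ((S.lp y - S.lv y) / 2) y).trans hy
  refine ⟨g⁻¹ • S.φ ((S.lp y - S.lv y) / 2) y, ?_, ?_⟩
  · rw [S.pt_smul, hy', S.c_smul g x q (hb hq'), inv_smul_smul]
  · rw [← dist_smul g, smul_inv_smul]
    refine hD (Or.inl hg) (Or.inr ⟨⟨(g • x, q), ⟨hg, hq'⟩, hy'.symm⟩, ?_⟩)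
    rw [S.lv_φ, S.lp_φ, abs_nonpos_iff]
    ring

theorem mem_image_smul (g : Γ) {p : B × B} {r : ℝ} (hr : r ≤ 1)
    (h : g • p ∈ S.c (g • x) '' ball 0 r) : p ∈ S.c x '' ball 0 r := by
  obtain ⟨q, hq, e⟩ := h
  rw [S.c_smul g x q (ball_subset_ball hr hq)] at e
  exact ⟨q, hq, MulAction.injective g e⟩

theorem near {a : ℝ} (ha : 0 < a) : ∃ ε > 0, ∀ x y, dist x y < ε →
    S.pt y ∈ S.c x '' ball 0 a := by
  obtain ⟨K, hK, hKx⟩ := S.cocompact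
  have hO := (S.c_open _ isOpen_ball (ball_subset_ball (min_le_right a 1))).preimage
    (f := fun p : X × X => (p.1, S.pt p.2))
    (continuous_fst.prodMk (S.pt_cont.comp continuous_snd))
  obtain ⟨δ, hδ, hs⟩ := (hK.image (f := fun x => (x, x)) (by fun_prop)).exists_cthickening_subset_open
    hO (by
      rintro _ ⟨x, -, rfl⟩
      exact ⟨0, mem_ball_self (lt_min ha one_pos), S.c_zero' x⟩)
  refine ⟨δ, hδ, fun x y hxy => ?_⟩
  obtain ⟨g, hg⟩ := hKx x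
  have h2 : S.pt (g • y) ∈ S.c (g • x) '' ball 0 (min a 1) :=
    hs (mem_cthickening_of_dist_le (g • x, g • y) (g • x, g • x) δ _ ⟨_, hg, rfl⟩
      (by simpa [Prod.dist_eq, hδ.le, dist_comm y x] using hxy.le))
  rw [S.pt_smul] at h2
  exact image_mono (ball_subset_ball (min_le_left _ _)) (S.mem_image_smul g (min_le_right _ _) h2)

theorem box {a : ℝ} (ha : 0 < a) : ∃ a' > 0, ∀ x, ∀ q ∈ ball (0 : V) a', ∀ q' ∈ ball (0 : V) a',
    ((S.c x q).1, (S.c x q').2) ∈ S.c x '' ball 0 a := by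
  obtain ⟨K, hK, hKx⟩ := S.cocompact
  have h1 : ContinuousOn
      (fun p : X × V × V => (p.1, ((S.c p.1 p.2.1).1, (S.c p.1 p.2.2).2)))
      (univ ×ˢ ball 0 1 ×ˢ ball 0 1) :=
    continuousOn_fst.prodMk
      ((S.c_cont.comp (f := fun p : X × V × V => (p.1, p.2.1)) (by fun_prop)
        fun p hp => ⟨trivial, hp.2.1⟩).fst.prodMk
      (S.c_cont.comp (f := fun p : X × V × V => (p.1, p.2.2)) (by fun_prop)
        fun p hp => ⟨trivial, hp.2.2⟩).snd)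
  have hO := h1.isOpen_inter_preimage (isOpen_univ.prod (isOpen_ball.prod isOpen_ball))
    (S.c_open _ isOpen_ball (ball_subset_ball (min_le_right a 1)))
  obtain ⟨δ, hδ, hs⟩ := (hK.image (f := fun x => (x, (0 : V), (0 : V)))
    (by fun_prop)).exists_cthickening_subset_open hO (by
      rintro _ ⟨x, -, rfl⟩
      exact ⟨⟨trivial, mem_ball_self one_pos, mem_ball_self one_pos⟩, 0,
        mem_ball_self (lt_min ha one_pos), rfl⟩)
  refine ⟨δ, hδ, fun x q hq q' hq' => ?_⟩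
  obtain ⟨g, hg⟩ := hKx x
  have h2 := hs (mem_cthickening_of_dist_le (g • x, q, q') (g • x, 0, 0) δ _ ⟨_, hg, rfl⟩
    (by simpa [Prod.dist_eq, hδ.le] using
      And.intro (mem_ball_zero_iff.1 hq).le (mem_ball_zero_iff.1 hq').le))
  have h3 : ((S.c (g • x) q).1, (S.c (g • x) q').2) ∈ S.c (g • x) '' ball 0 (min a 1) := h2.2
  rw [S.c_smul g x q h2.1.2.1, S.c_smul g x q' h2.1.2.2] at h3
  exact image_mono (ball_subset_ball (min_le_left _ _))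
    (S.mem_image_smul g (p := ((S.c x q).1, (S.c x q').2)) (min_le_right _ _) h3)

theorem exists_exp_lt (C : ℝ) {ε : ℝ} (hε : 0 < ε) :
    ∃ T, 0 ≤ T ∧ ∀ t ≥ T, C * Real.exp (-S.lam * t) < ε := by
  have h1 : Tendsto (fun t : ℝ => C * Real.exp (-S.lam * t)) atTop (𝓝 (C * 0)) :=
    (Real.tendsto_exp_atBot.comp
      (tendsto_id.const_mul_atTop_of_neg (neg_lt_zero.2 S.lam_pos))).const_mul C
  rw [mul_zero] at h1
  obtain ⟨T, hT⟩ := eventually_atTop.1 (h1.eventually (gt_mem_nhds hε))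
  exact ⟨max T 0, le_max_right _ _, fun t ht => hT t ((le_max_left _ _).trans ht)⟩

theorem engS (x : X) {K : Set B} (hK : IsCompact K) (hx : S.ep x ∉ K) {a : ℝ} (ha : 0 < a) :
    ∃ T, ∀ t ≥ T, ∀ ξ ∈ K, ∃ w : E, ‖w‖ < a ∧ S.c (S.φ t x) (S.iS w) = (ξ, S.ep x) := by
  obtain ⟨C, hC⟩ := S.asymS (K ×ˢ {x}) (hK.prod isCompact_singleton) fun p hp e =>
    hx (mem_singleton_iff.1 hp.2 ▸ e ▸ hp.1)
  obtain ⟨ε, hε, hn⟩ := S.near (lt_min ha one_pos)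
  obtain ⟨T, h0, hT⟩ := S.exists_exp_lt C hε
  refine ⟨T, fun t ht ξ hξ => ?_⟩
  obtain ⟨y, a1, a2, -, a3⟩ := hC (ξ, x) ⟨hξ, rfl⟩
  obtain ⟨q, hq, e⟩ := hn _ _ ((a3 t (h0.trans ht)).trans_lt (hT t ht))
  have e' : S.c (S.φ t x) q = (ξ, S.ep x) := e.trans ((S.pt_φ t y).trans (Prod.ext a1 a2))
  have h1 := (S.c_S _ q (ball_subset_ball (min_le_right _ _) hq)).1
    ((congrArg Prod.snd e').trans (S.ep_φ t x).symm)
  exact ⟨S.pS q, (S.norm_pS_le q).trans_lt ((mem_ball_zero_iff.1 hq).trans_le (min_le_left _ _)),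
    (S.iS_pS h1).symm ▸ e'⟩

theorem engU (x : X) {K : Set B} (hK : IsCompact K) (hx : S.em x ∉ K) {a : ℝ} (ha : 0 < a) :
    ∃ T, ∀ t ≥ T, ∀ η ∈ K, ∃ u : E, ‖u‖ < a ∧ S.c (S.φ (-t) x) (S.iU u) = (S.em x, η) := by
  obtain ⟨C, hC⟩ := S.asymU (K ×ˢ {x}) (hK.prod isCompact_singleton) fun p hp e =>
    hx (mem_singleton_iff.1 hp.2 ▸ e ▸ hp.1)
  obtain ⟨ε, hε, hn⟩ := S.near (lt_min ha one_pos)
  obtain ⟨T, h0, hT⟩ := S.exists_exp_lt C hε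
  refine ⟨T, fun t ht η hη => ?_⟩
  obtain ⟨y, a1, a2, -, a3⟩ := hC (η, x) ⟨hη, rfl⟩
  obtain ⟨q, hq, e⟩ := hn _ _ ((a3 t (h0.trans ht)).trans_lt (hT t ht))
  have e' : S.c (S.φ (-t) x) q = (S.em x, η) := e.trans ((S.pt_φ _ y).trans (Prod.ext a2 a1))
  have h1 := (S.c_U _ q (ball_subset_ball (min_le_right _ _) hq)).1
    ((congrArg Prod.fst e').trans (S.em_φ _ x).symm)
  exact ⟨S.pU q, (S.norm_pU_le q).trans_lt ((mem_ball_zero_iff.1 hq).trans_le (min_le_left _ _)),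
    (S.iU_pU h1).symm ▸ e'⟩

end Sys

end Vale.Agent.P207Z
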