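import Vale.Agent.P207Z.JetB.Sym

/-!
# P207: jets and Taylor polynomials (block CALC2)
-/

set_option linter.all false

open Set Filter Topology Metric Asymptotics
open scoped ContDiff

noncomputable section

namespace Vale.Agent.P207Z

variable {V V' W W' W'' F G : Type} [NormedAddCommGroup V] [NormedSpace ℝ V]
  [NormedAddCommGroup V'] [NormedSpace ℝ V'] [NormedAddCommGroup W] [NormedSpace ℝ W]
  [NormedAddCommGroup W'] [NormedSpace ℝ W'] [NormedAddCommGroup W''] [NormedSpace ℝ W'']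
  [NormedAddCommGroup F] [NormedSpace ℝ F] [NormedAddCommGroup G] [NormedSpace ℝ G]
  {k K r n : ℕ} {f g : V → W} {z : V}

open CalcAux JetBx

/-- evaluation of the Taylor polynomial, as a linear map of the jet -/
def polyL (k : ℕ) (V W : Type) [NormedAddCommGroup V] [NormedSpace ℝ V] [NormedAddCommGroup W]
    [NormedSpace ℝ W] (q : V) : Jet k V W →L[ℝ] W :=
  ∑ i : Fin (k + 1), (((i : ℕ).factorial : ℝ))⁻¹ •
    (ContinuousMultilinearMap.apply ℝ (fun _ : Fin i => V) W fun _ => q) ∘L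
      ContinuousLinearMap.proj (R := ℝ) (φ := fun i : Fin (k + 1) => V [×(i : ℕ)]→L[ℝ] W) i

theorem polyL_apply (a : Jet k V W) (q : V) : polyL k V W q a = poly a q := by
  simp [polyL, poly]
theorem contDiff_polyL : ContDiff ℝ ∞ (polyL k V W) := by
  unfold polyL
  refine ContDiff.sum fun i _ => ContDiff.const_smul _ (ContDiff.clm_comp ?_ contDiff_const)
  exact contDiff_diag (V := V) (W := (V [×(i : ℕ)]→L[ℝ] W) →L[ℝ] W)
    (ContinuousLinearMap.id ℝ (V [×(i : ℕ)]→L[ℝ] W)).flipMultilinear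
theorem contDiff_poly (a : Jet k V W) : ContDiff ℝ ∞ (poly a) := by
  simpa only [polyL_apply] using (contDiff_polyL (k := k)).clm_apply (contDiff_const (c := a))
theorem contDiff_poly₂ : ContDiff ℝ ∞ fun p : Jet k V W × V => poly p.1 p.2 := by
  simpa only [Function.comp_apply, polyL_apply] using
    ((contDiff_polyL (k := k) (V := V) (W := W)).comp
      (contDiff_snd (E := Jet k V W))).clm_apply contDiff_fst
theorem contDiffAt_poly (a : Jet k V W) (n : ℕ) (q : V) : ContDiffAt ℝ n (poly a) q :=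
  (contDiff_poly a).contDiffAt.of_le (by exact_mod_cast le_top)
theorem poly_zero (a : Jet k V W) : poly a 0 = a 0 (fun _ => 0) := by
  rw [poly, Finset.sum_eq_single 0]
  · simp
  · intro i _ hi
    rw [(a i).map_coord_zero ⟨0, Fin.pos_iff_ne_zero.2 hi⟩ rfl, smul_zero]
  · simp
theorem poly_jet_zero (f : V → W) (z : V) : poly (jet k f z) 0 = f z := by
  rw [poly_zero]
  exact iteratedFDeriv_zero_apply _
theorem iteratedFDeriv_poly (a : Jet k V W) (i : ℕ) (q : V) : iteratedFDeriv ℝ i (poly a) q =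
    ∑ j : Fin (k + 1), (((j : ℕ).factorial : ℝ))⁻¹ •
      iteratedFDeriv ℝ i (fun x => a j fun _ => x) q := by
  unfold poly
  rw [iteratedFDeriv_fun_sum_apply fun j _ => ((contDiff_diag (a j)).const_smul _).contDiffAt]
  exact Finset.sum_congr rfl fun j _ =>
    iteratedFDeriv_const_smul_apply' (contDiff_diag (a j)).contDiffAt
theorem iteratedFDeriv_poly_of_lt (a : Jet k V W) {i : ℕ} (h : k < i) (q : V) :
    iteratedFDeriv ℝ i (poly a) q = 0 := by
  rw [iteratedFDeriv_poly]
  exact Finset.sum_eq_zero fun j _ => by rw [diag_lt _ (by omega), smul_zero]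
theorem poly_bound (k i : ℕ) : ∃ C : ℝ, 0 ≤ C ∧ ∀ (a : Jet k V W), ∀ q ∈ closedBall (0 : V) 1,
    ‖iteratedFDeriv ℝ i (poly a) q‖ ≤ C * ‖a‖ := by
  refine ⟨∑ j : Fin (k + 1), (((j : ℕ).factorial : ℝ))⁻¹ * (j : ℕ).descFactorial i,
    by positivity, fun a q hq => ?_⟩
  rw [iteratedFDeriv_poly, Finset.sum_mul]
  refine norm_sum_le_of_le _ fun j _ => ?_
  rw [norm_smul, Real.norm_of_nonneg (by positivity), mul_assoc]
  refine mul_le_mul_of_nonneg_left ((norm_diag _ _ _).trans ?_) (by positivity)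
  refine (mul_le_of_le_one_right (by positivity)
    (pow_le_one₀ (norm_nonneg _) (mem_closedBall_zero_iff.1 hq))).trans ?_
  exact mul_le_mul_of_nonneg_left (norm_le_pi_norm a j) (by positivity)
/-- the jet of a polynomial is the symmetrization -/
theorem jet_poly_apply (a : Jet k V W) (i : Fin (k + 1)) (v : Fin i → V) :
    jet k (poly a) 0 i v =
      (((i : ℕ).factorial : ℝ))⁻¹ • ∑ σ : Equiv.Perm (Fin i), a i fun j => v (σ j) := by
  rw [jet, iteratedFDeriv_poly, Finset.sum_eq_single i]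
  · rw [ContinuousMultilinearMap.smul_apply, (a i).iteratedFDeriv_comp_diagonal]
  · intro j _ hj
    rw [diag_ne _ (Fin.val_ne_of_ne hj), smul_zero]
  · simp
theorem JetBx.avg (i : ℕ) (w : W) :
    ((i.factorial : ℝ))⁻¹ • ∑ _σ : Equiv.Perm (Fin i), w = w := by
  rw [Finset.sum_const, Finset.card_univ, Fintype.card_perm, Fintype.card_fin,
    ← Nat.cast_smul_eq_nsmul ℝ, inv_smul_smul₀ (by positivity)]

/-- truncation -/
def trunc (h : k ≤ K) : Jet K V W →L[ℝ] Jet k V W :=
  ContinuousLinearMap.pi fun i => ContinuousLinearMap.proj (R := ℝ)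
    (φ := fun i : Fin (K + 1) => V [×(i : ℕ)]→L[ℝ] W) (Fin.castLE (Nat.succ_le_succ h) i)

theorem trunc_jet (h : k ≤ K) (f : V → W) (z : V) : trunc h (jet K f z) = jet k f z := rfl
theorem norm_trunc_le (h : k ≤ K) (a : Jet K V W) : ‖trunc h a‖ ≤ ‖a‖ :=
  (pi_norm_le_iff_of_nonneg (norm_nonneg _)).2 fun i =>
    norm_le_pi_norm a (Fin.castLE (Nat.succ_le_succ h) i)
theorem trunc_trunc {k' : ℕ} (h : k ≤ k') (h' : k' ≤ K) (a : Jet K V W) :
    trunc h (trunc h' a) = trunc (h.trans h') a := rfl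
theorem poly_succ (a : Jet (k + 1) V W) (q : V) : poly a q = poly (trunc (Nat.le_succ k) a) q +
    (((k + 1).factorial : ℝ))⁻¹ • a (Fin.last (k + 1)) fun _ => q := by
  rw [poly, Fin.sum_univ_castSucc]
  rfl
theorem poly_sub_trunc (h : k ≤ K) : ∃ C : ℝ, ∀ (a : Jet K V W), ∀ q ∈ closedBall (0 : V) 1,
    ‖poly a q - poly (trunc h a) q‖ ≤ C * ‖a‖ * ‖q‖ ^ (k + 1) := by
  induction K, h using Nat.le_induction with
  | base => exact ⟨0, fun a q _ => by rw [show trunc le_rfl a = a from rfl]; simp⟩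
  | succ K h ih =>
    obtain ⟨C, hC⟩ := ih
    refine ⟨|C| + 1, fun a q hq => ?_⟩
    have h1 := hC (trunc (Nat.le_succ K) a) q hq
    have h2 : ‖(((K + 1).factorial : ℝ))⁻¹ • a (Fin.last (K + 1)) fun _ => q‖ ≤
        ‖a‖ * ‖q‖ ^ (k + 1) := by
      rw [norm_smul, Real.norm_of_nonneg (by positivity)]
      refine (mul_le_of_le_one_left (norm_nonneg _) (inv_le_one_of_one_le₀
        (by exact_mod_cast (K + 1).factorial_pos))).trans (((a _).le_opNorm _).trans ?_)
      rw [Finset.prod_const, Finset.card_fin]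
      exact mul_le_mul (norm_le_pi_norm a _) (pow_le_pow_of_le_one (norm_nonneg _)
        (mem_closedBall_zero_iff.1 hq) (Nat.succ_le_succ h)) (by positivity) (norm_nonneg _)
    rw [poly_succ, add_sub_right_comm, add_mul, add_mul, one_mul]
    refine (norm_add_le _ _).trans (add_le_add (h1.trans ?_) h2)
    gcongr
    exacts [le_abs_self C, norm_trunc_le _ _]

theorem jet_congr (e : f =ᶠ[𝓝 z] g) : jet k f z = jet k g z :=
  funext fun i => (e.iteratedFDeriv ℝ i).eq_of_nhds
theorem jet_add (hf : ContDiffAt ℝ k f z) (hg : ContDiffAt ℝ k g z) :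
    jet k (fun q => f q + g q) z = jet k f z + jet k g z :=
  funext fun i => iteratedFDeriv_add_apply (hf.of_le (cast_le i.is_le)) (hg.of_le (cast_le i.is_le))
theorem jet_sub (hf : ContDiffAt ℝ k f z) (hg : ContDiffAt ℝ k g z) :
    jet k (fun q => f q - g q) z = jet k f z - jet k g z :=
  funext fun i => iteratedFDeriv_sub_apply (hf.of_le (cast_le i.is_le)) (hg.of_le (cast_le i.is_le))
theorem jet_smul (c : ℝ) (hf : ContDiffAt ℝ k f z) :
    jet k (fun q => c • f q) z = c • jet k f z :=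
  funext fun i => iteratedFDeriv_const_smul_apply' (hf.of_le (cast_le i.is_le))
theorem jet_translate (f : V → W) (z : V) : jet k (fun q => f (z + q)) 0 = jet k f z :=
  funext fun i => by simp only [jet, iteratedFDeriv_comp_add_left, add_zero]
theorem norm_jet_le {C : ℝ} (hC : 0 ≤ C) (h : ∀ i ≤ k, ‖iteratedFDeriv ℝ i f z‖ ≤ C) :
    ‖jet k f z‖ ≤ C := (pi_norm_le_iff_of_nonneg hC).2 fun i => h i i.is_le
theorem jet_eq_zero_iff : jet k f z = 0 ↔ ∀ i ≤ k, iteratedFDeriv ℝ i f z = 0 :=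
  ⟨fun h i hi => congrFun h ⟨i, Nat.lt_succ_of_le hi⟩, fun h => funext fun i => h i i.is_le⟩
theorem jet_fderiv_zero (h : jet (k + 1) f z = 0) : jet k (fderiv ℝ f) z = 0 :=
  jet_eq_zero_iff.2 fun i hi => by
    rw [← norm_eq_zero, norm_iteratedFDeriv_fderiv, jet_eq_zero_iff.1 h _ (by omega), norm_zero]

theorem jet_poly_jet (hf : ContDiffAt ℝ k f z) : jet k (poly (jet k f z)) 0 = jet k f z := by
  funext i
  ext v
  rw [jet_poly_apply]
  simp only [jet, perm_sym (hf.of_le (cast_le i.is_le))]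
  exact avg _ _
theorem poly_jet_poly (a : Jet k V W) : poly (jet k (poly a) 0) = poly a := by
  funext q
  simp only [poly, jet_poly_apply, avg]

theorem flat_of_jet (k : ℕ) : ∀ {W : Type} [NormedAddCommGroup W] [NormedSpace ℝ W] {f : V → W},
    ContDiffAt ℝ k f z → jet k f z = 0 → Flat k f z := by
  have e : ∀ {k : ℕ} {W : Type} [NormedAddCommGroup W] [NormedSpace ℝ W] {f : V → W},
      jet k f z = 0 → f z = 0 := fun h => by
    rw [← norm_eq_zero, ← norm_iteratedFDeriv_zero (𝕜 := ℝ),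
      jet_eq_zero_iff.1 h _ (Nat.zero_le _), norm_zero]
  induction k with
  | zero =>
    intro W _ _ f hf h
    rw [flat_zero_iff, ← e h]
    exact hf.continuousAt
  | succ k ih =>
    intro W _ _ f hf h
    have h1 := ih (hf.fderiv_right (by norm_cast)) (jet_fderiv_zero h)
    obtain ⟨ε, hε, hd⟩ := Metric.eventually_nhds_iff_ball.1 (hf.eventually (by simp))
    have h2 := (convex_ball z ε).isLittleO_pow_succ (mem_ball_self hε) (f := f)
      (fun x hx => ((hd x hx).differentiableAt (by simp)).hasFDerivAt.hasFDerivWithinAt)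
      (IsLittleO.mono h1 nhdsWithin_le_nhds)
    rw [nhdsWithin_eq_nhds.2 (ball_mem_nhds z hε), e h] at h2
    simp only [sub_zero] at h2
    exact h2

theorem JetBx.rem (hf : ContDiffAt ℝ k f z) :
    jet k (fun q => f q - poly (jet k f z) (q - z)) z = 0 := by
  rw [jet_sub (g := fun q => poly (jet k f z) (q - z)) hf
    ((contDiffAt_poly _ k _).comp z (by fun_prop)), sub_eq_zero, eq_comm, ← jet_translate]
  simpa only [add_sub_cancel_left] using jet_poly_jet hf

/-- Taylor's formula, Peano remainder -/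
theorem flat_taylor (hf : ContDiffAt ℝ k f z) :
    Flat k (fun q => f q - poly (jet k f z) (q - z)) z :=
  flat_of_jet k (hf.sub ((contDiffAt_poly _ k _).comp z (by fun_prop))) (rem hf)
theorem flat_poly_trunc (h : k ≤ K) (a : Jet K V W) :
    Flat k (fun q => poly a q - poly (trunc h a) q) 0 := by
  obtain ⟨C, hC⟩ := poly_sub_trunc (V := V) (W := W) h
  refine Flat.of_pow (C := C * ‖a‖) ?_
  filter_upwards [closedBall_mem_nhds (0 : V) one_pos] with q hq
  rw [sub_zero]
  exact hC a q hq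
theorem poly_eq_zero_of_flat {a : Jet k V W} (h : Flat k (poly a) 0) : poly a = 0 := by
  induction k with
  | zero =>
    funext q
    have h1 := h.eq_zero
    rw [poly, Fin.sum_univ_one] at h1 ⊢
    rwa [show (fun _ : Fin (0 : Fin 1) => q) = fun _ => 0 from funext fun i => i.elim0]
  | succ k ih =>
    have h1 : poly (trunc (Nat.le_succ k) a) = 0 := ih <| by
      simpa only [sub_sub_cancel] using
        (h.mono (Nat.le_succ k)).sub (flat_poly_trunc (Nat.le_succ k) a)
    have h2 : ∀ q, poly a q = (((k + 1).factorial : ℝ)⁻¹ • a (Fin.last (k + 1))) fun _ => q :=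
      fun q => by rw [poly_succ, h1, Pi.zero_apply, zero_add]; rfl
    funext q
    rw [h2]
    exact diag_zero (j := k + 1) (h.congr (Eventually.of_forall fun q => (h2 q).symm)) q
/-- (uses the symmetry of the higher derivatives of a `C^k` map) -/
theorem flat_iff_jet (hf : ContDiffAt ℝ k f z) : Flat k f z ↔ jet k f z = 0 := by
  refine ⟨fun h => ?_, flat_of_jet k hf⟩
  have h1 : poly (jet k f z) = 0 := poly_eq_zero_of_flat <| by
    simpa only [sub_sub_cancel, add_sub_cancel_left] using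
      flat_iff_translate.1 (h.sub (flat_taylor hf))
  rw [← jet_poly_jet hf, h1]
  funext i
  exact congrFun (iteratedFDeriv_zero_fun (𝕜 := ℝ)) _
theorem jet_eq_iff (hf : ContDiffAt ℝ k f z) (hg : ContDiffAt ℝ k g z) :
    jet k f z = jet k g z ↔ Flat k (fun q => f q - g q) z := by
  rw [flat_iff_jet (hf.sub hg), jet_sub hf hg, sub_eq_zero]
theorem Flat.fderiv (h : Flat (k + 1) f z) (hf : ContDiffAt ℝ (k + 1 : ℕ) f z) :
    Flat k (fderiv ℝ f) z :=
  flat_of_jet k (hf.fderiv_right (by norm_cast)) (jet_fderiv_zero ((flat_iff_jet hf).1 h))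
/-- the derivatives of a map with zero jet -/
theorem deriv_bound_of_jet {ρ C : ℝ} (hf : ContDiffOn ℝ (k + 1 : ℕ) f (ball z ρ))
    (h0 : jet k f z = 0) (hC : ∀ q ∈ ball z ρ, ‖iteratedFDeriv ℝ (k + 1) f q‖ ≤ C) {i : ℕ}
    (hi : i ≤ k + 1) {q : V} (hq : q ∈ ball z ρ) :
    ‖iteratedFDeriv ℝ i f q‖ ≤ C * ‖q - z‖ ^ (k + 1 - i) := by
  have hC0 : 0 ≤ C := (norm_nonneg _).trans (hC q hq)
  induction hi using Nat.decreasingInduction generalizing q with
  | self => simpa using hC q hq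
  | of_succ i hi ih =>
    have hs : closedBall z ‖q - z‖ ⊆ ball z ρ := closedBall_subset_ball (mem_ball_iff_norm.1 hq)
    have := (convex_closedBall z ‖q - z‖).norm_image_sub_le_of_norm_fderiv_le (𝕜 := ℝ)
      (f := iteratedFDeriv ℝ i f) (C := C * ‖q - z‖ ^ (k + 1 - (i + 1)))
      (fun x hx => (hf.contDiffAt (isOpen_ball.mem_nhds (hs hx))).differentiableAt_iteratedFDeriv
        (by exact_mod_cast hi))
      (fun x hx => by
        rw [norm_fderiv_iteratedFDeriv]
        refine (ih (hs hx)).trans ?_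
        gcongr
        exact mem_closedBall_iff_norm.1 hx)
      (mem_closedBall_self (norm_nonneg _)) (mem_closedBall_iff_norm.2 le_rfl)
    rwa [jet_eq_zero_iff.1 h0 i (by omega), sub_zero, mul_assoc, ← pow_succ,
      show k + 1 - (i + 1) + 1 = k + 1 - i by omega] at this
/-- Taylor's formula with a bound -/
theorem taylor_bound {ρ C : ℝ} (hf : ContDiffOn ℝ (k + 1 : ℕ) f (ball z ρ))
    (hC : ∀ q ∈ ball z ρ, ‖iteratedFDeriv ℝ (k + 1) f q‖ ≤ C) {q : V} (hq : q ∈ ball z ρ) :
    ‖f q - poly (jet k f z) (q - z)‖ ≤ C * ‖q - z‖ ^ (k + 1) := by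
  have hp : ∀ x, ContDiffAt ℝ (k + 1 : ℕ) (fun q => poly (jet k f z) (q - z)) x := fun x =>
    (contDiffAt_poly _ _ _).comp x (by fun_prop)
  have := deriv_bound_of_jet (hf.sub fun x _ => (hp x).contDiffWithinAt)
    (rem ((hf.contDiffAt (ball_mem_nhds z (pos_of_mem_ball hq))).of_le (cast_le (Nat.le_succ k))))
    (C := C) (fun x hx => ?_) (Nat.zero_le _) hq
  · rwa [norm_iteratedFDeriv_zero] at this
  · rw [fun_iteratedFDeriv_sub_apply (hf.contDiffAt (isOpen_ball.mem_nhds hx)) (hp x),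
      iteratedFDeriv_comp_sub, iteratedFDeriv_poly_of_lt _ (Nat.lt_succ_self k), sub_zero]
    exact hC x hx

theorem Flat.comp' {τ : V' → V} {z' : V'} (h : Flat k f (τ z')) (hτ : ContDiffAt ℝ k τ z') :
    Flat k (fun q => f (τ q)) z' := by
  cases k with
  | zero => exact flat_zero_iff.2 (h.tendsto.comp hτ.continuousAt)
  | succ k => exact h.comp (hτ.differentiableAt (by simp))

/-- the linear map `a ↦ jet (q ↦ L q (poly a (θ q)))` -/
def jetL (k : ℕ) (θ : V → V') (L : V → W →L[ℝ] W') : Jet k V' W →L[ℝ] Jet k V W' :=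
  ContinuousLinearMap.pi fun i =>
    (ContinuousMultilinearMap.flipLinear
      (iteratedFDeriv ℝ i (fun q => L q ∘L polyL k V' W (θ q)) 0) :
        Jet k V' W →L[ℝ] V [×(i : ℕ)]→L[ℝ] W')

theorem jetL_apply {θ : V → V'} {L : V → W →L[ℝ] W'} (hθ : ContDiffAt ℝ k θ 0)
    (hL : ContDiffAt ℝ k L 0) (a : Jet k V' W) :
    jetL k θ L a = jet k (fun q => L q (poly a (θ q))) 0 := by
  funext i
  ext v
  have h1 : ContDiffAt ℝ k (fun q => L q ∘L polyL k V' W (θ q)) 0 :=
    hL.clm_comp ((contDiff_polyL.contDiffAt.of_le (by exact_mod_cast le_top)).comp 0 hθ)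
  have h2 := (ContinuousLinearMap.apply ℝ W' a).iteratedFDeriv_comp_left h1 (cast_le i.is_le)
  simp only [← polyL_apply]
  exact (DFunLike.congr_fun h2 v).symm
theorem JetBx.jet_comp {θ : V → V'} {L : V → W →L[ℝ] W'} (hθ : ContDiffAt ℝ k θ 0)
    (hL : ContDiffAt ℝ k L 0) (h0 : θ 0 = 0) {f g : V' → W} (hf : ContDiffAt ℝ k f 0)
    (hg : ContDiffAt ℝ k g 0) (h : Flat k (fun q => f q - g q) 0) :
    jet k (fun q => L q (f (θ q))) 0 = jet k (fun q => L q (g (θ q))) 0 := by
  rw [← h0] at hf hg h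
  refine (jet_eq_iff (hL.clm_apply (hf.comp 0 hθ)) (hL.clm_apply (hg.comp 0 hθ))).2 ?_
  simpa only [map_sub, ContinuousLinearMap.id_apply, Function.comp_apply] using
    (h.comp' hθ).bilin_right (ContinuousLinearMap.id ℝ (W →L[ℝ] W')) hL.continuousAt
/-- transport of the jet of a map -/
theorem jetL_jet {θ : V → V'} {L : V → W →L[ℝ] W'} (hθ : ContDiffAt ℝ k θ 0)
    (hL : ContDiffAt ℝ k L 0) (h0 : θ 0 = 0) {f : V' → W} (hf : ContDiffAt ℝ k f 0) :
    jetL k θ L (jet k f 0) = jet k (fun q => L q (f (θ q))) 0 := by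
  rw [jetL_apply hθ hL]
  refine (jet_comp hθ hL h0 hf (contDiffAt_poly _ _ _) ?_).symm
  simpa only [sub_zero] using flat_taylor hf
theorem trunc_jetL (h : k ≤ K) {θ : V → V'} {L : V → W →L[ℝ] W'} (hθ : ContDiffAt ℝ K θ 0)
    (hL : ContDiffAt ℝ K L 0) (h0 : θ 0 = 0) (a : Jet K V' W) :
    trunc h (jetL K θ L a) = jetL k θ L (trunc h a) := by
  have hθ' := hθ.of_le (cast_le h)
  have hL' := hL.of_le (cast_le h)
  rw [jetL_apply hθ hL, trunc_jet, jetL_apply hθ' hL']
  exact jet_comp hθ' hL' h0 (contDiffAt_poly _ _ _) (contDiffAt_poly _ _ _) (flat_poly_trunc h a)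
theorem continuousOn_jetL {Z : Type} [TopologicalSpace Z] {θ : Z → V → V'}
    {L : Z → V → W →L[ℝ] W'} {T : Set (Z × V)} (hθ : Vale.Agent.P207.N3.JC θ T)
    (hL : Vale.Agent.P207.N3.JC L T) (k : ℕ) :
    ContinuousOn (fun x => jetL k (θ x) (L x)) {x | (x, 0) ∈ T} := by
  have h1 := hL.clm_comp (hθ.comp_contDiff (contDiff_polyL (k := k) (W := W)))
  have h2 : ContinuousOn (fun x (i : Fin (k + 1)) => (ContinuousMultilinearMap.flipLinear
      (iteratedFDeriv ℝ i (fun q => L x q ∘L polyL k V' W (θ x q)) 0) :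
        Jet k V' W →L[ℝ] V [×(i : ℕ)]→L[ℝ] W')) {x | (x, 0) ∈ T} := continuousOn_pi.2 fun i => ?_
  · exact (ContinuousLinearMap.piEquivL ℝ (Jet k V' W)
      fun i : Fin (k + 1) => V [×(i : ℕ)]→L[ℝ] W').continuous.comp_continuousOn h2
  exact (ContinuousLinearMap.flipMultilinearEquiv ℝ (fun _ : Fin i => V) (Jet k V' W)
    W').symm.continuous.comp_continuousOn ((h1.cont i).comp (f := fun x : Z => (x, (0 : V)))
      (by fun_prop) fun _ hx => hx)

end Vale.Agent.P207Z
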