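import Vale.Agent.P207Z.Calc

/-!
# P207: extension of kernels
-/

open Set Filter Topology Metric Asymptotics
open scoped ContDiff

noncomputable section

namespace Vale.Agent.P207Z

variable {V F G : Type} [NormedAddCommGroup V] [NormedSpace ℝ V]
  [NormedAddCommGroup F] [NormedSpace ℝ F] [NormedAddCommGroup G] [NormedSpace ℝ G]

/-- Projections with a uniform bound. -/
theorem exists_proj (F : Type) [NormedAddCommGroup F] [NormedSpace ℝ F] [FiniteDimensional ℝ F] :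
    ∃ C : ℕ, ∀ K : Submodule ℝ F, ∃ P : F →L[ℝ] F, (∀ v, P v ∈ K) ∧ (∀ v ∈ K, P v = v) ∧
      ‖P‖ ≤ C := by
  let e := toEuclidean (E := F)
  obtain ⟨C, hC⟩ := exists_nat_ge (‖e.symm.toContinuousLinearMap‖ * ‖e.toContinuousLinearMap‖)
  refine ⟨C, fun K => ⟨e.symm.toContinuousLinearMap ∘L
    (K.map e.toLinearEquiv.toLinearMap).starProjection ∘L e.toContinuousLinearMap,
    fun v => ?_, fun v hv => ?_, le_trans ?_ hC⟩⟩
  · obtain ⟨w, hw, h⟩ := (K.map e.toLinearEquiv.toLinearMap).starProjection_apply_mem (e v)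
    change e.symm ((K.map e.toLinearEquiv.toLinearMap).starProjection (e v)) ∈ K
    rw [← h]
    exact (e.symm_apply_apply w).symm ▸ hw
  · change e.symm ((K.map e.toLinearEquiv.toLinearMap).starProjection (e v)) = v
    have h : e v ∈ K.map e.toLinearEquiv.toLinearMap := ⟨v, hv, rfl⟩
    rw [Submodule.starProjection_eq_self_iff.2 h, e.symm_apply_apply]
  · refine (ContinuousLinearMap.opNorm_comp_le _ _).trans (mul_le_mul_of_nonneg_left
      ((ContinuousLinearMap.opNorm_comp_le _ _).trans ?_) (norm_nonneg _))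
    exact mul_le_of_le_one_left (norm_nonneg _) (Submodule.starProjection_norm_le _)

/-- A projection on the kernel and a one-sided inverse, with uniform bounds. -/
theorem exists_split [FiniteDimensional ℝ F] [FiniteDimensional ℝ G] (n : ℕ) :
    ∃ N ≥ n, ∀ A : F →L[ℝ] G, (∀ v, infDist v (A.ker : Set F) ≤ n * ‖A v‖) →
      ∃ (P : F →L[ℝ] F) (R : G →L[ℝ] F), P.range = A.ker ∧ P * P = P ∧ P ∘L R = 0 ∧
        P + R ∘L A = 1 ∧ ‖P‖ ≤ N ∧ ‖R‖ ≤ N := by
  obtain ⟨C, hC⟩ := exists_proj F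
  obtain ⟨D, hD⟩ := exists_proj G
  refine ⟨n + C + (1 + C) * n * D, by omega, fun A hA => ?_⟩
  obtain ⟨P, p1, p2, p3⟩ := hC A.ker
  obtain ⟨Q, q1, q2, q3⟩ := hD A.range
  have pp : ∀ v, P (P v) = P v := fun v => p2 _ (p1 v)
  have h1 : A.ker ≤ (1 - P : F →L[ℝ] F).ker := fun v hv => sub_eq_zero.2 (p2 v hv).symm
  obtain ⟨L, hL⟩ := LinearMap.exists_extend
    (A.ker.liftQ _ h1 ∘ₗ (A : F →ₗ[ℝ] G).quotKerEquivRange.symm.toLinearMap)
  have h2 : ∀ v, L (A v) = v - P v := fun v => by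
    exact (LinearMap.congr_fun hL ⟨A v, v, rfl⟩).trans (congrArg (A.ker.liftQ _ h1)
      ((A : F →ₗ[ℝ] G).quotKerEquivRange_symm_apply_image v ⟨v, rfl⟩))
  have h3 : ∀ v, ‖v - P v‖ ≤ (1 + C) * (n * ‖A v‖) := fun v => by
    have h4 : (0 : ℝ) < 1 + C := by positivity
    refine le_trans ?_ (mul_le_mul_of_nonneg_left (hA v) h4.le)
    rw [← div_le_iff₀' h4]
    refine (le_infDist ⟨0, A.ker.zero_mem⟩).2 fun u hu => ?_
    have h5 : v - P v = (v - u) - P (v - u) := by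
      rw [map_sub, p2 u hu]
      abel
    rw [div_le_iff₀' h4, dist_eq_norm, h5, add_mul, one_mul]
    exact (norm_sub_le _ _).trans (add_le_add le_rfl (P.le_of_opNorm_le p3 _))
  have hn : (0 : ℝ) ≤ (1 + C) * n * D := by positivity
  refine ⟨P, LinearMap.toContinuousLinearMap L ∘L Q, le_antisymm ?_ fun v hv => ⟨v, p2 v hv⟩,
    ContinuousLinearMap.ext pp, ContinuousLinearMap.ext fun g => ?_,
    ContinuousLinearMap.ext fun v => ?_, p3.trans ?_,
    (ContinuousLinearMap.opNorm_le_bound _ hn fun g => ?_).trans ?_⟩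
  · rintro _ ⟨v, rfl⟩
    exact p1 v
  · obtain ⟨v, hv⟩ := q1 g
    change P (L (Q g)) = 0
    rw [← hv]
    exact (congrArg P (h2 v)).trans (by rw [map_sub, pp, sub_self])
  · change P v + L (Q (A v)) = v
    rw [q2 (A v) ⟨v, rfl⟩, h2, add_sub_cancel]
  · push_cast
    linarith [Nat.cast_nonneg (α := ℝ) n]
  · obtain ⟨v, hv⟩ := q1 g
    have h4 : ‖A v‖ ≤ D * ‖g‖ := (congrArg norm hv).trans_le (Q.le_of_opNorm_le q3 g)
    change ‖L (Q g)‖ ≤ _
    rw [← hv]
    refine (congrArg norm (h2 v)).trans_le ((h3 v).trans ?_)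
    rw [mul_assoc, mul_assoc]
    gcongr
  · push_cast
    linarith [Nat.cast_nonneg (α := ℝ) n, Nat.cast_nonneg (α := ℝ) C]

theorem kerx' [FiniteDimensional ℝ F] [FiniteDimensional ℝ G] (k n : ℕ) :
    ∃ n' ≥ n, ∀ (M : V → F →L[ℝ] G), CkB (k + 1) n M →
      (∀ v, infDist v ((M 0).ker : Set F) ≤ n * ‖M 0 v‖) →
      ∃ P : V → F →L[ℝ] F, Prj (k + 1) n' P ∧ (P 0).range = (M 0).ker ∧
        ∀ q ∈ ball (0 : V) (rad n'), ∀ v, ‖v - P q v‖ ≤ n' * ‖M q v‖ := by
  have := FiniteDimensional.complete ℝ F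
  obtain ⟨N, hN, h0⟩ := exists_split (F := F) (G := G) n
  obtain ⟨n1, l1, h1⟩ := ckB_bilin (V := V) (ContinuousLinearMap.compL ℝ F G F) (k + 1) N
  obtain ⟨n2, l2, h2⟩ := ckB_map (V := V) (Φ := (Ring.inverse : (F →L[ℝ] F) → F →L[ℝ] F))
    (O := {x | IsUnit x}) (K := {1}) Units.isOpen (by
      rintro _ ⟨u, rfl⟩
      exact (contDiffAt_ringInverse ℝ u).contDiffWithinAt) isCompact_singleton
    (singleton_subset_iff.2 isUnit_one) k (2 * n1)
  obtain ⟨n3, l3, h3⟩ := ckB_bilin (V := V) (ContinuousLinearMap.compL ℝ F F F) (k + 1) n2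
  refine ⟨n3 + n2 * N, by omega, fun M hM hK => ?_⟩
  obtain ⟨P, R, p1, p2, p3, p4, p5, p6⟩ := h0 (M 0) hK
  have t1 : CkB (k + 1) (2 * n1) fun q => P + R ∘L M q :=
    ((CkB.const P p5).mono le_rfl l1).add (h1 _ _ (CkB.const R p6) (hM.mono le_rfl hN))
  obtain ⟨t2, t3⟩ := h2 _ t1 p4
  have t4 := h3 _ _ t2 ((CkB.const P p5).mono le_rfl (by omega))
  have hb : ball (0 : V) (rad (n3 + n2 * N)) ⊆ ball 0 (rad n2) :=
    ball_subset_ball (rad_anti (by omega))
  have e1 : ∀ q, P * (P + R ∘L M q) = P := fun q => by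
    rw [mul_add, p2]
    change P + (P ∘L R) ∘L M q = P
    rw [p3, ContinuousLinearMap.zero_comp, add_zero]
  refine ⟨fun q => Ring.inverse (P + R ∘L M q) * P, ⟨t4.mono le_rfl (by omega), fun q hq => ?_⟩,
    by simp only [p4, Ring.inverse_one, one_mul, p1], fun q hq v => ?_⟩
  · have h4 : P * Ring.inverse (P + R ∘L M q) = P := by
      have h5 := congrArg (· * Ring.inverse (P + R ∘L M q)) (e1 q)
      have h6 : IsUnit (P + R ∘L M q) := t3 (hb hq)
      simp only [mul_assoc, Ring.mul_inverse_cancel _ h6, mul_one] at h5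
      exact h5.symm
    rw [mul_assoc, ← mul_assoc P, h4, p2]
  · have h4 : v - (Ring.inverse (P + R ∘L M q) * P) v =
        Ring.inverse (P + R ∘L M q) (R (M q v)) := by
      have h5 := congrArg (fun X : F →L[ℝ] F => X v) (Ring.inverse_mul_cancel _ (t3 (hb hq)))
      change Ring.inverse (P + R ∘L M q) (P v + R (M q v)) = v at h5
      rw [map_add] at h5
      exact sub_eq_of_eq_add' h5.symm
    rw [h4]
    refine (ContinuousLinearMap.le_of_opNorm_le_of_le _ (t2.norm_le (hb hq))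
      (R.le_of_opNorm_le p6 _)).trans ?_
    push_cast
    rw [← mul_assoc]
    gcongr
    linarith [Nat.cast_nonneg (α := ℝ) n3]

end Vale.Agent.P207Z
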