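import Vale.Agent.P207Z.JetB
import Vale.Agent.P207Z.Kerx

/-!
# P207: the slice lemma, extension of kernels
-/

open Set Filter Topology Metric Asymptotics
open scoped ContDiff

noncomputable section

namespace Vale.Agent.P207Z

variable {V W F G : Type} [NormedAddCommGroup V] [NormedSpace ℝ V] [NormedAddCommGroup W]
  [NormedSpace ℝ W] [NormedAddCommGroup F] [NormedSpace ℝ F] [NormedAddCommGroup G]
  [NormedSpace ℝ G] {r : ℕ} {g : V → W}

theorem iteratedFDeriv_affine {E : Type} [NormedAddCommGroup E] [NormedSpace ℝ E] (L : E →L[ℝ] V)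
    (c : V) {s : Set V} (hs : IsOpen s) {m : ℕ} (hg : ContDiffOn ℝ m g s) {a : E}
    (ha : c + L a ∈ s) {i : ℕ} (hi : i ≤ m) : iteratedFDeriv ℝ i (fun a => g (c + L a)) a =
      (iteratedFDeriv ℝ i g (c + L a)).compContinuousLinearMap fun _ => L := by
  have h1 : IsOpen ((fun q => c + q) ⁻¹' s) := hs.preimage (continuous_const.add continuous_id)
  have h2 := h1.preimage L.continuous
  have h3 : ContDiffOn ℝ m (fun q => g (c + q)) ((fun q => c + q) ⁻¹' s) :=
    hg.comp (contDiff_const.add contDiff_id).contDiffOn (mapsTo_preimage _ _)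
  have h4 := L.iteratedFDerivWithin_comp_right h3 h1.uniqueDiffOn h2.uniqueDiffOn (x := a) ha
    (i := i) (by exact_mod_cast hi)
  rwa [iteratedFDerivWithin_of_isOpen _ h2 ha, iteratedFDerivWithin_of_isOpen _ h1 ha,
    iteratedFDeriv_comp_add_left] at h4

/-- **The slice lemma.** `iS`, `iU` are the two axes of `V`. -/
theorem slice {E : Type} [NormedAddCommGroup E] [NormedSpace ℝ E] (iS iU : E →L[ℝ] V)
    (pS pU : V →L[ℝ] E) (hs : ∀ z, iS (pS z) + iU (pU z) = z) {ρ : ℝ} (hρ : 0 < ρ)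
    (hg : ContDiffOn ℝ (r + 1 : ℕ) g (ball 0 ρ))
    (hS : ∀ O : Set E, IsOpen O → O.Nonempty → (∀ w ∈ O, iS w ∈ ball (0 : V) ρ) →
      ∃ w ∈ O, Flat r g (iS w))
    (hU : Flat (r + 1) (fun a => g (iU a)) 0) : Flat (r + 1) g 0 := by
  have ca : ∀ q ∈ ball (0 : V) ρ, ContDiffAt ℝ (r + 1 : ℕ) g q := fun q hq =>
    hg.contDiffAt (isOpen_ball.mem_nhds hq)
  have h1 : ∀ w, iS w ∈ ball (0 : V) ρ → ∀ i ≤ r, iteratedFDeriv ℝ i g (iS w) = 0 := by
    intro w hw i hi
    by_contra h0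
    have h2 : ContinuousOn (fun w => iteratedFDeriv ℝ i g (iS w)) (iS ⁻¹' ball 0 ρ) :=
      fun w hw => (((ca _ hw).continuousAt_iteratedFDeriv (by exact_mod_cast hi.trans r.le_succ)).comp
        iS.continuous.continuousAt).continuousWithinAt
    obtain ⟨u, hu, h3⟩ := hS _ (h2.isOpen_inter_preimage (isOpen_ball.preimage iS.continuous)
      (isOpen_compl_singleton (x := 0))) ⟨w, hw, h0⟩ fun _ hu => hu.1
    exact hu.2 (congrFun ((flat_iff_jet ((ca _ hu.1).of_le (by exact_mod_cast r.le_succ))).1 h3)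
      ⟨i, Nat.lt_succ_of_le hi⟩)
  have h0 : (0 : V) + iU 0 ∈ ball (0 : V) ρ := by simpa using hρ
  have h2 : (iteratedFDeriv ℝ (r + 1) g 0).compContinuousLinearMap (fun _ => iU) = 0 := by
    have h3 := iteratedFDeriv_affine iU 0 isOpen_ball hg h0 le_rfl
    simp only [zero_add, map_zero] at h3
    rw [← h3]
    refine congrFun ((flat_iff_jet ?_).1 hU) (Fin.last _)
    exact ContDiffAt.comp (g := g) 0 (ca _ (by simpa using hρ)) iU.contDiff.contDiffAt
  refine isLittleO_iff.2 fun ε hε => ?_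
  obtain ⟨A, hA, a1⟩ : ∃ A : ℝ, 0 < A ∧ (‖iU‖ * ‖pU‖) ^ (r + 1) ≤ A :=
    ⟨_, by positivity, le_add_of_nonneg_right zero_le_one⟩
  obtain ⟨δ, hδ, h3⟩ := Metric.eventually_nhds_iff_ball.1
    ((Metric.tendsto_nhds.1 ((ca 0 (mem_ball_self hρ)).continuousAt_iteratedFDeriv (k := r + 1)
      le_rfl) (ε / A) (by positivity)).and (ball_mem_nhds (0 : V) hρ))
  obtain ⟨η, hη, h4⟩ := Metric.eventually_nhds_iff_ball.1
    (iU.continuous.continuousAt.preimage_mem_nhds (x := 0) (t := ball 0 (δ / 2))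
      (by rw [map_zero]; exact ball_mem_nhds _ (half_pos hδ)))
  have h5 : ∀ᶠ z in 𝓝 (0 : V), iS (pS z) ∈ ball (0 : V) (δ / 2) :=
    (iS ∘L pS).continuous.continuousAt.preimage_mem_nhds
      (by rw [map_zero]; exact ball_mem_nhds _ (half_pos hδ))
  have h6 : ∀ᶠ z in 𝓝 (0 : V), pU z ∈ ball (0 : E) η :=
    pU.continuous.continuousAt.preimage_mem_nhds (by rw [map_zero]; exact ball_mem_nhds _ hη)
  filter_upwards [h5, h6] with z z1 z2
  have h7 : ∀ a ∈ ball (0 : E) η, iS (pS z) + iU a ∈ ball (0 : V) δ := fun a ha => by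
    have h8 : iU a ∈ ball (0 : V) (δ / 2) := h4 a ha
    rw [mem_ball_zero_iff] at z1 h8 ⊢
    linarith [norm_add_le (iS (pS z)) (iU a)]
  have h8 : iS (pS z) + iU 0 ∈ ball (0 : V) ρ := (h3 _ (h7 0 (mem_ball_self hη))).2
  have h9 := deriv_bound_of_jet (f := fun a => g (iS (pS z) + iU a)) (k := r) (z := 0) (ρ := η)
    (C := ε / A * ‖iU‖ ^ (r + 1))
    (hg.comp (contDiff_const.add iU.contDiff).contDiffOn fun a ha => (h3 _ (h7 a ha)).2)
    (funext fun i => by
      have h9 := h8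
      rw [map_zero, add_zero] at h9
      change iteratedFDeriv ℝ i _ 0 = 0
      rw [iteratedFDeriv_affine iU _ isOpen_ball hg h8 i.2.le, map_zero, add_zero,
        h1 _ h9 i (Nat.le_of_lt_succ i.2)]
      rfl)
    (fun a ha => by
      have h9 := (h3 _ (h7 a ha)).1
      have e : ∀ X Y : V [×(r + 1)]→L[ℝ] W, (X - Y).compContinuousLinearMap (fun _ => iU) =
          X.compContinuousLinearMap (fun _ => iU) - Y.compContinuousLinearMap fun _ => iU :=
        fun _ _ => rfl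
      rw [dist_eq_norm] at h9
      rw [iteratedFDeriv_affine iU _ isOpen_ball hg (h3 _ (h7 a ha)).2 le_rfl,
        ← sub_zero (ContinuousMultilinearMap.compContinuousLinearMap _ _), ← h2, ← e]
      refine (ContinuousMultilinearMap.norm_compContinuousLinearMap_le _ _).trans ?_
      rw [Finset.prod_const, Finset.card_univ, Fintype.card_fin]
      gcongr)
    (Nat.zero_le _) z2
  rw [norm_iteratedFDeriv_zero, hs, sub_zero, Nat.sub_zero] at h9
  rw [sub_zero, norm_pow, norm_norm]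
  refine h9.trans ?_
  calc ε / A * ‖iU‖ ^ (r + 1) * ‖pU z‖ ^ (r + 1)
      ≤ ε / A * ‖iU‖ ^ (r + 1) * (‖pU‖ * ‖z‖) ^ (r + 1) := by
        gcongr
        exact pU.le_opNorm z
    _ = ε / A * (‖iU‖ * ‖pU‖) ^ (r + 1) * ‖z‖ ^ (r + 1) := by ring
    _ ≤ ε / A * A * ‖z‖ ^ (r + 1) := by gcongr
    _ = ε * ‖z‖ ^ (r + 1) := by rw [div_mul_cancel₀ _ hA.ne']

/-- **Extension of a kernel.** -/
theorem kerx [FiniteDimensional ℝ F] [FiniteDimensional ℝ G] (k n : ℕ) :
    ∃ n' ≥ n, ∀ (M : V → F →L[ℝ] G), CkB (k + 1) n M →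
      (∀ v, infDist v ((M 0).ker : Set F) ≤ n * ‖M 0 v‖) →
      ∃ P : V → F →L[ℝ] F, Prj (k + 1) n' P ∧ (P 0).range = (M 0).ker ∧
        ∀ q ∈ ball (0 : V) (rad n'), ∀ v, ‖v - P q v‖ ≤ n' * ‖M q v‖ := kerx' k n

end Vale.Agent.P207Z
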