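import Vale.Agent.P207Z.Dyn
import Vale.Agent.P207Z.JetC

/-!
# P207: natural bundles (block BUN), reversal of the system
-/

set_option linter.all false

open Set Filter Topology Metric MeasureTheory Asymptotics
open scoped ContDiff

noncomputable section

namespace Vale.Agent.P207Z

open Vale.Agent.P207.N3 (JC)

variable {Γ X B E V : Type} [Group Γ] [Countable Γ] [MetricSpace X] [ProperSpace X]
  [MulAction Γ X] [IsIsometricSMul Γ X] [MeasurableSpace X] [BorelSpace X]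
  [TopologicalSpace B] [CompactSpace B] [T2Space B] [SecondCountableTopology B] [MulAction Γ B]
  [ContinuousConstSMul Γ B] [MeasurableSpace B] [BorelSpace B]
  [NormedAddCommGroup E] [InnerProductSpace ℝ E] [FiniteDimensional ℝ E]
  [NormedAddCommGroup V] [NormedSpace ℝ V] [FiniteDimensional ℝ V]
  {F G W : Type} [NormedAddCommGroup F] [NormedSpace ℝ F] [FiniteDimensional ℝ F]
  [NormedAddCommGroup G] [NormedSpace ℝ G] [FiniteDimensional ℝ G]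
  [NormedAddCommGroup W] [NormedSpace ℝ W]
  {F' : Type} [NormedAddCommGroup F'] [NormedSpace ℝ F'] [FiniteDimensional ℝ F']

variable {S : Sys Γ X B E V}

theorem Sys.jc_swap {f : X → X → V → W} (h : JC (fun (p : X × X) q => f p.1 p.2 q) S.Dm) :
    JC (fun (p : X × X) q => f p.2 p.1 (S.τ p.1 p.2 q)) S.Dm :=
  (h.pullback continuous_swap).comp' Sys.jc_τ fun _ hp => Sys.τ_dom hp

theorem Sys.smul_swap {f : X → X → V → W} {g : Γ} {x y : X} {q : V}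
    (h : ∀ x y, ∀ q ∈ S.dom x y, f (g • x) (g • y) q = f x y q) (hq : q ∈ S.dom x y) :
    f (g • y) (g • x) (S.τ (g • x) (g • y) q) = f y x (S.τ x y q) := by
  rw [Sys.τ_smul g hq, h y x _ (Sys.τ_dom hq)]

theorem Sys.fderiv_τ_smul (g : Γ) (x y : X) (q : V) (h : q ∈ S.dom x y) :
    fderiv ℝ (S.τ (g • x) (g • y)) q = fderiv ℝ (S.τ x y) q :=
  EventuallyEq.fderiv_eq (mem_of_superset (Sys.dom_nhds h) fun _ h' => Sys.τ_smul g h')

/-- a small ball in the chart of `y` lies in a given ball in the chart of `x` -/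
theorem Sys.ball_sub (S : Sys Γ X B E V) (D : ℝ) (n : ℕ) : ∃ n' ≥ n, ∀ x y, S.pt x = S.pt y →
    dist x y ≤ D → ∀ q ∈ ball (0 : V) (rad n'), q ∈ S.dom y x ∧ S.τ y x q ∈ ball 0 (rad n) := by
  obtain ⟨m, hm⟩ := S.unif_ckB Sys.jc_τ (fun g x y q h => Sys.τ_smul g h) D 1
  obtain ⟨n', h1, h2⟩ := ckB_comp (V := V) (V' := V) (W := ℝ) 0 (max m n)
  refine ⟨n', (le_max_right _ _).trans h1, fun x y hp hd q hq => ?_⟩
  obtain ⟨h3, h4⟩ := hm y x (dist_comm x y ▸ hd) hp.symm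
  exact ⟨h3 (ball_subset_ball (rad_anti ((le_max_left _ _).trans h1)) hq),
    ball_subset_ball (rad_anti (le_max_right _ _)) ((h2 (fun _ => 0) _ (CkB.const 0 (by simp))
      (h4.mono le_rfl (le_max_left _ _)) (Sys.τ_zero hp.symm)).2 hq)⟩

namespace Bun

variable (𝔉 : Bun S F) (𝔊 : Bun S G) {x y z : X} {q : V}

theorem inv (h : q ∈ S.dom x y) : 𝔉.A y x (S.τ x y q) * 𝔉.A x y q = 1 :=
  (𝔉.coc x y x q h (Sys.dom_self (Sys.dom_ball h))).trans (𝔉.self x q (Sys.dom_ball h))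
theorem inv' (h : q ∈ S.dom x y) : 𝔉.A x y q * 𝔉.A y x (S.τ x y q) = 1 := by
  simpa only [Sys.τ_τ h] using 𝔉.inv (Sys.τ_dom h)
theorem contDiffAt (h : q ∈ S.dom x y) : ContDiffAt ℝ ∞ (𝔉.A x y) q :=
  𝔉.jc.contDiffAt (p := ((x, y), q)) h
theorem continuousAt (h : q ∈ S.dom x y) : ContinuousAt (𝔉.A x y) q :=
  (𝔉.contDiffAt h).continuousAt
theorem jc_inv : JC (fun (p : X × X) q => 𝔉.A p.2 p.1 (S.τ p.1 p.2 q)) S.Dm :=
  Sys.jc_swap 𝔉.jc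
theorem coc_inv (h : q ∈ S.dom x y) (h' : q ∈ S.dom x z) :
    𝔉.A y x (S.τ x y q) * 𝔉.A z y (S.τ y z (S.τ x y q)) = 𝔉.A z x (S.τ x z q) := by
  have := 𝔉.coc z y x _ (Sys.τ_dom' h' h) (Sys.τ_dom h')
  rwa [Sys.τ_trans h h', ← Sys.τ_trans h' h]

/-- the cocycle at the centres -/
def coc0 : Coc0 S F where
  Φ x y := 𝔉.A x y 0
  cont := 𝔉.jc.continuousOn.comp (f := fun p : X × X => (p, (0 : V))) (by fun_prop)
    fun _ hp => Sys.zero_dom hp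
  coc x y z h h' := by
    simpa only [Sys.τ_zero h] using 𝔉.coc x y z 0 (Sys.zero_dom h) (Sys.zero_dom h')
  smul g x y h := 𝔉.smul g x y 0 (Sys.zero_dom h)

theorem pull_self (x : X) (M : V → F →L[ℝ] G) : 𝔉.pull x x M =ᶠ[𝓝 0] M := by
  filter_upwards [ball_mem_nhds (0 : V) one_pos] with q hq
  rw [pull, Sys.τ_self hq, 𝔉.self x q hq]
  rfl
theorem pull_pull {M : V → F →L[ℝ] G} (h : (0 : V) ∈ S.dom z y) (h' : (0 : V) ∈ S.dom z x) :
    𝔉.pull z y (𝔉.pull y x M) =ᶠ[𝓝 0] 𝔉.pull z x M := by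
  filter_upwards [Sys.dom_nhds h, Sys.dom_nhds h'] with q h h'
  rw [pull, pull, pull, Sys.τ_trans h h', ← 𝔉.coc z y x q h h']
  rfl
theorem pull_smul (g : Γ) {M : V → F →L[ℝ] G} (h : (0 : V) ∈ S.dom y x) :
    𝔉.pull (g • y) (g • x) M =ᶠ[𝓝 0] 𝔉.pull y x M := by
  filter_upwards [Sys.dom_nhds h] with q h
  rw [pull, pull, Sys.τ_smul g h, 𝔉.smul g y x q h]
theorem dom_pull {k : ℕ} {M : V → F →L[ℝ] G} {M' : V → F →L[ℝ] W} (h : Dom k M M')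
    (hp : S.pt y = S.pt x) : Dom k (𝔉.pull y x M) (𝔉.pull y x M') :=
  h.pull (Sys.differentiableAt_τ (Sys.zero_dom hp)) (Sys.τ_zero hp)
    (𝔉.continuousAt (Sys.zero_dom hp))
theorem eqv_pull {k : ℕ} {M : V → F →L[ℝ] G} {M' : V → F →L[ℝ] W} (h : Eqv k M M')
    (hp : S.pt y = S.pt x) : Eqv k (𝔉.pull y x M) (𝔉.pull y x M') :=
  h.pull (Sys.differentiableAt_τ (Sys.zero_dom hp)) (Sys.τ_zero hp)
    (𝔉.continuousAt (Sys.zero_dom hp))
/-- a field of projections read in another chart -/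
def conj (y x : X) (P : V → F →L[ℝ] F) (q : V) : F →L[ℝ] F :=
  𝔉.A x y (S.τ y x q) * P (S.τ y x q) * 𝔉.A y x q
theorem eqv_conj {k : ℕ} (P : V → F →L[ℝ] F) (h : (0 : V) ∈ S.dom y x) :
    Eqv k (cmp (𝔉.conj y x P)) (𝔉.pull y x (cmp P)) := by
  refine ⟨((Dom.refl _).left (𝔉.jc_inv.contDiffAt (p := ((y, x), 0)) h).continuousAt).congr ?_
    EventuallyEq.rfl, ((Dom.refl _).left (𝔉.continuousAt h)).congr ?_ EventuallyEq.rfl⟩ <;>
    filter_upwards [Sys.dom_nhds h] with q hq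
  · show 1 - _ * _ * _ = 𝔉.A x y (S.τ y x q) * ((1 - P (S.τ y x q)) * 𝔉.A y x q)
    rw [sub_mul, mul_sub, one_mul, 𝔉.inv hq, mul_assoc]
  · show (1 - P (S.τ y x q)) * 𝔉.A y x q = 𝔉.A y x q * (1 - _ * _ * _)
    rw [mul_sub, ← mul_assoc, ← mul_assoc, 𝔉.inv' hq, sub_mul, one_mul, one_mul, mul_one]
theorem ckB_pull (D : ℝ) (k n : ℕ) : ∃ n' ≥ n, ∀ x y, S.pt x = S.pt y → dist x y ≤ D →
    ∀ M : V → F →L[ℝ] G, CkB k n M → CkB k n' (𝔉.pull y x M) := by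
  obtain ⟨m, hm⟩ := S.unif_ckB Sys.jc_τ (fun g x y q h => Sys.τ_smul g h) D (k + 1)
  obtain ⟨m', hm'⟩ := S.unif_ckB 𝔉.jc 𝔉.smul D k
  obtain ⟨n₁, h1, h2⟩ := ckB_comp (V := V) (V' := V) (W := F →L[ℝ] G) k (max m n)
  obtain ⟨n₂, h3, h4⟩ := ckB_bilin (V := V) (ContinuousLinearMap.compL ℝ F F G) k (max m' n₁)
  refine ⟨n₂, by omega, fun x y hp hd M hM => ?_⟩
  rw [dist_comm] at hd
  exact h4 _ _ ((h2 M _ (hM.mono le_rfl (le_max_right _ _)) ((hm y x hd hp.symm).2.mono le_rfl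
    (le_max_left _ _)) (Sys.τ_zero hp.symm)).1.mono le_rfl (le_max_right _ _))
    ((hm' y x hd hp.symm).2.mono le_rfl (le_max_left _ _))
/-- change of the frame over one geodesic -/
theorem prj_conj (D : ℝ) (k n : ℕ) : ∃ n' ≥ n, ∀ x y, S.pt x = S.pt y → dist x y ≤ D →
    ∀ P, Prj k n P → Prj k n' (𝔉.conj y x P) := by
  obtain ⟨n₁, h1, h2⟩ := 𝔉.ckB_pull (G := F) D k n
  obtain ⟨m, hm⟩ := S.unif_ckB 𝔉.jc_inv (fun g x y q h => Sys.smul_swap (𝔉.smul g) h) D k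
  obtain ⟨n₂, h3, h4⟩ := ckB_bilin (V := V) (ContinuousLinearMap.compL ℝ F F F) k (max m n₁)
  obtain ⟨n₃, h5, h6⟩ := S.ball_sub D n
  refine ⟨max n₂ n₃, by omega, fun x y hp hd P hP => ⟨(h4 _ _
    ((hm y x (dist_comm x y ▸ hd) hp.symm).2.mono le_rfl (le_max_left _ _))
    ((h2 x y hp hd P hP.ckb).mono le_rfl (le_max_right _ _))).mono le_rfl (le_max_left _ _),
    fun q hq => ?_⟩⟩
  obtain ⟨h7, h8⟩ := h6 x y hp hd q (ball_subset_ball (rad_anti (le_max_right _ _)) hq)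
  simp only [conj, mul_assoc]
  rw [← mul_assoc (𝔉.A y x q), 𝔉.inv' h7, one_mul, ← mul_assoc (P _), hP.idem _ h8]
theorem ExtS.mono {k k' n n' : ℕ} {R : X → V → F →L[ℝ] G} {M : V → F →L[ℝ] G}
    (h : 𝔉.ExtS k n R x M) (hk : k' ≤ k) (hn : n ≤ n') : 𝔉.ExtS k' n' R x M :=
  ⟨fun y hy => (h.1 y hy).mono hk, h.2.mono (rad_anti hn) fun _ _ _ h => h.mono hk⟩
theorem ExtU.mono {k k' n n' : ℕ} {R : X → V → F →L[ℝ] G} {M : V → F →L[ℝ] G}
    (h : 𝔉.ExtU k n R x M) (hk : k' ≤ k) (hn : n ≤ n') : 𝔉.ExtU k' n' R x M :=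
  ⟨fun y hy => (h.1 y hy).mono hk, h.2.mono (rad_anti hn) fun _ _ _ h => h.mono hk⟩
theorem ext_aux (D : ℝ) (n : ℕ) : ∃ n' ≥ n, ∀ x y, S.pt x = S.pt y → dist x y ≤ D →
    ∀ z, S.pt z ∈ S.c y '' ball 0 (rad n') → S.pt z ∈ S.c x '' ball 0 (rad n) ∧
      ∀ M : V → F →L[ℝ] G, 𝔉.pull z y (𝔉.pull y x M) =ᶠ[𝓝 0] 𝔉.pull z x M := by
  obtain ⟨n', h1, h2⟩ := S.ball_sub D n
  refine ⟨n', h1, fun x y hp hd z ⟨q, hq, hz⟩ => ?_⟩
  obtain ⟨h3, h4⟩ := h2 x y hp hd q hq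
  exact ⟨⟨_, h4, (Sys.c_τ h3).trans hz⟩, fun M => 𝔉.pull_pull
    (Sys.zero_dom' (Sys.dom_ball h3) hz.symm)
    (Sys.zero_dom' (Sys.τ_ball h3) ((Sys.c_τ h3).trans hz).symm)⟩
theorem extS_pull (D : ℝ) (n : ℕ) : ∃ n' ≥ n, ∀ x y, S.pt x = S.pt y → dist x y ≤ D →
    ∀ (k : ℕ) (R : X → V → F →L[ℝ] G) (M : V → F →L[ℝ] G), 𝔉.ExtS k n R x M →
      𝔉.ExtS k n' R y (𝔉.pull y x M) := by
  obtain ⟨n', h1, h2⟩ := 𝔉.ext_aux (G := G) D n
  refine ⟨n', h1, fun x y hp hd k R M h => ⟨fun z hz => (h.1 z (hz.trans hp.symm)).congr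
    (𝔉.pull_pull (Sys.zero_dom hz) (Sys.zero_dom (hz.trans hp.symm))) EventuallyEq.rfl,
    Eventually.mono h.2 fun ξ h3 z hz h4 => ?_⟩⟩
  obtain ⟨h5, h6⟩ := h2 x y hp hd z h4
  exact (h3 z (by rw [hz, show S.ep x = S.ep y from congrArg Prod.snd hp]) h5).congr (h6 M)
    EventuallyEq.rfl
theorem extU_pull (D : ℝ) (n : ℕ) : ∃ n' ≥ n, ∀ x y, S.pt x = S.pt y → dist x y ≤ D →
    ∀ (k : ℕ) (R : X → V → F →L[ℝ] G) (M : V → F →L[ℝ] G), 𝔉.ExtU k n R x M →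
      𝔉.ExtU k n' R y (𝔉.pull y x M) := by
  obtain ⟨n', h1, h2⟩ := 𝔉.ext_aux (G := G) D n
  refine ⟨n', h1, fun x y hp hd k R M h => ⟨fun z hz => (h.1 z (hz.trans hp.symm)).congr
    (𝔉.pull_pull (Sys.zero_dom hz) (Sys.zero_dom (hz.trans hp.symm))) EventuallyEq.rfl,
    Eventually.mono h.2 fun ξ h3 z hz h4 => ?_⟩⟩
  obtain ⟨h5, h6⟩ := h2 x y hp hd z h4
  exact (h3 z (by rw [hz, show S.em x = S.em y from congrArg Prod.fst hp]) h5).congr (h6 M)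
    EventuallyEq.rfl
theorem smul_aux {k : ℕ} {R : X → V → F →L[ℝ] G} (hR : ∀ (g : Γ) x, R (g • x) = R x)
    {M : V → F →L[ℝ] G} (g : Γ) (h : (0 : V) ∈ S.dom y x)
    (h' : Eqv k (𝔉.pull (g • y) (g • x) M) (R (g • y))) : Eqv k (𝔉.pull y x M) (R y) :=
  hR g y ▸ h'.congr (𝔉.pull_smul g h).symm EventuallyEq.rfl
theorem smul_mem {n : ℕ} (g : Γ) (h : S.pt y ∈ S.c x '' ball 0 (rad n)) :
    (0 : V) ∈ S.dom y x ∧ S.pt (g • y) ∈ S.c (g • x) '' ball 0 (rad n) := by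
  obtain ⟨q, hq, h⟩ := h
  have h1 := ball_subset_ball (rad_le_one n) hq
  exact ⟨Sys.zero_dom' h1 h.symm, q, hq, by rw [S.c_smul g x q h1, h, S.pt_smul]⟩
theorem ae_smul_nu {Q : B → Prop} (g : Γ) (h : ∀ᵐ ξ ∂S.ν, Q ξ) : ∀ᵐ ξ ∂S.ν, Q (g • ξ) :=
  S.ν_smul g _ h
theorem extS_smul' {k n : ℕ} {R : X → V → F →L[ℝ] G} (hR : ∀ (g : Γ) x, R (g • x) = R x)
    {M : V → F →L[ℝ] G} (g : Γ) (h : 𝔉.ExtS k n R (g • x) M) : 𝔉.ExtS k n R x M :=
  ⟨fun y hy => 𝔉.smul_aux hR g (Sys.zero_dom hy) (h.1 _ ((S.pt_smul_iff g).2 hy)),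
    (ae_smul_nu g h.2).mono fun ξ h1 y hy h2 => 𝔉.smul_aux hR g (smul_mem g h2).1
      (h1 _ (by rw [S.pt_smul, hy, S.ep_smul]; rfl) (smul_mem g h2).2)⟩
theorem extU_smul' {k n : ℕ} {R : X → V → F →L[ℝ] G} (hR : ∀ (g : Γ) x, R (g • x) = R x)
    {M : V → F →L[ℝ] G} (g : Γ) (h : 𝔉.ExtU k n R (g • x) M) : 𝔉.ExtU k n R x M :=
  ⟨fun y hy => 𝔉.smul_aux hR g (Sys.zero_dom hy) (h.1 _ ((S.pt_smul_iff g).2 hy)),
    (ae_smul_nu g h.2).mono fun ξ h1 y hy h2 => 𝔉.smul_aux hR g (smul_mem g h2).1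
      (h1 _ (by rw [S.pt_smul, hy, S.em_smul]; rfl) (smul_mem g h2).2)⟩
theorem extS_smul {k n : ℕ} {R : X → V → F →L[ℝ] G} (hR : ∀ (g : Γ) x, R (g • x) = R x)
    {M : V → F →L[ℝ] G} (g : Γ) : 𝔉.ExtS k n R (g • x) M ↔ 𝔉.ExtS k n R x M :=
  ⟨𝔉.extS_smul' hR g, fun h => 𝔉.extS_smul' hR g⁻¹ (by rwa [inv_smul_smul])⟩
theorem extU_smul {k n : ℕ} {R : X → V → F →L[ℝ] G} (hR : ∀ (g : Γ) x, R (g • x) = R x)
    {M : V → F →L[ℝ] G} (g : Γ) : 𝔉.ExtU k n R (g • x) M ↔ 𝔉.ExtU k n R x M :=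
  ⟨𝔉.extU_smul' hR g, fun h => 𝔉.extU_smul' hR g⁻¹ (by rwa [inv_smul_smul])⟩

/-- homomorphisms -/
def hom : Bun S (F →L[ℝ] G) where
  A x y q := (ContinuousLinearMap.compL ℝ F G G (𝔊.A x y q)) ∘L
    ((ContinuousLinearMap.compL ℝ F F G).flip (𝔉.A y x (S.τ x y q)))
  jc := (𝔊.jc.clm _).clm_comp (𝔉.jc_inv.clm _)
  self x q hq := by
    rw [Sys.τ_self hq, 𝔉.self x q hq, 𝔊.self x q hq]
    rfl
  coc x y z q h h' := by
    rw [← 𝔊.coc x y z q h h', ← 𝔉.coc_inv h h']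
    rfl
  smul g x y q h := by rw [Sys.smul_swap (𝔉.smul g) h, 𝔊.smul g x y q h]

theorem hom_A (x y : X) (q : V) (T : F →L[ℝ] G) :
    (𝔉.hom 𝔊).A x y q T = 𝔊.A x y q ∘L T ∘L 𝔉.A y x (S.τ x y q) := rfl

/-- direct sum -/
def prod : Bun S (F × G) where
  A x y q := (𝔉.A x y q).prodMap (𝔊.A x y q)
  jc := (𝔉.jc.prodMk 𝔊.jc).clm (ContinuousLinearMap.prodMapL ℝ F F G G)
  self x q hq := by
    rw [𝔉.self x q hq, 𝔊.self x q hq]
    rfl
  coc x y z q h h' := by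
    rw [← 𝔊.coc x y z q h h', ← 𝔉.coc x y z q h h']
    rfl
  smul g x y q h := by rw [𝔉.smul g x y q h, 𝔊.smul g x y q h]

end Bun

/-- the first prolongation of a family of linear maps: `(s q, D s q) ↦ (P q (s q), D (P s) q)` -/
def j1 (P : V → F →L[ℝ] G) (q : V) : F × (V →L[ℝ] F) →L[ℝ] G × (V →L[ℝ] G) :=
  (P q ∘L ContinuousLinearMap.fst ℝ F (V →L[ℝ] F)).prod
    ((fderiv ℝ P q).flip ∘L ContinuousLinearMap.fst ℝ F (V →L[ℝ] F)
      + ContinuousLinearMap.compL ℝ V F G (P q) ∘L ContinuousLinearMap.snd ℝ F (V →L[ℝ] F))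

theorem j1_apply (P : V → F →L[ℝ] G) (q : V) (v : F) (L : V →L[ℝ] F) :
    j1 P q (v, L) = (P q v, (fderiv ℝ P q).flip v + P q ∘L L) := rfl
theorem j1_jet {P : V → F →L[ℝ] G} {s : V → F} {q : V} (hP : DifferentiableAt ℝ P q)
    (hs : DifferentiableAt ℝ s q) :
    j1 P q (s q, fderiv ℝ s q) = (P q (s q), fderiv ℝ (fun q => P q (s q)) q) := by
  rw [j1_apply, fderiv_clm_apply hP hs, add_comm]
theorem j1_comp {P : V → G →L[ℝ] F'} {Q : V → F →L[ℝ] G} {q : V} (hP : DifferentiableAt ℝ P q)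
    (hQ : DifferentiableAt ℝ Q q) : j1 (fun q => P q ∘L Q q) q = j1 P q ∘L j1 Q q := by
  refine ContinuousLinearMap.ext fun ⟨v, L⟩ => ?_
  rw [ContinuousLinearMap.comp_apply, j1_apply, j1_apply, j1_apply, fderiv_clm_comp hP hQ]
  refine Prod.ext rfl (ContinuousLinearMap.ext fun w => ?_)
  simp
  abel
theorem j1_congr {P Q : V → F →L[ℝ] G} {q : V} (h : P =ᶠ[𝓝 q] Q) : j1 P q = j1 Q q := by
  rw [j1, j1, h.fderiv_eq, h.self_of_nhds]
theorem jc_j1 {Z : Type} [TopologicalSpace Z] {P : Z → V → F →L[ℝ] G} {T : Set (Z × V)}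
    (h : JC P T) : JC (fun z q => j1 (P z) q) T := by
  have h1 := h.clm_comp (JC.const h.isOpen (ContinuousLinearMap.fst ℝ F (V →L[ℝ] F)))
  have h2 := (h.fderiv.clm (G := F →L[ℝ] V →L[ℝ] G)
    (ContinuousLinearMap.flipₗᵢ ℝ V F G).toContinuousLinearEquiv.toContinuousLinearMap).clm_comp
    (JC.const h.isOpen (ContinuousLinearMap.fst ℝ F (V →L[ℝ] F)))
  have h3 := (h.clm (ContinuousLinearMap.compL ℝ V F G)).clm_comp
    (JC.const h.isOpen (ContinuousLinearMap.snd ℝ F (V →L[ℝ] F)))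
  exact ((h1.prodMk (h2.add h3)).clm
    (ContinuousLinearMap.prodₗᵢ ℝ).toContinuousLinearEquiv.toContinuousLinearMap).congr fun _ _ => rfl

/-- the bundle of the jets of order one of sections -/
def Bun.jet1 (𝔉 : Bun S F) : Bun S (F × (V →L[ℝ] F)) where
  A x y q := ((ContinuousLinearMap.id ℝ F).prodMap ((ContinuousLinearMap.compL ℝ V V F).flip
    (fderiv ℝ (S.τ y x) (S.τ x y q)))) ∘L j1 (𝔉.A x y) q
  jc := by
    have h := (Sys.jc_swap (S := S) (f := fun x y q => fderiv ℝ (S.τ x y) q) Sys.jc_τ.fderiv).clm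
      (G := (V →L[ℝ] F) →L[ℝ] V →L[ℝ] F) (ContinuousLinearMap.compL ℝ V V F).flip
    exact (((JC.const h.isOpen (ContinuousLinearMap.id ℝ F)).prodMk h).clm
      (ContinuousLinearMap.prodMapL ℝ F F _ _)).clm_comp (jc_j1 𝔉.jc)
  self x q hq := by
    rw [Sys.τ_self hq, Sys.fderiv_τ_self hq, j1_congr (Q := fun _ => 1)
      (mem_of_superset (isOpen_ball.mem_nhds hq) (𝔉.self x))]
    refine ContinuousLinearMap.ext fun ⟨v, L⟩ => Prod.ext rfl (ContinuousLinearMap.ext fun w => ?_)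
    simp [j1_apply]
  coc x y z q h h' := by
    have e : 𝔉.A x z =ᶠ[𝓝 q] fun q => 𝔉.A y z (S.τ x y q) ∘L 𝔉.A x y q := by
      filter_upwards [Sys.dom_nhds h, Sys.dom_nhds h'] with q h h'
      exact (𝔉.coc x y z q h h').symm
    have d1 := (𝔉.contDiffAt (Sys.τ_dom' h h')).differentiableAt (by simp)
    have d2 := Sys.differentiableAt_τ h
    have e1 := Sys.fderiv_τ_trans (Sys.τ_dom' h' h) (Sys.τ_dom h')
    have e2 : ∀ w, fderiv ℝ (S.τ x y) q (fderiv ℝ (S.τ y x) (S.τ x y q) w) = w :=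
      fun w => DFunLike.congr_fun (Sys.fderiv_τ_inv' h) w
    rw [Sys.τ_trans h' h] at e1
    rw [j1_congr e, j1_comp (d1.fun_comp' q d2) ((𝔉.contDiffAt h).differentiableAt (by simp)),
      Sys.τ_trans h h', ← e1]
    refine ContinuousLinearMap.ext fun ⟨v, L⟩ => Prod.ext rfl (ContinuousLinearMap.ext fun w => ?_)
    simp [j1, fderiv_fun_comp q d1 d2, e2]
  smul g x y q h := by
    rw [Sys.smul_swap (f := fun x y q => fderiv ℝ (S.τ x y) q) (Sys.fderiv_τ_smul g) h,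
      j1_congr (mem_of_superset (Sys.dom_nhds h) (𝔉.smul g x y))]

theorem Bun.jet1_A (𝔉 : Bun S F) {x y : X} {q : V} (h : q ∈ S.dom x y) {s s' : V → F}
    (hs : DifferentiableAt ℝ s q) (hs' : DifferentiableAt ℝ s' (S.τ x y q))
    (e : ∀ᶠ q' in 𝓝 q, s' (S.τ x y q') = 𝔉.A x y q' (s q')) :
    𝔉.jet1.A x y q (s q, fderiv ℝ s q) = (s' (S.τ x y q), fderiv ℝ s' (S.τ x y q)) := by
  have e' : (fun q => 𝔉.A x y q (s q)) =ᶠ[𝓝 q] fun q => s' (S.τ x y q) := EventuallyEq.symm e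
  rw [Bun.jet1, ContinuousLinearMap.comp_apply, j1_jet ((𝔉.contDiffAt h).differentiableAt (by simp)) hs, e'.fderiv_eq,
    fderiv_fun_comp q hs' (Sys.differentiableAt_τ h)]
  exact Prod.ext e.self_of_nhds.symm (ContinuousLinearMap.ext fun w =>
    congrArg (fderiv ℝ s' (S.τ x y q)) (DFunLike.congr_fun (Sys.fderiv_τ_inv' h) w))

/-- the tangent bundle -/
def Sys.TV (S : Sys Γ X B E V) : Bun S V where
  A x y q := fderiv ℝ (S.τ x y) q
  jc := Sys.jc_τ.fderiv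
  self _ _ := Sys.fderiv_τ_self
  coc _ _ _ _ := Sys.fderiv_τ_trans
  smul := Sys.fderiv_τ_smul

/-- the trivial bundle -/
def Sys.triv (S : Sys Γ X B E V) (F : Type) [NormedAddCommGroup F] [NormedSpace ℝ F] :
    Bun S F where
  A _ _ _ := 1
  jc := JC.const Sys.isOpen_Dm _
  self _ _ _ := rfl
  coc _ _ _ _ _ _ := rfl
  smul _ _ _ _ _ := rfl

theorem contDiff_compAlt (m : ℕ) : ContDiff ℝ ∞
    (ContinuousAlternatingMap.compContinuousLinearMapCLM : (V →L[ℝ] V) →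
      (V [⋀^Fin m]→L[ℝ] ℝ) →L[ℝ] V [⋀^Fin m]→L[ℝ] ℝ) := by
  let i := ContinuousAlternatingMap.toContinuousMultilinearMapCLM (𝕜 := ℝ) (E := V) (F := ℝ)
    (ι := Fin m) ℝ
  have hi : Function.Injective i := ContinuousAlternatingMap.toContinuousMultilinearMap_injective
  obtain ⟨r, hr⟩ := i.toLinearMap.exists_leftInverse_of_injective (LinearMap.ker_eq_bot.2 hi)
  have h := ContinuousMultilinearMap.contDiff (n := ∞) (F := (V [×m]→L[ℝ] ℝ) →L[ℝ] V [×m]→L[ℝ] ℝ)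
    (ContinuousMultilinearMap.compContinuousLinearMapContinuousMultilinear ℝ
    (fun _ : Fin m => V) (fun _ => V) ℝ) |>.comp
      (contDiff_pi.2 fun _ => (contDiff_id : ContDiff ℝ ∞ (id : (V →L[ℝ] V) → _)))
  convert (contDiff_const (c := LinearMap.toContinuousLinearMap r)).clm_comp
    (h.clm_comp (contDiff_const (c := i))) using 1
  funext L
  exact ContinuousLinearMap.ext fun a => (LinearMap.congr_fun hr _).symm

/-- the bundle of forms of degree `m` -/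
def Sys.forms (S : Sys Γ X B E V) (m : ℕ) : Bun S (V [⋀^Fin m]→L[ℝ] ℝ) where
  A x y q := ContinuousAlternatingMap.compContinuousLinearMapCLM
    (fderiv ℝ (S.τ y x) (S.τ x y q))
  jc := S.TV.jc_inv.comp_contDiff (contDiff_compAlt m)
  self x q hq := by
    rw [Sys.τ_self hq, Sys.fderiv_τ_self hq]
    rfl
  coc x y z q h h' := by
    rw [← show _ = fderiv ℝ (S.τ z x) (S.τ x z q) from S.TV.coc_inv h h']
    rfl
  smul g x y q h := congrArg _ (Sys.smul_swap (S.TV.smul g) h)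

namespace Marg

variable {m : ℕ} {b : Module.Basis (Fin m) ℝ E} (M : Marg S b)

theorem f_ne {x y : X} {q : V} (h : q ∈ S.dom x y) : M.f x y q ≠ 0 := fun h0 =>
  M.es_ne y _ (Sys.τ_ball h) (by rw [M.es_eqv x y q h, h0, zero_smul])

theorem es_eqv' {x y : X} {q : V} (h : q ∈ S.dom x y) :
    M.es y (S.τ x y q) = M.f x y q • (S.forms m).A x y q (M.es x q) := M.es_eqv x y q h

theorem f_eq {x y : X} {q : V} (h : q ∈ S.dom x y) {c : ℝ}
    (e : M.es y (S.τ x y q) = c • (S.forms m).A x y q (M.es x q)) : M.f x y q = c := by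
  have : (S.forms m).A x y q (M.es x q) ≠ 0 := fun h0 =>
    M.es_ne y _ (Sys.τ_ball h) (by rw [e, h0, smul_zero])
  exact smul_left_injective ℝ this ((M.es_eqv' h).symm.trans e)

theorem f_self {x : X} {q : V} (hq : q ∈ ball (0 : V) 1) : M.f x x q = 1 :=
  M.f_eq (Sys.dom_self hq) (by rw [Sys.τ_self hq, (S.forms m).self x q hq, one_smul]; rfl)

theorem f_coc {x y z : X} {q : V} (h : q ∈ S.dom x y) (h' : q ∈ S.dom x z) :
    M.f x z q = M.f y z (S.τ x y q) * M.f x y q :=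
  M.f_eq h' (by
    rw [← Sys.τ_trans h h', M.es_eqv' (Sys.τ_dom' h h'), M.es_eqv' h, map_smul, smul_smul,
      ← (S.forms m).coc x y z q h h']
    rfl)

theorem f_smul (g : Γ) (x y : X) (q : V) (h : q ∈ S.dom x y) :
    M.f (g • x) (g • y) q = M.f x y q :=
  M.f_eq (by rwa [Sys.dom_smul]) (by
    rw [Sys.τ_smul g h, M.es_smul g y _ (Sys.τ_ball h), M.es_smul g x _ (Sys.dom_ball h),
      (S.forms m).smul g x y q h, M.es_eqv' h])

/-- the twisted forms -/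
def tw : Bun S (V [⋀^Fin m]→L[ℝ] ℝ) where
  A x y q := M.f x y q • (S.forms m).A x y q
  jc := M.f_jc.smul (S.forms m).jc
  self x q hq := by rw [M.f_self hq, (S.forms m).self x q hq, one_smul]
  coc x y z q h h' := by
    rw [smul_mul_smul_comm, (S.forms m).coc x y z q h h', M.f_coc h h']
  smul g x y q h := by rw [M.f_smul g x y q h, (S.forms m).smul g x y q h]

/-- twisted forms, plus a trivial line -/
def bun : Bun S ((V [⋀^Fin m]→L[ℝ] ℝ) × ℝ) := M.tw.prod (S.triv ℝ)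

/-- the section `(es, 1)` -/
def sec : Sec M.bun where
  e x q := (M.es x q, 1)
  cont := M.es_cont.prodMk continuousOn_const
  smul g x q hq := by rw [M.es_smul g x q hq]
  eqv x y q h := Prod.ext (M.es_eqv' h) rfl
  smS := M.es_S.prodMk (JC.const M.es_S.isOpen _)

theorem mor_tw : Mor M.tw (S.forms m) (ContinuousLinearMap.id ℝ _) :=
  ⟨M.f, M.f_jc.continuousOn, fun _ _ _ h => ⟨M.f_ne h, rfl⟩⟩
theorem mor_tw' : Mor (S.forms m) M.tw (ContinuousLinearMap.id ℝ _) :=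
  ⟨fun x y q => (M.f x y q)⁻¹, M.f_jc.continuousOn.inv₀ fun _ h => M.f_ne h, fun x y q h =>
    ⟨inv_ne_zero (M.f_ne h), (inv_smul_smul₀ (M.f_ne h) ((S.forms m).A x y q)).symm⟩⟩

end Marg

theorem Mor.of_eq {𝔉 : Bun S F} {𝔊 : Bun S G} {M : F →L[ℝ] G}
    (h : ∀ x y, ∀ q ∈ S.dom x y, M ∘L 𝔉.A x y q = 𝔊.A x y q ∘L M) : Mor 𝔉 𝔊 M :=
  ⟨fun _ _ _ => 1, continuousOn_const, fun x y q hq =>
    ⟨one_ne_zero, by rw [one_smul, h x y q hq]⟩⟩
theorem Mor.id (𝔉 : Bun S F) : Mor 𝔉 𝔉 (ContinuousLinearMap.id ℝ F) :=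
  Mor.of_eq fun _ _ _ _ => rfl
theorem Mor.comp {𝔉 : Bun S F} {𝔊 : Bun S G} {ℌ : Bun S F'} {M : F →L[ℝ] G} {N : G →L[ℝ] F'}
    (h : Mor 𝔊 ℌ N) (h' : Mor 𝔉 𝔊 M) : Mor 𝔉 ℌ (N ∘L M) := by
  obtain ⟨f, h1, h2⟩ := h
  obtain ⟨f', h3, h4⟩ := h'
  refine ⟨fun x y q => f' x y q * f x y q, h3.mul h1, fun x y q h =>
    ⟨mul_ne_zero (h4 x y q h).1 (h2 x y q h).1, ?_⟩⟩
  rw [ContinuousLinearMap.comp_assoc, (h4 x y q h).2, ContinuousLinearMap.comp_smul,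
    ← ContinuousLinearMap.comp_assoc, (h2 x y q h).2, ContinuousLinearMap.smul_comp, smul_smul]
  rfl

end Vale.Agent.P207Z
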