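import Vale.Agent.P207Z.Geo.Main
import Vale.Agent.P207Z.Hull
import Vale.Agent.P207Z.Real.Main

/-!
# P207: the abstract theorem: the stable bundle is of class S
-/

set_option linter.all false

open Set Filter Topology Metric MeasureTheory
open scoped ContDiff

noncomputable section

namespace Vale.Agent.P207Z

variable {Γ X B E V Y : Type} [Group Γ] [Countable Γ] [MetricSpace X] [ProperSpace X]
  [MulAction Γ X] [IsIsometricSMul Γ X] [MeasurableSpace X] [BorelSpace X]
  [TopologicalSpace B] [CompactSpace B] [T2Space B] [SecondCountableTopology B] [MulAction Γ B]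
  [ContinuousConstSMul Γ B] [MeasurableSpace B] [BorelSpace B]
  [NormedAddCommGroup E] [InnerProductSpace ℝ E] [FiniteDimensional ℝ E]
  [MeasurableSpace E] [BorelSpace E]
  [NormedAddCommGroup V] [NormedSpace ℝ V] [FiniteDimensional ℝ V]
  [MeasurableSpace Y] [MulAction Γ Y]
  {S : Sys Γ X B E V} {m : ℕ} {b : Module.Basis (Fin m) ℝ E} {M : Marg S b}

theorem exists_char (M : Marg S b) (P : Prob S Y) : ∃ W : SSub M.bun, Char M W := by
  obtain ⟨W, h⟩ := Marg.char P M
  exact ⟨W, h.mono fun _ h => h.1, h.mono fun _ h => h.2⟩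

/-- **the abstract theorem** -/
theorem isS_Es (P : Prob S Y) (Fl : Flip S) (Tm : Tim S M) (hL : Leb S) :
    IsS S.TV fun _ => S.Es := by
  obtain ⟨W, hW⟩ := exists_char M P
  rcases geo P Fl Tm W hW with h | ⟨F, C, Z, h⟩
  · exact h
  · exact (endgame P hL Tm h).elim

end Vale.Agent.P207Z
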