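import Vale.Agent.P207.N3.H862.Inv
import Vale.Agent.P207Z.MET.Erg

/-!
# P207: the abstract system of charts of the space of geodesics, and the class S

`Sys` : frames `X`, boundary `B`, straight symplectic charts `c x : V → B × B`.
`Prob` : the invariant ergodic measure. `Bun` : natural bundles. `SSub` : subbundles of class S.
-/

set_option linter.all false

open Set Filter Topology Metric MeasureTheory Asymptotics
open scoped ContDiff

noncomputable section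

namespace Vale.Agent.P207Z

open Vale.Agent.P207.N3 (JC)

/-! ### little-o calculus -/

section Calc

variable {V W F G G' : Type} [NormedAddCommGroup V] [NormedSpace ℝ V] [NormedAddCommGroup W]
  [NormedSpace ℝ W] [NormedAddCommGroup F] [NormedSpace ℝ F] [NormedAddCommGroup G]
  [NormedSpace ℝ G] [NormedAddCommGroup G'] [NormedSpace ℝ G']

/-- `f` vanishes to the order `k` at `z` -/
def Flat (k : ℕ) (f : V → W) (z : V) : Prop := f =o[𝓝 z] fun q => ‖q - z‖ ^ k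

/-- the equations `M` are consequences of the equations `M'`, to the order `k` at `0` -/
def Dom (k : ℕ) (M : V → F →L[ℝ] G) (M' : V → F →L[ℝ] G') : Prop :=
  ∃ (C : ℝ) (ε : V → ℝ), Flat k ε 0 ∧
    ∀ᶠ q in 𝓝 (0 : V), ∀ v, ‖M q v‖ ≤ C * ‖M' q v‖ + ε q * ‖v‖

/-- equivalent systems of equations, to the order `k` at `0` -/
def Eqv (k : ℕ) (M : V → F →L[ℝ] G) (M' : V → F →L[ℝ] G') : Prop := Dom k M M' ∧ Dom k M' M

/-- the radius `1 / (n + 1)` -/
def rad (n : ℕ) : ℝ := ((n : ℝ) + 1)⁻¹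

/-- `C^k` with norm at most `n` on the ball of radius `rad n` -/
structure CkB (k n : ℕ) (f : V → W) : Prop where
  smooth : ContDiffOn ℝ k f (ball 0 (rad n))
  bd : ∀ i ≤ k, ∀ q ∈ ball (0 : V) (rad n), ‖iteratedFDeriv ℝ i f q‖ ≤ n

/-- the complementary projections: the equations of the range of `P` -/
def cmp (P : V → F →L[ℝ] F) (q : V) : F →L[ℝ] F := 1 - P q

/-- jets of order `k` -/
abbrev Jet (k : ℕ) (V W : Type) [NormedAddCommGroup V] [NormedSpace ℝ V] [NormedAddCommGroup W]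
    [NormedSpace ℝ W] : Type := (i : Fin (k + 1)) → V [×(i : ℕ)]→L[ℝ] W

/-- the jet of `f` at `z` -/
def jet (k : ℕ) (f : V → W) (z : V) : Jet k V W := fun i => iteratedFDeriv ℝ i f z

/-- the Taylor polynomial of a jet -/
def poly {k : ℕ} (a : Jet k V W) (q : V) : W :=
  ∑ i : Fin (k + 1), (((i : ℕ).factorial : ℝ))⁻¹ • a i fun _ => q

instance finiteDimensional_cmm {ι : Type} [Fintype ι] [FiniteDimensional ℝ V]
    [FiniteDimensional ℝ W] : FiniteDimensional ℝ (ContinuousMultilinearMap ℝ (fun _ : ι => V) W) :=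
  FiniteDimensional.of_injective
    (ContinuousMultilinearMap.toMultilinearMapLinear (R' := ℝ) (A := ℝ) (M₁ := fun _ : ι => V)
      (M₂ := W)) fun _ _ h => ContinuousMultilinearMap.toMultilinearMap_injective h

instance finiteDimensional_cam {ι : Type} [Fintype ι] [FiniteDimensional ℝ V]
    [FiniteDimensional ℝ W] : FiniteDimensional ℝ (V [⋀^ι]→L[ℝ] W) :=
  FiniteDimensional.of_injective
    (ContinuousAlternatingMap.toContinuousMultilinearMapLinear (R := ℝ) (A := ℝ) (M := V) (N := W)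
      (ι := ι)) fun _ _ h => ContinuousAlternatingMap.toContinuousMultilinearMap_injective h

end Calc

/-! ### the system -/

section Tau

variable {X P V : Type} [NormedAddCommGroup V]

/-- the domain of the transition map from the chart of `x` to the chart of `y` -/
def tdom (c : X → V → P) (x y : X) : Set V :=
  {q | q ∈ ball (0 : V) 1 ∧ c x q ∈ c y '' ball (0 : V) 1}

/-- the transition map `(c y)⁻¹ ∘ c x` -/
def ttau (c : X → V → P) (x y : X) (q : V) : V := Function.invFunOn (c y) (ball (0 : V) 1) (c x q)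

end Tau

/-- Frames, boundary, and straight symplectic charts of the space of geodesics. -/
structure Sys (Γ X B E V : Type) [Group Γ] [MetricSpace X] [MulAction Γ X]
    [TopologicalSpace B] [MulAction Γ B] [MeasurableSpace B]
    [NormedAddCommGroup E] [InnerProductSpace ℝ E] [NormedAddCommGroup V] [NormedSpace ℝ V] where
  nonempty : Nonempty X
  φ : ℝ → X → X
  φ_zero : ∀ x, φ 0 x = x
  φ_add : ∀ s t x, φ (s + t) x = φ s (φ t x)
  φ_cont : Continuous fun p : ℝ × X => φ p.1 p.2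
  φ_smul : ∀ (g : Γ) t x, φ t (g • x) = g • φ t x
  /-- the end points in the past and in the future -/
  em : X → B
  ep : X → B
  em_cont : Continuous em
  ep_cont : Continuous ep
  em_smul : ∀ (g : Γ) x, em (g • x) = g • em x
  ep_smul : ∀ (g : Γ) x, ep (g • x) = g • ep x
  em_φ : ∀ t x, em (φ t x) = em x
  ep_φ : ∀ t x, ep (φ t x) = ep x
  em_ne_ep : ∀ x, em x ≠ ep x
  /-- the Busemann functions of the two ends at the foot point -/
  lv : X → ℝ
  lp : X → ℝ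
  lv_cont : Continuous lv
  lp_cont : Continuous lp
  lv_φ : ∀ t x, lv (φ t x) = lv x + t
  lp_φ : ∀ t x, lp (φ t x) = lp x - t
  lv_smul : ∀ (g : Γ) x y, em x = em y → lv (g • x) - lv (g • y) = lv x - lv y
  lp_smul : ∀ (g : Γ) x y, ep x = ep y → lp (g • x) - lp (g • y) = lp x - lp y
  lv_add : ∀ x y, em x = em y → ep x = ep y → lv x + lp x = lv y + lp y
  exists_frame : ∀ ξ η, ξ ≠ η → ∃ x, em x = ξ ∧ ep x = η
  hopf_proper : ∀ K : Set (B × B), IsCompact K → (∀ p ∈ K, p.1 ≠ p.2) → ∀ c : ℝ,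
    IsCompact {x | (em x, ep x) ∈ K ∧ |lv x - lp x| ≤ c}
  cocompact : ∃ K : Set X, IsCompact K ∧ ∀ x, ∃ g : Γ, g • x ∈ K
  proper : ∀ K : Set X, IsCompact K → {g : Γ | ∃ x ∈ K, g • x ∈ K}.Finite
  /-- the splitting `V = E^s ⊕ E^u` -/
  iS : E →L[ℝ] V
  iU : E →L[ℝ] V
  pS : V →L[ℝ] E
  pU : V →L[ℝ] E
  pS_iS : ∀ w, pS (iS w) = w
  pU_iU : ∀ a, pU (iU a) = a
  pS_iU : ∀ a, pS (iU a) = 0
  pU_iS : ∀ w, pU (iS w) = 0
  iS_add : ∀ z, iS (pS z) + iU (pU z) = z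
  norm_eq : ∀ z, ‖z‖ = max ‖pS z‖ ‖pU z‖
  /-- the charts -/
  c : X → V → B × B
  c_zero : ∀ x, c x 0 = (em x, ep x)
  c_inj : ∀ x, InjOn (c x) (ball 0 1)
  c_ne : ∀ x, ∀ z ∈ ball (0 : V) 1, (c x z).1 ≠ (c x z).2
  c_cont : ContinuousOn (fun p : X × V => c p.1 p.2) (univ ×ˢ ball 0 1)
  c_open : ∀ O : Set V, IsOpen O → O ⊆ ball 0 1 → IsOpen {p : X × (B × B) | p.2 ∈ c p.1 '' O}
  c_smul : ∀ (g : Γ) x, ∀ z ∈ ball (0 : V) 1, c (g • x) z = g • c x z
  /-- the two axes are the two leaves -/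
  c_U : ∀ x, ∀ z ∈ ball (0 : V) 1, (c x z).1 = em x ↔ pS z = 0
  c_S : ∀ x, ∀ z ∈ ball (0 : V) 1, (c x z).2 = ep x ↔ pU z = 0
  τ_jc : JC (fun (p : X × X) q => ttau c p.1 p.2 q) {p | p.2 ∈ tdom c p.1.1 p.1.2}
  τ_symp : ∀ x y, ∀ q ∈ tdom c x y, ∀ v w,
    inner ℝ (pS (fderiv ℝ (ttau c x y) q v)) (pU (fderiv ℝ (ttau c x y) q w))
      - inner ℝ (pU (fderiv ℝ (ttau c x y) q v)) (pS (fderiv ℝ (ttau c x y) q w))
      = inner ℝ (pS v) (pU w) - inner ℝ (pU v) (pS w)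
  /-- contraction along the axes -/
  lam : ℝ
  lam_pos : 0 < lam
  ρ : ℝ
  ρ_pos : 0 < ρ
  domS : ∀ x, ∀ t ≥ (0 : ℝ), ∀ w ∈ ball (0 : E) ρ, iS w ∈ tdom c x (φ t x)
  domU : ∀ x, ∀ t ≥ (0 : ℝ), ∀ a ∈ ball (0 : E) ρ, iU a ∈ tdom c x (φ (-t) x)
  contrS : ∀ k : ℕ, 1 ≤ k → ∃ C, ∀ x, ∀ t ≥ (0 : ℝ), ∀ w ∈ ball (0 : E) ρ,
    ‖iteratedFDeriv ℝ k (fun w => ttau c x (φ t x) (iS w)) w‖ ≤ C * Real.exp (-lam * t)
  contrU : ∀ k : ℕ, 1 ≤ k → ∃ C, ∀ x, ∀ t ≥ (0 : ℝ), ∀ a ∈ ball (0 : E) ρ,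
    ‖iteratedFDeriv ℝ k (fun a => ttau c x (φ (-t) x) (iU a)) a‖ ≤ C * Real.exp (-lam * t)
  /-- asymptotic frames -/
  asymS : ∀ K : Set (B × X), IsCompact K → (∀ p ∈ K, p.1 ≠ ep p.2) → ∃ C, ∀ p ∈ K, ∃ y,
    em y = p.1 ∧ ep y = ep p.2 ∧ lp y = lp p.2 ∧
      ∀ t ≥ (0 : ℝ), dist (φ t p.2) (φ t y) ≤ C * Real.exp (-lam * t)
  asymU : ∀ K : Set (B × X), IsCompact K → (∀ p ∈ K, p.1 ≠ em p.2) → ∃ C, ∀ p ∈ K, ∃ y,
    ep y = p.1 ∧ em y = em p.2 ∧ lv y = lv p.2 ∧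
      ∀ t ≥ (0 : ℝ), dist (φ (-t) p.2) (φ (-t) y) ≤ C * Real.exp (-lam * t)
  /-- the measure on the boundary -/
  ν : Measure B
  ν_finite : IsFiniteMeasure ν
  ν_pos : ∀ O : Set B, IsOpen O → O.Nonempty → ν O ≠ 0
  ν_point : ∀ ξ : B, ν {ξ} = 0
  ν_smul : ∀ (g : Γ) (A : Set B), ν A = 0 → ν ((fun ξ => g • ξ) ⁻¹' A) = 0

variable {Γ X B E V : Type} [Group Γ] [Countable Γ] [MetricSpace X] [ProperSpace X]
  [MulAction Γ X] [IsIsometricSMul Γ X] [MeasurableSpace X] [BorelSpace X]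
  [TopologicalSpace B] [CompactSpace B] [T2Space B] [SecondCountableTopology B] [MulAction Γ B]
  [ContinuousConstSMul Γ B] [MeasurableSpace B] [BorelSpace B]
  [NormedAddCommGroup E] [InnerProductSpace ℝ E] [FiniteDimensional ℝ E]
  [NormedAddCommGroup V] [NormedSpace ℝ V] [FiniteDimensional ℝ V]
  {F G : Type} [NormedAddCommGroup F] [NormedSpace ℝ F] [FiniteDimensional ℝ F]
  [NormedAddCommGroup G] [NormedSpace ℝ G] [FiniteDimensional ℝ G]

namespace Sys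

variable (S : Sys Γ X B E V)

/-- the geodesic of a frame -/
def pt (x : X) : B × B := (S.em x, S.ep x)

/-- the transition maps -/
def τ (x y : X) : V → V := ttau S.c x y

/-- their domains -/
def dom (x y : X) : Set V := tdom S.c x y

/-- the domain in `(X × X) × V` -/
def Dm : Set ((X × X) × V) := {p | p.2 ∈ S.dom p.1.1 p.1.2}

/-- the symplectic form -/
def om : V →L[ℝ] V →L[ℝ] ℝ :=
  (innerSL ℝ : E →L[ℝ] E →L[ℝ] ℝ).bilinearComp S.pS S.pU
    - (innerSL ℝ : E →L[ℝ] E →L[ℝ] ℝ).bilinearComp S.pU S.pS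

/-- the stable and the unstable subspace at the centre of every chart -/
def Es : Submodule ℝ V := S.iS.range

def Eu : Submodule ℝ V := S.iU.range

instance : IsFiniteMeasure S.ν := S.ν_finite

open Classical in
/-- The measure with the values `0, ∞` whose null sets are the sets of frames over null sets of
geodesics. `∀ᵐ x ∂S.μ` means: for all the frames `x` over almost every geodesic (`ae_iff`). -/
def μ : Measure X :=
  Measure.ofMeasurable (fun s _ => if S.ν.prod S.ν (S.pt '' s) = 0 then 0 else ⊤) (by simp) (by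
    intro f hf hd
    by_cases h : ∀ i, S.ν.prod S.ν (S.pt '' f i) = 0
    · rw [if_pos (by rw [image_iUnion]; exact measure_iUnion_null h)]
      simp [h]
    · push Not at h
      obtain ⟨i, hi⟩ := h
      rw [if_neg fun h0 => hi (measure_mono_null (image_mono (subset_iUnion f i)) h0)]
      refine (top_le_iff.1 ?_).symm
      refine le_trans ?_ (ENNReal.le_tsum i)
      rw [if_neg hi])

theorem pt_cont : Continuous S.pt := S.em_cont.prodMk S.ep_cont

theorem ae_iff {Q : X → Prop} :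
    (∀ᵐ x ∂S.μ, Q x) ↔ ∀ᵐ p ∂(S.ν.prod S.ν), ∀ x, S.pt x = p → Q x := by
  constructor
  · intro h
    obtain ⟨s, hs, hm, h0⟩ := exists_measurable_superset_of_null (MeasureTheory.ae_iff.1 h)
    rw [μ, Measure.ofMeasurable_apply s hm] at h0
    have h1 : S.ν.prod S.ν (S.pt '' s) = 0 := by
      by_contra h1
      rw [if_neg h1] at h0
      exact ENNReal.top_ne_zero h0
    refine MeasureTheory.ae_iff.2 (measure_mono_null (fun p hp => ?_) h1)
    by_contra h2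
    exact hp fun x hx => by
      by_contra h3
      exact h2 ⟨x, hs h3, hx⟩
  · intro h
    obtain ⟨s, hs, hm, h0⟩ := exists_measurable_superset_of_null (MeasureTheory.ae_iff.1 h)
    have hm' : MeasurableSet (S.pt ⁻¹' s) := S.pt_cont.measurable hm
    refine MeasureTheory.ae_iff.2 (measure_mono_null (t := S.pt ⁻¹' s)
      (fun x hx => hs fun h2 => hx (h2 x rfl)) ?_)
    rw [μ, Measure.ofMeasurable_apply _ hm',
      if_pos (measure_mono_null (image_preimage_subset _ _) h0)]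

/-- `Q n x` holds with a measurable constant `n` -/
def Tight (Q : ℕ → X → Prop) : Prop :=
  ∃ R : X → ℕ, Measurable R ∧ ∀ᵐ x ∂S.μ, Q (R x) x

/-- for the frames over almost every point of the `U`-leaf of `x` in the ball of radius `r` -/
def AlongU (x : X) (r : ℝ) (Q : X → Prop) : Prop :=
  ∀ᵐ η ∂S.ν, ∀ y, S.pt y = (S.em x, η) → S.pt y ∈ S.c x '' ball 0 r → Q y

/-- for the frames over almost every point of the `S`-leaf of `x` in the ball of radius `r` -/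
def AlongS (x : X) (r : ℝ) (Q : X → Prop) : Prop :=
  ∀ᵐ ξ ∂S.ν, ∀ y, S.pt y = (ξ, S.ep x) → S.pt y ∈ S.c x '' ball 0 r → Q y

end Sys

/-- The reversal of the direction of the geodesics. -/
structure Flip (S : Sys Γ X B E V) where
  f : X → X
  f_f : ∀ x, f (f x) = x
  f_cont : Continuous f
  f_smul : ∀ (g : Γ) x, f (g • x) = g • f x
  f_φ : ∀ t x, f (S.φ t x) = S.φ (-t) (f x)
  em_f : ∀ x, S.em (f x) = S.ep x
  lv_f : ∀ x, S.lv (f x) = S.lp x
  c_f : ∀ x, ∀ z ∈ ball (0 : V) 1,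
    S.c (f x) (S.iS (S.pU z) + S.iU (S.pS z)) = (S.c x z).swap

/-- The invariant measure: `Y` is the unit tangent bundle of the universal cover, `fr` a
measurable equivariant field of frames. -/
structure Prob (S : Sys Γ X B E V) (Y : Type) [MeasurableSpace Y] [MulAction Γ Y] where
  m : Measure Y
  inv : SMulInvariantMeasure Γ Y m
  smul_meas : ∀ g : Γ, Measurable fun y : Y => g • y
  Z : Set Y
  Z_meas : MeasurableSet Z
  fund : IsFundamentalDomain Γ Z m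
  Z_strict : ∀ y, ∃! g : Γ, g • y ∈ Z
  Z_one : m Z = 1
  ψ : ℝ → Y → Y
  ψ_zero : ∀ y, ψ 0 y = y
  ψ_add : ∀ s t y, ψ (s + t) y = ψ s (ψ t y)
  ψ_meas : Measurable fun p : ℝ × Y => ψ p.1 p.2
  ψ_pres : ∀ t, MeasurePreserving (ψ t) m m
  ψ_smul : ∀ (g : Γ) t y, ψ t (g • y) = g • ψ t y
  erg : ∀ A : Set Y, NullMeasurableSet A m → (∀ g : Γ, ∀ y, g • y ∈ A ↔ y ∈ A) →
    (∀ t y, ψ t y ∈ A ↔ y ∈ A) → m A = 0 ∨ m Aᶜ = 0
  π : X → Y
  π_meas : Measurable π
  π_smul : ∀ (g : Γ) x, π (g • x) = g • π x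
  π_φ : ∀ t x, π (S.φ t x) = ψ t (π x)
  π_eq : ∀ x x', π x = π x' ↔ S.pt x = S.pt x' ∧ S.lv x = S.lv x'
  fr : Y → X
  fr_meas : Measurable fr
  fr_smul : ∀ (g : Γ) y, fr (g • y) = g • fr y
  π_fr : ∀ y, π (fr y) = y
  fr_Z : ∃ K : Set X, IsCompact K ∧ ∀ y ∈ Z, fr y ∈ K
  ae_fr : ∀ Q : X → Prop, (∀ᵐ x ∂S.μ, Q x) → ∀ᵐ y ∂m, Q (fr y)
  ae_ψ : ∀ Q : Y → Prop, (∀ᵐ y ∂m, Q y) → ∀ᵐ x ∂S.μ, ∀ᵐ t : ℝ, Q (ψ t (π x))
  ae_lv : ∀ Q : Y → Prop, (∀ᵐ y ∂m, Q y) →
    ∀ᵐ t : ℝ, ∀ᵐ x ∂S.μ, S.lv x - S.lp x = t → Q (π x)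

/-! ### bundles -/

/-- A natural vector bundle with fibre `F`: a smooth linear cocycle over the transition maps. -/
structure Bun (S : Sys Γ X B E V) (F : Type) [NormedAddCommGroup F] [NormedSpace ℝ F] where
  A : X → X → V → F →L[ℝ] F
  jc : JC (fun (p : X × X) q => A p.1 p.2 q) S.Dm
  self : ∀ x, ∀ q ∈ ball (0 : V) 1, A x x q = 1
  coc : ∀ x y z, ∀ q ∈ S.dom x y, q ∈ S.dom x z → A y z (S.τ x y q) * A x y q = A x z q
  smul : ∀ (g : Γ) x y, ∀ q ∈ S.dom x y, A (g • x) (g • y) q = A x y q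

variable {S : Sys Γ X B E V}

namespace Bun

variable (𝔉 : Bun S F)

/-- equations in the chart of `x`, read in the chart of `y` -/
def pull (y x : X) (M : V → F →L[ℝ] G) (q : V) : F →L[ℝ] G := M (S.τ y x q) ∘L 𝔉.A y x q

/-- `M` (in the chart of `x`) extends the reference equations `R`, at the centre and at almost
every point of the `U`-leaf -/
def ExtU (k n : ℕ) (R : X → V → F →L[ℝ] G) (x : X) (M : V → F →L[ℝ] G) : Prop :=
  (∀ y, S.pt y = S.pt x → Eqv k (𝔉.pull y x M) (R y)) ∧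
    S.AlongU x (rad n) fun y => Eqv k (𝔉.pull y x M) (R y)

/-- the same along the `S`-leaf -/
def ExtS (k n : ℕ) (R : X → V → F →L[ℝ] G) (x : X) (M : V → F →L[ℝ] G) : Prop :=
  (∀ y, S.pt y = S.pt x → Eqv k (𝔉.pull y x M) (R y)) ∧
    S.AlongS x (rad n) fun y => Eqv k (𝔉.pull y x M) (R y)

end Bun

/-- A field of projections, `C^k` with norm at most `n` on the ball of radius `rad n`. -/
structure Prj (k n : ℕ) (P : V → F →L[ℝ] F) : Prop where
  ckb : CkB k n P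
  idem : ∀ q ∈ ball (0 : V) (rad n), P q * P q = P q

/-- **Subbundles of class S.** `H x` is the fibre at the centre of the chart of `x`, the range of
the germ `J k x` is the `k`-jet of the subbundle. -/
structure SSub (𝔉 : Bun S F) where
  H : X → Submodule ℝ F
  J : ℕ → X → V → F →L[ℝ] F
  H_smul : ∀ (g : Γ) x, H (g • x) = H x
  J_smul : ∀ k (g : Γ) x, J k (g • x) = J k x
  meas : MET.MSub S.μ H
  measJ : ∀ k, AEStronglyMeasurable (fun x => jet k (J k x) 0) S.μ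
  reg : ∀ k, ∀ᵐ x ∂S.μ, (∃ n, Prj k n (J k x)) ∧ (J k x 0).range = H x
  extU : ∀ k, S.Tight fun n x => ∃ P, Prj k n P ∧ 𝔉.ExtU k n (fun y => cmp (J k y)) x (cmp P)
  extS : ∀ k, S.Tight fun n x => ∃ P, Prj k n P ∧ 𝔉.ExtS k n (fun y => cmp (J k y)) x (cmp P)

/-- **Systems of equations of class S.** -/
structure SEq (𝔉 : Bun S F) (G : ℕ → Type) [∀ k, NormedAddCommGroup (G k)]
    [∀ k, NormedSpace ℝ (G k)] where
  H : X → Submodule ℝ F
  R : ∀ k, X → V → F →L[ℝ] G k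
  H_smul : ∀ (g : Γ) x, H (g • x) = H x
  R_smul : ∀ k (g : Γ) x, R k (g • x) = R k x
  meas : MET.MSub S.μ H
  measR : ∀ k, AEStronglyMeasurable (fun x => jet k (R k x) 0) S.μ
  reg : ∀ k : ℕ, ∀ᵐ x ∂S.μ, ContDiffAt ℝ k (R k x) 0
  extU : ∀ k, S.Tight fun n x => ∃ M : V → F →L[ℝ] G k, CkB k n M ∧ (M 0).ker = H x ∧
    (∀ v, infDist v (H x) ≤ n * ‖M 0 v‖) ∧ 𝔉.ExtU k n (R k) x M
  extS : ∀ k, S.Tight fun n x => ∃ M : V → F →L[ℝ] G k, CkB k n M ∧ (M 0).ker = H x ∧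
    (∀ v, infDist v (H x) ≤ n * ‖M 0 v‖) ∧ 𝔉.ExtS k n (R k) x M

/-- `H` is almost everywhere the fibre of a subbundle of class S -/
def IsS (𝔉 : Bun S F) (H : X → Submodule ℝ F) : Prop := ∃ W : SSub 𝔉, ∀ᵐ x ∂S.μ, W.H x = H x

/-- A smooth morphism of bundles, up to a scalar factor. -/
structure Mor (𝔉 : Bun S F) (𝔊 : Bun S G) (M : F →L[ℝ] G) : Prop where
  ex : ∃ f : X → X → V → ℝ, ContinuousOn (fun p : (X × X) × V => f p.1.1 p.1.2 p.2) S.Dm ∧
    ∀ x y, ∀ q ∈ S.dom x y, f x y q ≠ 0 ∧ M ∘L 𝔉.A x y q = f x y q • (𝔊.A x y q ∘L M)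

/-- A continuous invariant section which is smooth along the stable leaves. -/
structure Sec (𝔉 : Bun S F) where
  e : X → V → F
  cont : ContinuousOn (fun p : X × V => e p.1 p.2) (univ ×ˢ ball 0 1)
  smul : ∀ (g : Γ) x, ∀ q ∈ ball (0 : V) 1, e (g • x) q = e x q
  eqv : ∀ x y, ∀ q ∈ S.dom x y, e y (S.τ x y q) = 𝔉.A x y q (e x q)
  smS : JC (fun x w => e x (S.iS w)) (univ ×ˢ ball 0 1)

/-- A cocycle over the pairs of frames of one geodesic; `Φ x x` is a projection on the fibre. -/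
structure Coc0 (S : Sys Γ X B E V) (F : Type) [NormedAddCommGroup F] [NormedSpace ℝ F] where
  Φ : X → X → F →L[ℝ] F
  cont : ContinuousOn (fun p : X × X => Φ p.1 p.2) {p | S.pt p.1 = S.pt p.2}
  coc : ∀ x y z, S.pt x = S.pt y → S.pt x = S.pt z → Φ y z * Φ x y = Φ x z
  smul : ∀ (g : Γ) x y, S.pt x = S.pt y → Φ (g • x) (g • y) = Φ x y

/-- the cocycle over the flow -/
def Coc0.fl (C : Coc0 S F) (t : ℝ) (x : X) : F →L[ℝ] F := C.Φ x (S.φ t x)

/-! ### the Margulis forms -/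

/-- `es x q` is the form of degree `m` which kills the stable space at the point `q` of the chart
of `x` and is the Margulis volume on the unstable space. -/
structure Marg (S : Sys Γ X B E V) {m : ℕ} (b : Module.Basis (Fin m) ℝ E) where
  f : X → X → V → ℝ
  f_jc : JC (fun (p : X × X) q => f p.1 p.2 q) S.Dm
  es : X → V → V [⋀^Fin m]→L[ℝ] ℝ
  es_cont : ContinuousOn (fun p : X × V => es p.1 p.2) (univ ×ˢ ball 0 1)
  es_smul : ∀ (g : Γ) x, ∀ q ∈ ball (0 : V) 1, es (g • x) q = es x q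
  es_eqv : ∀ x y, ∀ q ∈ S.dom x y, es y (S.τ x y q)
    = f x y q • (es x q).compContinuousLinearMap (fderiv ℝ (S.τ y x) (S.τ x y q))
  es_ne : ∀ x, ∀ q ∈ ball (0 : V) 1, es x q ≠ 0
  es_zero : ∀ x, ∃ s : ℝ, ∀ v, es x 0 v = s * b.det fun i => S.pU (v i)
  /-- smooth along the stable axis -/
  es_S : JC (fun x w => es x (S.iS w)) (univ ×ˢ ball 0 1)
  /-- the volume of the unstable axis is smooth -/
  es_U : ∀ x, ContDiffOn ℝ ∞ (fun a => es x (S.iU a) fun i => S.iU (b i)) (ball 0 1)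

end Vale.Agent.P207Z
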