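import Vale.Agent.P207Z.Sys

/-!
# P207: the measure class of the boundary is the Lebesgue class on the axes of the charts
-/

set_option linter.all false

open Set Filter Topology Metric MeasureTheory

noncomputable section

namespace Vale.Agent.P207Z

variable {Γ X B E V : Type} [Group Γ] [Countable Γ] [MetricSpace X] [ProperSpace X]
  [MulAction Γ X] [IsIsometricSMul Γ X] [MeasurableSpace X] [BorelSpace X]
  [TopologicalSpace B] [CompactSpace B] [T2Space B] [SecondCountableTopology B] [MulAction Γ B]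
  [ContinuousConstSMul Γ B] [MeasurableSpace B] [BorelSpace B]
  [NormedAddCommGroup E] [InnerProductSpace ℝ E] [FiniteDimensional ℝ E]
  [MeasurableSpace E] [BorelSpace E]
  [NormedAddCommGroup V] [NormedSpace ℝ V] [FiniteDimensional ℝ V]

/-- `ν` and the Lebesgue measure of the axes have the same null sets -/
structure Leb (S : Sys Γ X B E V) : Prop where
  nullU : ∀ x, ∀ A ⊆ ball (0 : E) 1,
    S.ν ((fun a => (S.c x (S.iU a)).2) '' A) = 0 ↔ volume A = 0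
  nullS : ∀ x, ∀ A ⊆ ball (0 : E) 1,
    S.ν ((fun w => (S.c x (S.iS w)).1) '' A) = 0 ↔ volume A = 0

variable {S : Sys Γ X B E V}

theorem ae_of_null {B E : Type} [MeasurableSpace B] [MeasurableSpace E] {ν : Measure B}
    {μ : Measure E} {f : E → B} {O : Set E} (h : ∀ A ⊆ O, ν (f '' A) = 0 ↔ μ A = 0)
    {Q : B → Prop} : (∀ᵐ η ∂ν, η ∈ f '' O → Q η) ↔ ∀ᵐ a ∂μ, a ∈ O → Q (f a) := by
  have h1 := h {a | ¬ (a ∈ O → Q (f a))} fun a ha => by_contra fun hc => ha fun h2 => (hc h2).elim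
  rw [ae_iff, ae_iff, ← h1]
  have h2 : {η | ¬ (η ∈ f '' O → Q η)} = f '' {a | ¬ (a ∈ O → Q (f a))} := by
    ext η
    simp only [mem_setOf_eq, mem_image, Classical.not_imp]
    exact ⟨fun ⟨⟨a, h3, h4⟩, h5⟩ => ⟨a, ⟨h3, h4 ▸ h5⟩, h4⟩,
      fun ⟨a, ⟨h3, h5⟩, h4⟩ => ⟨⟨a, h3, h4⟩, h4 ▸ h5⟩⟩
  rw [h2]

theorem Leb.aeU (h : Leb S) (x : X) {O : Set E} (hO : O ⊆ ball 0 1) {Q : B → Prop} :
    (∀ᵐ η ∂S.ν, η ∈ (fun a => (S.c x (S.iU a)).2) '' O → Q η) ↔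
      ∀ᵐ a : E, a ∈ O → Q (S.c x (S.iU a)).2 :=
  ae_of_null fun A hA => h.nullU x A (hA.trans hO)

theorem Leb.aeS (h : Leb S) (x : X) {O : Set E} (hO : O ⊆ ball 0 1) {Q : B → Prop} :
    (∀ᵐ ξ ∂S.ν, ξ ∈ (fun w => (S.c x (S.iS w)).1) '' O → Q ξ) ↔
      ∀ᵐ w : E, w ∈ O → Q (S.c x (S.iS w)).1 :=
  ae_of_null fun A hA => h.nullS x A (hA.trans hO)

end Vale.Agent.P207Z
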