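import Vale.Agent.P207Z.Sys

/-!
# P207: time functions of the charts, the Liouville form and the function `D`
-/

set_option linter.all false

open Set Filter Topology Metric MeasureTheory
open scoped ContDiff

noncomputable section

namespace Vale.Agent.P207Z

open Vale.Agent.P207.N3 (JC)

variable {Γ X B E V : Type} [Group Γ] [Countable Γ] [MetricSpace X] [ProperSpace X]
  [MulAction Γ X] [IsIsometricSMul Γ X] [MeasurableSpace X] [BorelSpace X]
  [TopologicalSpace B] [CompactSpace B] [T2Space B] [SecondCountableTopology B] [MulAction Γ B]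
  [ContinuousConstSMul Γ B] [MeasurableSpace B] [BorelSpace B]
  [NormedAddCommGroup E] [InnerProductSpace ℝ E] [FiniteDimensional ℝ E]
  [NormedAddCommGroup V] [NormedSpace ℝ V] [FiniteDimensional ℝ V]

/-- the primitive `⟪pS q, pU dq⟫` of the symplectic form; it vanishes on both axes -/
def Sys.al (S : Sys Γ X B E V) (q : V) : V →L[ℝ] ℝ := (innerSL ℝ (S.pS q)) ∘L S.pU

/-- `T x q` is the level `lv` of the lift of the point `q` of the chart of `x` to the unit tangent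
bundle; `dt` is the time shift between two charts; `D = lv + lp`. -/
structure Tim (S : Sys Γ X B E V) {m : ℕ} {b : Module.Basis (Fin m) ℝ E} (M : Marg S b) where
  D : B × B → ℝ
  D_pt : ∀ x, D (S.pt x) = S.lv x + S.lp x
  D_cont : ContinuousOn D {p | p.1 ≠ p.2}
  D_diag : ∀ (ζ : B) (C : ℝ), ∀ᶠ p in 𝓝 (ζ, ζ), p.1 ≠ p.2 → D p ≤ C
  T : X → V → ℝ
  T_U : ∀ x, ∀ a ∈ ball (0 : E) 1, T x (S.iU a) = S.lv x
  T_S : ∀ x, ∀ w ∈ ball (0 : E) 1, D (S.c x (S.iS w)) - T x (S.iS w) = S.lp x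
  dt : X → X → V → ℝ
  dt_eq : ∀ x y, ∀ q ∈ S.dom x y, dt x y q = T y (S.τ x y q) - T x q
  dt_jc : JC (fun (p : X × X) q => dt p.1 p.2 q) S.Dm
  dt_smul : ∀ (g : Γ) x y, ∀ q ∈ S.dom x y, dt (g • x) (g • y) q = dt x y q
  /-- the scale of the charts (any sign) -/
  κ : ℝ
  κ_ne : κ ≠ 0
  al_τ : ∀ x y, ∀ q ∈ S.dom x y,
    S.al (S.τ x y q) ∘L fderiv ℝ (S.τ x y) q = S.al q + κ • fderiv ℝ (dt x y) q
  /-- the entropy (any sign) -/
  h : ℝ
  f_abs : ∀ x y, ∀ q ∈ S.dom x y, |M.f x y q| = Real.exp (h * dt x y q)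

end Vale.Agent.P207Z
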