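import Vale.Agent.P207Z.Sys

/-!
# P207: tightness (block DYN1b)
-/

set_option linter.unusedSectionVars false

open Set Filter Topology Metric MeasureTheory Asymptotics
open scoped ContDiff

noncomputable section

namespace Vale.Agent.P207Z

variable {Γ X B E V : Type} [Group Γ] [Countable Γ] [MetricSpace X] [ProperSpace X]
  [MulAction Γ X] [IsIsometricSMul Γ X] [MeasurableSpace X] [BorelSpace X]
  [TopologicalSpace B] [CompactSpace B] [T2Space B] [SecondCountableTopology B] [MulAction Γ B]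
  [ContinuousConstSMul Γ B] [MeasurableSpace B] [BorelSpace B]
  [NormedAddCommGroup E] [InnerProductSpace ℝ E] [FiniteDimensional ℝ E]
  [NormedAddCommGroup V] [NormedSpace ℝ V] [FiniteDimensional ℝ V]
  {F G W : Type} [NormedAddCommGroup F] [NormedSpace ℝ F] [FiniteDimensional ℝ F]
  [NormedAddCommGroup G] [NormedSpace ℝ G] [FiniteDimensional ℝ G]
  [NormedAddCommGroup W] [NormedSpace ℝ W]

/-- inclusion of kernels gives an estimate -/
theorem le_of_ker_le {A : F →L[ℝ] W} {M : F →L[ℝ] G} (h : ∀ v, M v = 0 → A v = 0) :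
    ∃ C : ℝ, 0 ≤ C ∧ ∀ v, ‖A v‖ ≤ C * ‖M v‖ := by
  obtain ⟨g, hg⟩ := (M : F →ₗ[ℝ] G).rangeRestrict.exists_rightInverse_of_surjective
    (LinearMap.range_rangeRestrict _)
  let L : (M : F →ₗ[ℝ] G).range →L[ℝ] W := LinearMap.toContinuousLinearMap ((A : F →ₗ[ℝ] W) ∘ₗ g)
  refine ⟨‖L‖, L.opNorm_nonneg, fun v => ?_⟩
  have h1 : M (g ⟨M v, v, rfl⟩) = M v :=
    congrArg Subtype.val (LinearMap.congr_fun hg ⟨M v, v, rfl⟩)
  have h2 : A v = L ⟨M v, v, rfl⟩ := by
    have h3 := h (v - g ⟨M v, v, rfl⟩) (by rw [map_sub, h1, sub_self])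
    rw [map_sub, sub_eq_zero] at h3
    exact h3
  rw [h2]
  exact L.le_opNorm _

namespace Sys

variable {S : Sys Γ X B E V} {Q : X → Prop} {T T' : ℕ → X → Prop}

theorem Tight.ae (h : S.Tight T) : ∀ᵐ x ∂S.μ, ∃ n, T n x := by
  obtain ⟨R, -, h⟩ := h
  exact h.mono fun x hx => ⟨R x, hx⟩

theorem Tight.imp (h : S.Tight T) (hi : ∀ n, ∃ n', ∀ᵐ x ∂S.μ, T n x → T' n' x) : S.Tight T' := by
  obtain ⟨R, hR, h⟩ := h
  choose N hN using hi
  exact ⟨fun x => N (R x), (measurable_from_top (f := N)).comp hR,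
    (h.and (ae_all_iff.2 hN)).mono fun x hx => hx.2 _ hx.1⟩

theorem Tight.mono (h : S.Tight T) (h' : ∀ᵐ x ∂S.μ, ∀ n, T n x → T' n x) : S.Tight T' :=
  h.imp fun n => ⟨n, h'.mono fun _ hx => hx n⟩

theorem Tight.imp₂ {T'' : ℕ → X → Prop} (h : S.Tight T) (h' : S.Tight T')
    (hi : ∀ n n', ∃ n'', ∀ᵐ x ∂S.μ, T n x → T' n' x → T'' n'' x) : S.Tight T'' := by
  obtain ⟨R, hR, h⟩ := h
  obtain ⟨R', hR', h'⟩ := h'
  choose N hN using hi
  refine ⟨fun x => N (R x) (R' x),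
    (measurable_of_countable fun p : ℕ × ℕ => N p.1 p.2).comp (hR.prodMk hR'), ?_⟩
  filter_upwards [h, h', ae_all_iff.2 fun n => ae_all_iff.2 (hN n)] with x a b c
  exact c _ _ a b

theorem Tight.and (h : S.Tight T) (h' : S.Tight T') (hm : ∀ n n' x, n ≤ n' → T n x → T n' x)
    (hm' : ∀ n n' x, n ≤ n' → T' n x → T' n' x) : S.Tight fun n x => T n x ∧ T' n x :=
  h.imp₂ h' fun n n' => ⟨max n n', Eventually.of_forall fun x a b =>
    ⟨hm _ _ x (le_max_left _ _) a, hm' _ _ x (le_max_right _ _) b⟩⟩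

theorem Tight.and_ae (h : S.Tight T) (h' : ∀ᵐ x ∂S.μ, Q x) : S.Tight fun n x => T n x ∧ Q x :=
  h.mono (h'.mono fun _ hx _ hn => ⟨hn, hx⟩)

theorem Tight.forall {ι : Type} [Finite ι] {T : ι → ℕ → X → Prop} (h : ∀ i, S.Tight (T i))
    (hm : ∀ i n n' x, n ≤ n' → T i n x → T i n' x) : S.Tight fun n x => ∀ i, T i n x := by
  have := Fintype.ofFinite ι
  choose R hR h using h
  exact ⟨fun x => ∑ i, R i x, Finset.measurable_sum _ fun i _ => hR i,
    (ae_all_iff.2 h).mono fun x hx i => hm i _ _ x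
      (Finset.single_le_sum (f := fun i => R i x) (fun _ _ => Nat.zero_le _) (Finset.mem_univ i))
      (hx i)⟩

theorem tight_const (n : ℕ) (h : ∀ᵐ x ∂S.μ, T n x) : S.Tight T :=
  ⟨fun _ => n, measurable_const, h⟩

theorem tight_of_ae (h : ∀ᵐ x ∂S.μ, Q x) : S.Tight fun _ x => Q x := tight_const 0 h

theorem tight_of_sets (hm : ∀ n, NullMeasurableSet {x | T n x} S.μ) (h : ∀ᵐ x ∂S.μ, ∃ n, T n x) :
    S.Tight T := by
  classical
  choose A hA hAm hAe using fun n => (hm n).exists_measurable_subset_ae_eq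
  have hex : ∀ x, ∃ n, x ∈ A n ∪ (⋃ n, A n)ᶜ := fun x => by
    by_cases hx : x ∈ ⋃ n, A n
    · exact (mem_iUnion.1 hx).imp fun _ h => Or.inl h
    · exact ⟨0, Or.inr hx⟩
  refine ⟨fun x => Nat.find (hex x), measurable_find hex fun n =>
    (hAm n).union (MeasurableSet.iUnion hAm).compl, ?_⟩
  filter_upwards [h, ae_all_iff.2 hAe] with x ⟨n, hn⟩ he
  rcases Nat.find_spec (hex x) with h1 | h1
  · exact hA _ h1
  · exact (h1 (mem_iUnion.2 ⟨n, (he n).mpr hn⟩)).elim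

theorem tight_le {f : X → ℝ} (hf : AEMeasurable f S.μ) : S.Tight fun n x => f x ≤ n :=
  tight_of_sets (fun _ => nullMeasurableSet_le hf aemeasurable_const)
    (Eventually.of_forall fun _ => exists_nat_ge _)

/-- measurable families of operators with nested kernels -/
theorem tight_ker [FiniteDimensional ℝ W] {A : X → F →L[ℝ] W} {M : X → F →L[ℝ] G}
    (hA : AEMeasurable A S.μ) (hM : AEMeasurable M S.μ)
    (h : ∀ᵐ x ∂S.μ, ∀ v, M x v = 0 → A x v = 0) :
    S.Tight fun n x => ∀ v, ‖A x v‖ ≤ n * ‖M x v‖ := by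
  refine tight_of_sets (fun n => ?_) (h.mono fun x hx => ?_)
  · have hc : IsClosed {p : (F →L[ℝ] W) × (F →L[ℝ] G) | ∀ v, ‖p.1 v‖ ≤ n * ‖p.2 v‖} := by
      rw [ofPred_forall]
      exact isClosed_iInter fun v => isClosed_le (by fun_prop) (by fun_prop)
    exact (hA.prodMk hM).nullMeasurableSet_preimage hc.measurableSet
  · obtain ⟨C, -, hC⟩ := le_of_ker_le hx
    obtain ⟨n, hn⟩ := exists_nat_ge C
    exact ⟨n, fun v => (hC v).trans (mul_le_mul_of_nonneg_right hn (norm_nonneg _))⟩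

theorem tight_sub {H : X → Submodule ℝ F} (hH : MET.MSub S.μ H) {M : X → F →L[ℝ] G}
    (hM : AEMeasurable M S.μ) : S.Tight fun n x => ∀ v ∈ H x,
      ∃ k ∈ H x ⊓ (M x).ker, ‖v - k‖ ≤ n * ‖M x v‖ := by
  obtain ⟨p, -, hp, -, -, hp'⟩ := hH.exists_proj
  obtain ⟨r, -, hr, -, -, hr'⟩ := (hH.inf (MET.msub_ker hM)).exists_proj
  have h1 := tight_ker (S := S) (A := fun x => p x - r x ∘L p x) (M := fun x => M x ∘L p x)
    (hp.aemeasurable.sub (MET.aem_comp hr.aemeasurable hp.aemeasurable))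
    (MET.aem_comp hM hp.aemeasurable) (by
      filter_upwards [hp', hr'] with x a b v hv
      exact sub_eq_zero.2 (b.2 _ ⟨a.1 v, hv⟩).symm)
  refine h1.mono ?_
  filter_upwards [hp', hr'] with x a b n hn v hv
  have h2 : ‖p x v - r x (p x v)‖ ≤ n * ‖M x (p x v)‖ := hn v
  rw [a.2 v hv] at h2
  exact ⟨r x v, b.1 v, h2⟩

theorem tight_gap {H : X → Submodule ℝ F} (hH : MET.MSub S.μ H) {M : X → F →L[ℝ] G}
    (hM : AEMeasurable M S.μ) : S.Tight fun n x => ∀ v ∈ H x,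
      infDist v ((H x ⊓ (M x).ker : Submodule ℝ F) : Set F) ≤ n * ‖M x v‖ :=
  (tight_sub hH hM).mono (Eventually.of_forall fun _ _ h v hv => by
    obtain ⟨k, hk, h1⟩ := h v hv
    exact (infDist_le_dist_of_mem hk).trans ((dist_eq_norm v k).trans_le h1))

theorem tight_lift {H : X → Submodule ℝ F} (hH : MET.MSub S.μ H) {M : X → F →L[ℝ] G}
    (hM : AEMeasurable M S.μ) : S.Tight fun n x => ∀ v ∈ H x,
      ∃ v' ∈ H x, M x v' = M x v ∧ ‖v'‖ ≤ n * ‖M x v‖ :=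
  (tight_sub hH hM).mono (Eventually.of_forall fun x _ h v hv => by
    obtain ⟨k, hk, h1⟩ := h v hv
    have h2 : M x k = 0 := hk.2
    exact ⟨v - k, sub_mem hv hk.1, by rw [map_sub, h2, sub_zero], h1⟩)

end Sys

end Vale.Agent.P207Z
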