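import Vale.Agent.P207Z.GSA
import Vale.Agent.P207Z.ErgS
import Vale.Agent.P207Z.JetM
import Vale.Agent.P207Z.Lift.Pb

/-!
# P207: the pull backs of bounded sections are close to a finite dimensional space
-/

set_option linter.all false

open Set Filter Topology Metric MeasureTheory Asymptotics
open scoped ContDiff

noncomputable section

namespace Vale.Agent.P207Z

open Lift

variable {Γ X B E V : Type} [Group Γ] [Countable Γ] [MetricSpace X] [ProperSpace X]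
  [MulAction Γ X] [IsIsometricSMul Γ X] [MeasurableSpace X] [BorelSpace X]
  [TopologicalSpace B] [CompactSpace B] [T2Space B] [SecondCountableTopology B] [MulAction Γ B]
  [ContinuousConstSMul Γ B] [MeasurableSpace B] [BorelSpace B]
  [NormedAddCommGroup E] [InnerProductSpace ℝ E] [FiniteDimensional ℝ E]
  [NormedAddCommGroup V] [NormedSpace ℝ V] [FiniteDimensional ℝ V]
  {B' 𝒢 : Type} [NormedAddCommGroup B'] [NormedSpace ℝ B'] [FiniteDimensional ℝ B']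
  [NormedAddCommGroup 𝒢] [NormedSpace ℝ 𝒢] [FiniteDimensional ℝ 𝒢]
  {S : Sys Γ X B E V} {Y : Type} [MeasurableSpace Y] [MulAction Γ Y]

/-- bounds of the derivatives on a ball -/
def PB (j : ℕ) (f : B' → 𝒢) (ρ A : ℝ) : Prop := ∀ q ∈ ball (0 : B') ρ, Pb j f q A

theorem PB.contDiffOn {j : ℕ} {f : B' → 𝒢} {ρ A : ℝ} (h : PB j f ρ A) (k : ℕ) :
    ContDiffOn ℝ k f (ball 0 ρ) := fun q hq => (cda (h q hq).sm k).contDiffWithinAt

theorem pB_poly (K k : ℕ) (r : ℝ) :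
    ∃ C ≥ 0, ∀ a : Jet K B' 𝒢, PB k (poly a) r (C * ‖a‖) := by
  have : ProperSpace B' := FiniteDimensional.proper ℝ B'
  choose C hC using fun i : ℕ => (isCompact_closedBall (0 : B') r).exists_bound_of_continuousOn
    ((contDiff_polyL (k := K) (V := B') (W := 𝒢)).continuous_iteratedFDeriv
      (nat_le_inf i)).continuousOn
  refine ⟨2 ^ k * ∑ i ∈ Finset.range (k + 1), |C i|, by positivity, fun a q hq => ?_⟩
  have h1 : Pb k (polyL K B' 𝒢) q (∑ i ∈ Finset.range (k + 1), |C i|) :=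
    ⟨contDiff_polyL.contDiffAt, fun i hi => ((hC i q (ball_subset_closedBall hq)).trans
      (le_abs_self _)).trans (Finset.single_le_sum (f := fun i => |C i|) (fun _ _ => abs_nonneg _)
        (Finset.mem_range.2 (by omega)))⟩
  have h2 := h1.app (pb_const a le_rfl)
  simp only [polyL_apply] at h2
  exact h2.le (by rw [mul_assoc])

theorem Coc0.coc_apply {F : Type} [NormedAddCommGroup F] [NormedSpace ℝ F] (C : Coc0 S F)
    {x y z : X} (h : S.pt x = S.pt y) (h' : S.pt x = S.pt z) (v : F) :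
    C.Φ y z (C.Φ x y v) = C.Φ x z v := DFunLike.congr_fun (C.coc x y z h h') v

namespace GSys

variable {𝔖 : GSys S B' 𝒢} {t₁ r : ℝ}

theorem Contr.maps (h : 𝔖.Contr t₁ r) (x : X) {ρ : ℝ} (hρ : ρ ≤ r) {q : B'}
    (hq : q ∈ ball (0 : B') ρ) : 𝔖.θ x (S.φ t₁ x) q ∈ ball (0 : B') (ρ / 2) := by
  have := (convex_ball (0 : B') r).norm_image_sub_le_of_norm_fderiv_le (𝕜 := ℝ)
    (fun y hy => ((h.smθ x).contDiffAt (isOpen_ball.mem_nhds hy)).differentiableAt (by simp))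
    (h.lip x) (mem_ball_self h.r_pos) (ball_subset_ball hρ hq)
  rw [𝔖.θ_zero x _ (S.pt_φ _ _).symm, sub_zero, sub_zero] at this
  rw [mem_ball_zero_iff] at hq ⊢
  linarith

theorem Contr.step (h : 𝔖.Contr t₁ r) (j : ℕ) : ∃ W ≥ 1, ∀ x, ∀ ρ ≤ r, ∀ (f : B' → 𝒢) (A : ℝ),
    PB j f (ρ / 2) A → PB j (𝔖.pb x (S.φ t₁ x) f) ρ (W * A) := by
  choose C hC using h.bd
  obtain ⟨D, hD, hD1⟩ : ∃ D : ℝ, (∀ i ≤ j, C i ≤ D) ∧ 1 ≤ D :=
    ⟨1 + ∑ i ∈ Finset.range (j + 1), |C i|, fun i hi => by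
      linarith [le_abs_self (C i), Finset.single_le_sum (f := fun i => |C i|)
        (fun _ _ => abs_nonneg _) (Finset.mem_range.2 (by omega : i < j + 1))],
      le_add_of_nonneg_right (by positivity)⟩
  have h1 : (1 : ℝ) ≤ j.factorial := by exact_mod_cast j.factorial_pos
  refine ⟨2 ^ j * (D * (j.factorial * D ^ j)), one_le_mul_of_one_le_of_one_le
    (one_le_pow₀ one_le_two) (one_le_mul_of_one_le_of_one_le hD1
      (one_le_mul_of_one_le_of_one_le h1 (one_le_pow₀ hD1))), fun x ρ hρ f A hf q hq => ?_⟩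
  have hq' := ball_subset_ball hρ hq
  have h2 : Pb j (𝔖.L x (S.φ t₁ x)) q D := ⟨(h.smL x).contDiffAt (isOpen_ball.mem_nhds hq'),
    fun i hi => (hC i x q hq').2.trans (hD i hi)⟩
  exact (h2.app ((hf _ (h.maps x hρ hq)).comp ((h.smθ x).contDiffAt (isOpen_ball.mem_nhds hq')) hD1
    fun i _ hi => (hC i x q hq').1.trans (hD i hi))).le (le_of_eq (by ring))

theorem Contr.iter (h : 𝔖.Contr t₁ r) (j : ℕ) : ∃ W ≥ 1, ∀ (n : ℕ) x, ∀ ρ ≤ r, 0 ≤ ρ →
    ∀ (f : B' → 𝒢) (A : ℝ), PB j f (ρ / 2 ^ n) A → PB j (𝔖.pbn t₁ n x f) ρ (W ^ n * A) := by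
  obtain ⟨W, hW, hs⟩ := h.step j
  refine ⟨W, hW, fun n => ?_⟩
  induction n with
  | zero => intro x ρ _ _ f A hf; simpa [pbn] using hf
  | succ n ih =>
    intro x ρ hρ h0 f A hf
    have := hs x ρ hρ _ _ (ih (S.φ t₁ x) (ρ / 2) (by linarith) (by linarith) f A
      (by rwa [div_div, ← pow_succ']))
    rwa [← mul_assoc, ← pow_succ'] at this

theorem orb_succ (n : ℕ) (x : X) : S.φ ((n + 1 : ℕ) * t₁) x = S.φ t₁ (S.φ (n * t₁) x) := by
  rw [← S.φ_add]; congr 1; push_cast; ring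

theorem pbn_succ (n : ℕ) : ∀ (x : X) (f : B' → 𝒢), 𝔖.pbn t₁ (n + 1) x f =
    𝔖.pbn t₁ n x (𝔖.pb (S.φ (n * t₁) x) (S.φ ((n + 1 : ℕ) * t₁) x) f) := by
  induction n with
  | zero => intro x f; simp [pbn, S.φ_zero]
  | succ n ih =>
    intro x f
    have h1 : ∀ k : ℕ, S.φ (k * t₁) (S.φ t₁ x) = S.φ ((k + 1 : ℕ) * t₁) x := fun k => by
      rw [← S.φ_add]; congr 1; push_cast; ring
    rw [pbn, ih, h1, h1, pbn]

theorem pbn_lin (n : ℕ) : ∀ x : X, ∃ (Θ : B' → B') (L : B' → 𝒢 →L[ℝ] 𝒢),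
    ∀ f q, 𝔖.pbn t₁ n x f q = L q (f (Θ q)) := by
  induction n with
  | zero => exact fun x => ⟨id, fun _ => 1, fun f q => rfl⟩
  | succ n ih =>
    intro x
    obtain ⟨Θ, L, h⟩ := ih (S.φ t₁ x)
    exact ⟨fun q => Θ (𝔖.θ x (S.φ t₁ x) q), fun q => 𝔖.L x (S.φ t₁ x) q * L (𝔖.θ x (S.φ t₁ x) q),
      fun f q => by rw [pbn, pb, h]; rfl⟩

/-- the gain for the sections with zero jet -/
theorem Contr.gain (h : 𝔖.Contr t₁ r) (j : ℕ) {γ : ℝ} (hγ : 0 < γ) : ∃ K : ℕ, ∃ C ≥ 0,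
    ∀ (n : ℕ) x (u : B' → 𝒢) (A : ℝ), PB (K + 1) u r A → jet K u 0 = 0 →
      PB j (𝔖.pbn t₁ n x u) r (C * γ ^ n * A) := by
  obtain ⟨W, hW, hs⟩ := h.iter j
  obtain ⟨N, hN⟩ := exists_pow_lt_of_lt_one (show 0 < γ / W by positivity)
    (show (1 / 2 : ℝ) < 1 by norm_num)
  rw [lt_div_iff₀ (by positivity)] at hN
  have hr := h.r_pos
  refine ⟨N + j, max 1 r ^ (N + j + 1), by positivity, fun n x u A hu h0 q hq => ?_⟩
  have hA := (hu 0 (mem_ball_self hr)).nonneg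
  have h2 : r / 2 ^ n ≤ r := div_le_self hr.le (one_le_pow₀ one_le_two)
  refine (hs n x r le_rfl hr.le u (max 1 r ^ (N + j + 1) * ((1 / 2) ^ N) ^ n * A)
    (fun z hz => ⟨(hu z (ball_subset_ball h2 hz)).sm, fun i hi => ?_⟩) q hq).le ?_
  · refine (deriv_bound_of_jet (hu.contDiffOn _) h0 (fun z hz => (hu z hz).bd _ le_rfl)
      (by omega) (ball_subset_ball h2 hz)).trans ?_
    rw [sub_zero, mul_comm]
    refine mul_le_mul_of_nonneg_right ?_ hA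
    calc _ ≤ (max 1 r * (1 / 2) ^ n) ^ (N + j + 1 - i) := by
          refine pow_le_pow_left₀ (norm_nonneg _) ((mem_ball_zero_iff.1 hz).le.trans ?_) _
          rw [one_div, inv_pow, div_eq_mul_inv]
          exact mul_le_mul_of_nonneg_right (le_max_right _ _) (by positivity)
      _ ≤ _ := by
          rw [mul_pow, ← pow_mul, ← pow_mul]
          exact mul_le_mul (pow_le_pow_right₀ (le_max_left _ _) (by omega))
            (pow_le_pow_of_le_one (by norm_num) (by norm_num)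
              (by rw [mul_comm]; exact Nat.mul_le_mul_left _ (by omega)))
            (by positivity) (by positivity)
  · calc _ = max 1 r ^ (N + j + 1) * ((1 / 2) ^ N * W) ^ n * A := by rw [mul_pow]; ring
      _ ≤ _ := by gcongr

variable (𝔖) in
/-- the pull back of the Taylor polynomial of the jet at the time `i t₁` -/
def Fi (t₁ : ℝ) (K : ℕ) (x : X) (i : ℕ) (v : Jet K B' 𝒢) : B' → 𝒢 :=
  𝔖.pbn t₁ i x (poly ((𝔖.coc0 K).Φ x (S.φ (i * t₁) x) v))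

theorem contDiffAt_pb {x y : X} (h : S.pt x = S.pt y) {f : B' → 𝒢} (hf : ContDiffAt ℝ ∞ f 0) :
    ContDiffAt ℝ ∞ (𝔖.pb x y f) 0 :=
  (𝔖.contDiffAt_L h).clm_apply (ContDiffAt.comp 0 (by rwa [𝔖.θ_zero x y h]) (𝔖.contDiffAt_θ h))

theorem Contr.diff (h : 𝔖.Contr t₁ r) (j : ℕ) {γ : ℝ} (hγ : 0 < γ) : ∃ K : ℕ, ∃ C ≥ 0,
    (∀ x (i : ℕ) (v : Jet K B' 𝒢),
      PB j (fun q => 𝔖.Fi t₁ K x (i + 1) v q - 𝔖.Fi t₁ K x i v q) r (C * γ ^ i *
        (‖(𝔖.coc0 K).Φ x (S.φ ((i + 1 : ℕ) * t₁) x) v‖ + ‖(𝔖.coc0 K).Φ x (S.φ (i * t₁) x) v‖))) ∧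
    ∀ x (m : ℕ) (g : B' → 𝒢) (A : ℝ), PB (K + 1) g r A → ∃ b : Jet K B' 𝒢, ‖b‖ ≤ C * A ∧
      (𝔖.coc0 K).Φ (S.φ (m * t₁) x) (S.φ (m * t₁) x) b = b ∧ ∀ q ∈ ball (0 : B') r,
        ‖𝔖.pbn t₁ (m + 1) x g q - 𝔖.pbn t₁ m x (poly b) q‖ ≤ C * γ ^ m * A := by
  obtain ⟨K, C, hC, hg⟩ := h.gain j hγ
  obtain ⟨W, hW, hs⟩ := h.step (K + 1)
  obtain ⟨D, hD, hp⟩ := pB_poly (B' := B') (𝒢 := 𝒢) K (K + 1) r
  have hr := h.r_pos
  have h0 : (0 : B') ∈ ball (0 : B') r := mem_ball_self hr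
  have hs' : ∀ x (i : ℕ) f A, PB (K + 1) f r A →
      PB (K + 1) (𝔖.pb (S.φ (i * t₁) x) (S.φ ((i + 1 : ℕ) * t₁) x) f) r (W * A) :=
    fun x i f A hf => by
      rw [orb_succ]
      exact hs _ r le_rfl f A fun q hq => hf q (ball_subset_ball (by linarith) hq)
  have hpt : ∀ x s t, S.pt (S.φ s x) = S.pt (S.φ t x) := fun x s t => by rw [S.pt_φ, S.pt_φ]
  refine ⟨K, W + C * (W + W * D), by positivity, fun x i v q hq => ?_, fun x m g A hA => ?_⟩
  · have h1 := hs' x i _ _ (hp ((𝔖.coc0 K).Φ x (S.φ ((i + 1 : ℕ) * t₁) x) v))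
    have h2 := hp ((𝔖.coc0 K).Φ x (S.φ (i * t₁) x) v)
    have h3 := hg i x _ _ (fun z hz => (h1 z hz).sub (h2 z hz)) (by
      rw [jet_sub (cda (h1 0 h0).sm K) (cda (h2 0 h0).sm K), ← 𝔖.coc0_apply K (hpt x _ _),
        (𝔖.coc0 K).coc_apply (S.pt_φ _ _).symm (S.pt_φ _ _).symm,
        𝔖.coc0_apply K (S.pt_φ _ _).symm, jet_poly_jet (cda (contDiffAt_pb (S.pt_φ _ _)
          (contDiff_poly v).contDiffAt) K), sub_self]) q hq
    obtain ⟨Θ, L, hl⟩ := 𝔖.pbn_lin (t₁ := t₁) i x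
    refine (h3.congr (Eventually.of_forall fun z => ?_)).le ?_
    · simp only [Fi, pbn_succ, hl, map_sub]
    · have := norm_nonneg ((𝔖.coc0 K).Φ x (S.φ ((i + 1 : ℕ) * t₁) x) v)
      have := norm_nonneg ((𝔖.coc0 K).Φ x (S.φ (i * t₁) x) v)
      calc _ ≤ C * γ ^ i * (W * (D * ‖(𝔖.coc0 K).Φ x (S.φ ((i + 1 : ℕ) * t₁) x) v‖) +
            W * (D * ‖(𝔖.coc0 K).Φ x (S.φ (i * t₁) x) v‖)) := by
            exact mul_le_mul_of_nonneg_left (add_le_add_right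
              (le_mul_of_one_le_left (by positivity) hW) _) (by positivity)
        _ = C * (W * D) * γ ^ i * (‖(𝔖.coc0 K).Φ x (S.φ ((i + 1 : ℕ) * t₁) x) v‖ +
            ‖(𝔖.coc0 K).Φ x (S.φ (i * t₁) x) v‖) := by ring
        _ ≤ _ := by gcongr; nlinarith [mul_nonneg hC (zero_le_one.trans hW)]
  · have h1 := hs' x m g A hA
    have hA0 := (hA 0 h0).nonneg
    set g' := 𝔖.pb (S.φ (m * t₁) x) (S.φ ((m + 1 : ℕ) * t₁) x) g with hg'
    have hb : ‖jet K g' 0‖ ≤ W * A :=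
      norm_jet_le (by positivity) fun i hi => (h1 0 h0).bd i (by omega)
    have h2 := hp (jet K g' 0)
    have h3 := hg m x _ _ (fun z hz => (h1 z hz).sub (h2 z hz)) (by
      rw [jet_sub (cda (h1 0 h0).sm K) (cda (h2 0 h0).sm K), jet_poly_jet (cda (h1 0 h0).sm K),
        sub_self])
    obtain ⟨Θ, L, hl⟩ := 𝔖.pbn_lin (t₁ := t₁) m x
    refine ⟨jet K g' 0, hb.trans (by gcongr; exact le_add_of_nonneg_right (by positivity)), ?_,
      fun q hq => ?_⟩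
    · rw [hg', ← 𝔖.coc0_jet K (hpt x _ _) (cda (hA 0 h0).sm K),
        (𝔖.coc0 K).coc_apply (hpt x _ _) (hpt x _ _)]
    · have h4 := (h3 q hq).norm_le
      rw [hl, map_sub, ← hl, ← hl, ← pbn_succ] at h4
      calc _ ≤ _ := h4
        _ ≤ C * γ ^ m * (W * A + D * (W * A)) := by gcongr
        _ = C * (W + W * D) * γ ^ m * A := by ring
        _ ≤ _ := by gcongr; exact le_add_of_nonneg_left (by positivity)

end GSys

/-- the slow and the fast part of the spectrum -/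
theorem Coc0.splitG {F : Type} [NormedAddCommGroup F] [NormedSpace ℝ F] (C : Coc0 S F) {x : X}
    (hx : MET.Reg S.φ C.fl x) {t₁ : ℝ} (ht : 0 < t₁) {M : ℝ} (hM : 0 ≤ M) :
    ∃ (pL pH : F →L[ℝ] F) (n : ℝ), 0 ≤ n ∧ pL + pH = C.Φ x x ∧
      (∀ i m : ℕ, m ≤ i → ‖C.Φ x (S.φ (i * t₁) x) * pL * C.Φ (S.φ (m * t₁) x) x‖ ≤
        n * Real.exp (M + 3) ^ i) ∧
      ∀ i m : ℕ, i ≤ m → ‖C.Φ x (S.φ (i * t₁) x) * pH * C.Φ (S.φ (m * t₁) x) x‖ ≤
        n * Real.exp (-M) ^ m * Real.exp (M + 3) ^ i := by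
  obtain ⟨π, hπ⟩ := hx
  choose D hD using fun a => hπ.bd a t₁⁻¹ (inv_pos.2 ht)
  have h1 : ∀ (s : Finset ℝ) (i m : ℕ) (e : ℝ), s ⊆ hπ.fin.toFinset →
      (∀ a ∈ s, (i - m) * (a * t₁) + (i + m) ≤ e) →
      ‖C.Φ x (S.φ (i * t₁) x) * (∑ a ∈ s, π a) * C.Φ (S.φ (m * t₁) x) x‖ ≤
        (∑ a ∈ hπ.fin.toFinset, |D a|) * Real.exp e := fun s i m e hs he => by
    rw [Finset.mul_sum, Finset.sum_mul]
    refine (norm_sum_le _ _).trans ((Finset.sum_le_sum (g := fun a => |D a| * Real.exp e)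
      fun a ha => ?_).trans ?_)
    · have h2 := hD a (m * t₁) (i * t₁)
      rw [Coc0.fl, Coc0.fl, ← S.φ_add, neg_add_cancel, S.φ_zero,
        abs_of_nonneg (by positivity), abs_of_nonneg (by positivity)] at h2
      refine h2.trans (mul_le_mul (le_abs_self _) (Real.exp_le_exp.2 ((le_of_eq ?_).trans (he a ha)))
        (Real.exp_pos _).le (abs_nonneg _))
      field_simp
      ring
    · rw [← Finset.sum_mul]
      exact mul_le_mul_of_nonneg_right (Finset.sum_le_sum_of_subset_of_nonneg hs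
        fun _ _ _ => abs_nonneg _) (Real.exp_pos _).le
  refine ⟨∑ a ∈ hπ.fin.toFinset.filter (fun a => a * t₁ ≤ M + 1), π a,
    ∑ a ∈ hπ.fin.toFinset.filter (fun a => ¬ a * t₁ ≤ M + 1), π a,
    ∑ a ∈ hπ.fin.toFinset, |D a|, by positivity, ?_, fun i m hm => ?_, fun i m hm => ?_⟩
  · rw [Finset.sum_filter_add_sum_filter_not, ← finsum_eq_sum π hπ.fin, hπ.sum, Coc0.fl, S.φ_zero]
  · rw [← Real.exp_nat_mul]
    refine h1 _ i m _ (Finset.filter_subset _ _) fun a ha => ?_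
    have h2 := (Finset.mem_filter.1 ha).2
    have h3 : (m : ℝ) ≤ i := by exact_mod_cast hm
    nlinarith [mul_le_mul_of_nonneg_left h2 (sub_nonneg.2 h3), (Nat.cast_nonneg m : (0 : ℝ) ≤ m),
      mul_nonneg (Nat.cast_nonneg m : (0 : ℝ) ≤ m) hM]
  · rw [← Real.exp_nat_mul, ← Real.exp_nat_mul, mul_assoc (∑ a ∈ _, |D a|), ← Real.exp_add]
    refine h1 _ i m _ (Finset.filter_subset _ _) fun a ha => ?_
    have h2 := (not_le.1 (Finset.mem_filter.1 ha).2).le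
    have h3 : (i : ℝ) ≤ m := by exact_mod_cast hm
    nlinarith [mul_le_mul_of_nonneg_left h2 (sub_nonneg.2 h3), (Nat.cast_nonneg i : (0 : ℝ) ≤ i)]

namespace GSys

variable (𝔖 : GSys S B' 𝒢)

/-- **PCLASS**: the pull backs of bounded sections are close to a finite dimensional space -/
theorem pclass (P : Prob S Y) {t₁ r : ℝ} (h : 𝔖.Contr t₁ r) (j : ℕ) (M : ℝ) :
    ∃ K : ℕ, ∀ᵐ x ∂S.μ, ∃ Pc : Submodule ℝ (B' → 𝒢), FiniteDimensional ℝ Pc ∧
      (∀ f ∈ Pc, ContDiffOn ℝ j f (ball 0 r) ∧ ∃ C, ∀ q ∈ ball (0 : B') r, ‖f q‖ ≤ C) ∧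
      ∀ C₀ : ℝ, ∃ C : ℝ, ∀ (n : ℕ) (g : B' → 𝒢), ContDiffOn ℝ ∞ g (ball 0 r) →
        (∀ i ≤ K, ∀ q ∈ ball (0 : B') r, ‖iteratedFDeriv ℝ i g q‖ ≤ C₀) →
        ∃ f ∈ Pc, ∀ q ∈ ball (0 : B') r,
          ‖𝔖.pbn t₁ n x g q - f q‖ ≤ C * Real.exp (-M * n) := by
  have : CompleteSpace 𝒢 := FiniteDimensional.complete ℝ 𝒢
  set β := Real.exp (|M| + 3) with hβ
  set η := Real.exp (-|M|) with hη
  have hβ1 : 1 ≤ β := Real.one_le_exp (by positivity)
  have hη0 : 0 < η := Real.exp_pos _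
  have hη1 : η ≤ 1 := Real.exp_le_one_iff.2 (neg_nonpos.2 (abs_nonneg M))
  obtain ⟨K, C, hC, hd, hb⟩ := h.diff j (γ := η / 2 / β) (by positivity)
  obtain ⟨W, hW, hs⟩ := h.iter j
  obtain ⟨D, hD, hp⟩ := pB_poly (B' := B') (𝒢 := 𝒢) K j r
  have hr := h.r_pos
  refine ⟨K + 1, ?_⟩
  filter_upwards [(𝔖.coc0 K).ae_reg P] with x hx
  obtain ⟨pL, pH, N, hN, hsum, hL, hH⟩ := (𝔖.coc0 K).splitG hx h.t_pos (abs_nonneg M)
  rw [← hβ] at hL hH
  rw [← hη] at hH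
  set A : ℕ → Jet K B' 𝒢 →L[ℝ] Jet K B' 𝒢 := fun i => (𝔖.coc0 K).Φ x (S.φ (i * t₁) x) with hA
  set R : ℕ → Jet K B' 𝒢 →L[ℝ] Jet K B' 𝒢 := fun m => (𝔖.coc0 K).Φ (S.φ (m * t₁) x) x with hR
  have key : ∀ (p : Jet K B' 𝒢 →L[ℝ] Jet K B' 𝒢) (b : Jet K B' 𝒢) (m i : ℕ) (c : ℝ), 0 ≤ c →
      ‖A (i + 1) * p * R m‖ ≤ c * β ^ (i + 1) → ‖A i * p * R m‖ ≤ c * β ^ i →
      PB j (fun q => 𝔖.Fi t₁ K x (i + 1) (p (R m b)) q - 𝔖.Fi t₁ K x i (p (R m b)) q) r
        (2 * C * β * ‖b‖ * c * (η / 2) ^ i) := fun p b m i c hc h1 h2 q hq => by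
    refine (hd x i _ q hq).le ?_
    have h3 := (A (i + 1) * p * R m).le_of_opNorm_le h1 b
    have h4 := (A i * p * R m).le_of_opNorm_le (h2.trans (mul_le_mul_of_nonneg_left
      (pow_le_pow_right₀ hβ1 (Nat.le_succ i)) hc)) b
    calc _ ≤ C * (η / 2 / β) ^ i * (c * β ^ (i + 1) * ‖b‖ + c * β ^ (i + 1) * ‖b‖) := by
          gcongr
          exacts [h3, h4]
      _ = _ := by rw [div_pow _ β]; field_simp; ring
  have half : ∀ i m : ℕ, m ≤ i → (η / 2) ^ i ≤ η ^ m * (1 / 2) ^ i := fun i m hm => by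
    rw [div_eq_mul_one_div, mul_pow]
    exact mul_le_mul_of_nonneg_right (pow_le_pow_of_le_one hη0.le hη1 hm) (by positivity)
  have low : ∀ b (m i : ℕ), m ≤ i →
      PB j (fun q => 𝔖.Fi t₁ K x (i + 1) (pL (R m b)) q - 𝔖.Fi t₁ K x i (pL (R m b)) q) r
        (2 * C * β * ‖b‖ * N * η ^ m * (1 / 2) ^ i) := fun b m i hm q hq =>
    (key pL b m i N hN (hL _ m (by omega)) (hL i m hm) q hq).le (by
      rw [mul_assoc _ (η ^ m)]; exact mul_le_mul_of_nonneg_left (half i m hm) (by positivity))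
  have hF : ∀ i v, PB j (𝔖.Fi t₁ K x i v) r (W ^ i * (D * ‖A i v‖)) := fun i v =>
    hs i x r le_rfl hr.le _ _ fun q hq =>
      hp _ q (ball_subset_ball (div_le_self hr.le (one_le_pow₀ one_le_two)) hq)
  have hlim : ∀ v q, ∃ z, (q ∈ ball (0 : B') r →
      Tendsto (fun i => 𝔖.Fi t₁ K x i (pL (R 0 v)) q) atTop (𝓝 z)) ∧ (q ∉ ball (0 : B') r → z = 0) :=
    fun v q => by
      by_cases hq : q ∈ ball (0 : B') r
      · obtain ⟨z, hz⟩ := cauchySeq_tendsto_of_complete (cauchySeq_of_le_geometric (1 / 2) _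
          (f := fun i => 𝔖.Fi t₁ K x i (pL (R 0 v)) q) (by norm_num) fun i => by
            rw [dist_comm, dist_eq_norm]; exact (low v 0 i (Nat.zero_le i) q hq).norm_le)
        exact ⟨z, fun _ => hz, fun h => absurd hq h⟩
      · exact ⟨0, fun h => absurd h hq, fun _ => rfl⟩
  choose G hG hG0 using hlim
  have hlin : ∀ i q, ∃ T : Jet K B' 𝒢 →L[ℝ] 𝒢, ∀ v, 𝔖.Fi t₁ K x i v q = T v := fun i q => by
    obtain ⟨Θ, L, hl⟩ := 𝔖.pbn_lin (t₁ := t₁) i x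
    exact ⟨L q ∘L polyL K B' 𝒢 (Θ q) ∘L A i, fun v => by rw [Fi, hl, ← polyL_apply]; rfl⟩
  choose T hT using hlin
  let Gl : Jet K B' 𝒢 →ₗ[ℝ] B' → 𝒢 :=
    { toFun := G
      map_add' := fun v w => funext fun q => by
        by_cases hq : q ∈ ball (0 : B') r
        · exact tendsto_nhds_unique (hG _ q hq) (((hG v q hq).add (hG w q hq)).congr fun i => by
            simp only [hT, map_add])
        · rw [Pi.add_apply, hG0 _ q hq, hG0 _ q hq, hG0 _ q hq, add_zero]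
      map_smul' := fun c v => funext fun q => by
        by_cases hq : q ∈ ball (0 : B') r
        · exact tendsto_nhds_unique (hG _ q hq) (((hG v q hq).const_smul c).congr fun i => by
            simp only [hT, map_smul])
        · rw [Pi.smul_apply, hG0 _ q hq, hG0 _ q hq, smul_zero] }
  have hRR : ∀ m b, R 0 (R m b) = R m b := fun m b => by
    simp only [hR, Nat.cast_zero, zero_mul, S.φ_zero]
    rw [(𝔖.coc0 K).coc_apply (S.pt_φ _ _) (S.pt_φ _ _)]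
  have tail : ∀ b (m : ℕ) (z : B' → 𝒢), ∀ q ∈ ball (0 : B') r,
      Tendsto (fun i => 𝔖.Fi t₁ K x i (pL (R m b)) q) atTop (𝓝 (z q)) →
      ‖𝔖.Fi t₁ K x m (pL (R m b)) q - z q‖ ≤ 4 * C * β * ‖b‖ * N * η ^ m := fun b m z q hq hz => by
    have := dist_le_of_le_geometric_of_tendsto₀ (1 / 2) (2 * C * β * ‖b‖ * N * η ^ m)
      (f := fun i => 𝔖.Fi t₁ K x (i + m) (pL (R m b)) q) (by norm_num) (fun i => by
        rw [dist_comm, dist_eq_norm, add_right_comm]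
        exact (low b m _ (by omega) q hq).norm_le.trans (mul_le_mul_of_nonneg_left
          (pow_le_pow_of_le_one (by norm_num) (by norm_num) (by omega)) (by positivity)))
      ((tendsto_add_atTop_iff_nat m).2 hz)
    rw [zero_add, dist_eq_norm] at this
    exact this.trans (le_of_eq (by ring))
  refine ⟨Gl.range, inferInstance, ?_, fun C₀ => ?_⟩
  · rintro _ ⟨v, rfl⟩
    refine ⟨(An.contDiffOn_of_summable j isOpen_ball (fun i => (hF i _).contDiffOn j)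
      ((summable_geometric_two).mul_left (2 * C * β * ‖v‖ * N * η ^ 0))
      (fun l hl i q hq => ?_) (hG v)).1, W ^ 0 * (D * ‖A 0 (pL (R 0 v))‖) +
        4 * C * β * ‖v‖ * N * η ^ 0, fun q hq => ?_⟩
    · rw [← fun_iteratedFDeriv_sub_apply (cda (hF _ _ q hq).sm l) (cda (hF _ _ q hq).sm l)]
      exact (low v 0 i (Nat.zero_le i) q hq).bd l hl
    · have := norm_sub_le_of_le (hF 0 (pL (R 0 v)) q hq).norm_le (tail v 0 (G v) q hq (hG v q hq))
      rwa [sub_sub_cancel] at this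
  refine ⟨(1 + C + (8 * C * β + D) * C * N) * |C₀| * Real.exp |M|, fun n g hg hgb => ?_⟩
  have hgP : PB (K + 1) g r |C₀| := fun q hq => ⟨hg.contDiffAt (isOpen_ball.mem_nhds hq),
    fun i hi => (hgb i hi q hq).trans (le_abs_self _)⟩
  have he1 : 1 ≤ Real.exp |M| := Real.one_le_exp (abs_nonneg M)
  rcases n with _ | m
  · refine ⟨0, zero_mem _, fun q hq => ?_⟩
    simp only [pbn, Pi.zero_apply, sub_zero, Nat.cast_zero, mul_zero, Real.exp_zero, mul_one]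
    calc _ ≤ 1 * |C₀| * 1 := by simpa using (hgP q hq).norm_le
      _ ≤ _ := by gcongr; rw [add_assoc]; exact le_add_of_nonneg_right (by positivity)
  obtain ⟨b, hb1, hb2, hb3⟩ := hb x m g _ hgP
  refine ⟨Gl (R m b), ⟨_, rfl⟩, fun q hq => ?_⟩
  have h1 := tail b m (G (R m b)) q hq (by simpa only [hRR] using hG (R m b) q hq)
  have h2 : ‖𝔖.Fi t₁ K x m (pH (R m b)) q‖ ≤ (4 * C * β + D) * ‖b‖ * N * η ^ m := by
    have h3 := dist_le_range_sum_of_dist_le (f := fun i => 𝔖.Fi t₁ K x i (pH (R m b)) q) m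
      (d := fun i => 2 * C * β * ‖b‖ * (N * η ^ m) * (1 / 2) ^ i) fun {i} hi => by
        rw [dist_comm, dist_eq_norm]
        refine (key pH b m i _ (by positivity) (hH _ m hi) (hH i m hi.le) q hq).norm_le.trans ?_
        gcongr
    rw [← Finset.mul_sum, dist_comm, dist_eq_norm] at h3
    have h4 := h3.trans (mul_le_mul_of_nonneg_left (sum_geometric_two_le m) (by positivity))
    have h5 := (hF 0 (pH (R m b)) q hq).norm_le
    have h6 : ‖A 0 (pH (R m b))‖ ≤ N * η ^ m * β ^ 0 * ‖b‖ :=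
      (A 0 * pH * R m).le_of_opNorm_le (hH 0 m (Nat.zero_le m)) b
    have h7 := norm_add_le_of_le h4 (h5.trans (mul_le_mul_of_nonneg_left
      (mul_le_mul_of_nonneg_left h6 hD) (by positivity)))
    rw [sub_add_cancel] at h7
    exact h7.trans (le_of_eq (by ring))
  have h3 : 𝔖.pbn t₁ m x (poly b) q =
      𝔖.Fi t₁ K x m (pL (R m b)) q + 𝔖.Fi t₁ K x m (pH (R m b)) q := by
    rw [hT, hT, ← map_add, ← add_apply, hsum, ← hT, Fi, hR,
      (𝔖.coc0 K).coc_apply (S.pt_φ _ _) (S.pt_φ _ _), (𝔖.coc0 K).coc_apply (S.pt_φ _ _) rfl, hb2]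
  have h4 := norm_add_le_of_le (hb3 q hq) (norm_add_le_of_le h1 h2)
  rw [sub_add_eq_add_sub (𝔖.Fi t₁ K x m _ q), ← h3, sub_add_sub_cancel] at h4
  have h5 : (η / 2 / β) ^ m ≤ η ^ m := pow_le_pow_left₀ (by positivity)
    ((div_le_self (by positivity) hβ1).trans (by linarith)) m
  have h6 : η ^ m ≤ Real.exp |M| * Real.exp (-M * (m + 1 : ℕ)) := by
    rw [hη, ← Real.exp_nat_mul, ← Real.exp_add, Real.exp_le_exp]
    push_cast
    nlinarith [le_abs_self M, mul_le_mul_of_nonneg_left (le_abs_self M)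
      (Nat.cast_nonneg m : (0 : ℝ) ≤ m)]
  calc _ ≤ _ := h4
    _ ≤ C * η ^ m * |C₀| + (4 * C * β * (C * |C₀|) * N * η ^ m +
        (4 * C * β + D) * (C * |C₀|) * N * η ^ m) := by gcongr
    _ = (C + (8 * C * β + D) * C * N) * |C₀| * η ^ m := by ring
    _ ≤ (1 + C + (8 * C * β + D) * C * N) * |C₀| *
        (Real.exp |M| * Real.exp (-M * (m + 1 : ℕ))) := by gcongr; linarith
    _ = _ := by ring

end GSys

end Vale.Agent.P207Z
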