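import Vale.Agent.P207Z.Rev

/-!
# P207: systems of germs along the geodesics, their cocycles on jets (block GS, first half)
-/

set_option linter.all false

open Set Filter Topology Metric MeasureTheory Asymptotics
open scoped ContDiff

noncomputable section

namespace Vale.Agent.P207Z

open Vale.Agent.P207.N3 (JC)

variable {Γ X B E V : Type} [Group Γ] [Countable Γ] [MetricSpace X] [ProperSpace X]
  [MulAction Γ X] [IsIsometricSMul Γ X] [MeasurableSpace X] [BorelSpace X]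
  [TopologicalSpace B] [CompactSpace B] [T2Space B] [SecondCountableTopology B] [MulAction Γ B]
  [ContinuousConstSMul Γ B] [MeasurableSpace B] [BorelSpace B]
  [NormedAddCommGroup E] [InnerProductSpace ℝ E] [FiniteDimensional ℝ E]
  [NormedAddCommGroup V] [NormedSpace ℝ V] [FiniteDimensional ℝ V]
  {F G W : Type} [NormedAddCommGroup F] [NormedSpace ℝ F] [FiniteDimensional ℝ F]
  [NormedAddCommGroup G] [NormedSpace ℝ G] [FiniteDimensional ℝ G]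
  [NormedAddCommGroup W] [NormedSpace ℝ W]
  {B' 𝒢 : Type} [NormedAddCommGroup B'] [NormedSpace ℝ B'] [FiniteDimensional ℝ B']
  [NormedAddCommGroup 𝒢] [NormedSpace ℝ 𝒢] [FiniteDimensional ℝ 𝒢]

/-- pairs of frames of one geodesic -/
abbrev Sys.Pair (S : Sys Γ X B E V) : Type := {p : X × X // S.pt p.1 = S.pt p.2}

/-- Germs `θ x y` of maps of `B'` which fix the origin, with linear maps `L x y q` from the fibre at `θ x y q`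
(chart of `y`) to the fibre at `q` (chart of `x`). -/
structure GSys (S : Sys Γ X B E V) (B' 𝒢 : Type) [NormedAddCommGroup B'] [NormedSpace ℝ B']
    [NormedAddCommGroup 𝒢] [NormedSpace ℝ 𝒢] where
  θ : X → X → B' → B'
  L : X → X → B' → 𝒢 →L[ℝ] 𝒢
  T : Set (S.Pair × B')
  θ_jc : JC (fun (p : S.Pair) q => θ p.1.1 p.1.2 q) T
  L_jc : JC (fun (p : S.Pair) q => L p.1.1 p.1.2 q) T
  mem : ∀ p : S.Pair, (p, 0) ∈ T
  θ_zero : ∀ x y, S.pt x = S.pt y → θ x y 0 = 0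
  coc : ∀ x y z, S.pt x = S.pt y → S.pt x = S.pt z → ∀ᶠ q in 𝓝 (0 : B'),
    θ y z (θ x y q) = θ x z q ∧ L x y q * L y z (θ x y q) = L x z q
  smul : ∀ (g : Γ) x y, S.pt x = S.pt y → ∀ᶠ q in 𝓝 (0 : B'),
    θ (g • x) (g • y) q = θ x y q ∧ L (g • x) (g • y) q = L x y q

variable {S : Sys Γ X B E V} {Y : Type} [MeasurableSpace Y] [MulAction Γ Y]

namespace GSys

variable (𝔖 : GSys S B' 𝒢)

/-- the pull back of a section from the chart of `y` to the chart of `x` -/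
def pb (x y : X) (f : B' → 𝒢) (q : B') : 𝒢 := 𝔖.L x y q (f (𝔖.θ x y q))

theorem contDiffAt_θ {x y : X} (h : S.pt x = S.pt y) : ContDiffAt ℝ ∞ (𝔖.θ x y) 0 :=
  𝔖.θ_jc.contDiffAt (p := (⟨(x, y), h⟩, 0)) (𝔖.mem _)
theorem contDiffAt_L {x y : X} (h : S.pt x = S.pt y) : ContDiffAt ℝ ∞ (𝔖.L x y) 0 :=
  𝔖.L_jc.contDiffAt (p := (⟨(x, y), h⟩, 0)) (𝔖.mem _)
theorem cd_θ (K : ℕ) {x y : X} (h : S.pt x = S.pt y) : ContDiffAt ℝ K (𝔖.θ x y) 0 :=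
  (𝔖.contDiffAt_θ h).of_le (by exact_mod_cast le_top)
theorem cd_L (K : ℕ) {x y : X} (h : S.pt x = S.pt y) : ContDiffAt ℝ K (𝔖.L x y) 0 :=
  (𝔖.contDiffAt_L h).of_le (by exact_mod_cast le_top)
theorem cd_pb {K : ℕ} {x y : X} (h : S.pt x = S.pt y) {f : B' → 𝒢} (hf : ContDiffAt ℝ K f 0) :
    ContDiffAt ℝ K (𝔖.pb x y f) 0 :=
  (𝔖.cd_L K h).clm_apply
    (ContDiffAt.comp (g := f) 0 (by rwa [𝔖.θ_zero x y h]) (𝔖.cd_θ K h))
theorem pb_pb {x y z : X} (h : S.pt x = S.pt y) (h' : S.pt x = S.pt z) (f : B' → 𝒢) :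
    𝔖.pb x y (𝔖.pb y z f) =ᶠ[𝓝 0] 𝔖.pb x z f := by
  filter_upwards [𝔖.coc x y z h h'] with q hq
  rw [pb, pb, pb, hq.1, ← hq.2]
  rfl
theorem pb_smul (g : Γ) {x y : X} (h : S.pt x = S.pt y) (f : B' → 𝒢) :
    𝔖.pb (g • x) (g • y) f =ᶠ[𝓝 0] 𝔖.pb x y f := by
  filter_upwards [𝔖.smul g x y h] with q hq
  rw [pb, pb, hq.1, hq.2]

/-- the cocycle on the jets at the origin -/
def coc0 (K : ℕ) : Coc0 S (Jet K B' 𝒢) where
  Φ x y := jetL K (𝔖.θ y x) (𝔖.L y x)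
  cont := by
    have h := continuousOn_jetL 𝔖.θ_jc 𝔖.L_jc K
    rw [eq_univ_of_forall (s := {x : S.Pair | (x, (0 : B')) ∈ 𝔖.T}) 𝔖.mem, continuousOn_univ] at h
    rw [continuousOn_iff_continuous_restrict]
    exact h.comp (f := fun p : {p : X × X | S.pt p.1 = S.pt p.2} =>
      (⟨(p.1.2, p.1.1), Eq.symm p.2⟩ : S.Pair)) (by fun_prop)
  coc x y z h h' := by
    have h1 : S.pt z = S.pt y := h'.symm.trans h
    refine ContinuousLinearMap.ext fun a => ?_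
    change jetL K _ _ (jetL K _ _ a) = _
    rw [jetL_apply (𝔖.cd_θ K h.symm) (𝔖.cd_L K h.symm),
      jetL_apply (𝔖.cd_θ K h'.symm) (𝔖.cd_L K h'.symm)]
    exact (jetL_jet (𝔖.cd_θ K h1) (𝔖.cd_L K h1) (𝔖.θ_zero _ _ h1)
      (𝔖.cd_pb h.symm (contDiffAt_poly a K 0))).trans (jet_congr (𝔖.pb_pb h1 h'.symm _))
  smul g x y h := by
    have h1 := (S.pt_smul_iff g).2 h.symm
    refine ContinuousLinearMap.ext fun a => ?_
    rw [jetL_apply (𝔖.cd_θ K h.symm) (𝔖.cd_L K h.symm), jetL_apply (𝔖.cd_θ K h1) (𝔖.cd_L K h1)]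
    exact jet_congr (𝔖.pb_smul g h.symm _)

theorem coc0_apply (K : ℕ) {x y : X} (h : S.pt x = S.pt y) (a : Jet K B' 𝒢) :
    (𝔖.coc0 K).Φ x y a = jet K (𝔖.pb y x (poly a)) 0 :=
  jetL_apply (𝔖.cd_θ K h.symm) (𝔖.cd_L K h.symm) a
theorem coc0_jet (K : ℕ) {x y : X} (h : S.pt x = S.pt y) {f : B' → 𝒢} (hf : ContDiffAt ℝ K f 0) :
    (𝔖.coc0 K).Φ x y (jet K f 0) = jet K (𝔖.pb y x f) 0 :=
  jetL_jet (𝔖.cd_θ K h.symm) (𝔖.cd_L K h.symm) (𝔖.θ_zero _ _ h.symm) hf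
theorem trunc_coc0 {k K : ℕ} (hk : k ≤ K) {x y : X} (h : S.pt x = S.pt y) (a : Jet K B' 𝒢) :
    trunc hk ((𝔖.coc0 K).Φ x y a) = (𝔖.coc0 k).Φ x y (trunc hk a) :=
  trunc_jetL hk (𝔖.cd_θ K h.symm) (𝔖.cd_L K h.symm) (𝔖.θ_zero _ _ h.symm) a

/-- the maps of the time `t₁` are uniform contractions of the ball of radius `r` -/
structure Contr (t₁ r : ℝ) : Prop where
  t_pos : 0 < t₁
  r_pos : 0 < r
  smθ : ∀ x, ContDiffOn ℝ ∞ (𝔖.θ x (S.φ t₁ x)) (ball 0 r)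
  smL : ∀ x, ContDiffOn ℝ ∞ (𝔖.L x (S.φ t₁ x)) (ball 0 r)
  lip : ∀ x, ∀ q ∈ ball (0 : B') r, ‖fderiv ℝ (𝔖.θ x (S.φ t₁ x)) q‖ ≤ 1 / 2
  bd : ∀ k : ℕ, ∃ C : ℝ, ∀ x, ∀ q ∈ ball (0 : B') r,
    ‖iteratedFDeriv ℝ k (𝔖.θ x (S.φ t₁ x)) q‖ ≤ C ∧ ‖iteratedFDeriv ℝ k (𝔖.L x (S.φ t₁ x)) q‖ ≤ C

/-- the iterated pull back from the time `n t₁` -/
def pbn (t₁ : ℝ) : ℕ → X → (B' → 𝒢) → B' → 𝒢
  | 0, _, f => f
  | n + 1, x, f => 𝔖.pb x (S.φ t₁ x) (pbn t₁ n (S.φ t₁ x) f)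

end GSys

/-- **MIN**: the least subspace which approximates a family -/
theorem min_sub {ι Z : Type} {s : Set Z} {Pc : Submodule ℝ (Z → 𝒢)} [FiniteDimensional ℝ Pc]
    (hb : ∀ f ∈ Pc, ∃ C, ∀ q ∈ s, ‖f q‖ ≤ C) (v : ι → Z → 𝒢) (d : ι → ℝ) (hd : ∀ i, 0 ≤ d i)
    (h : ∃ C : ℝ, ∀ i, ∃ f ∈ Pc, ∀ q ∈ s, ‖v i q - f q‖ ≤ C * d i) :
    ∃ Q ≤ Pc, (∃ C : ℝ, ∀ i, ∃ f ∈ Q, ∀ q ∈ s, ‖v i q - f q‖ ≤ C * d i) ∧
      ∀ q ∈ s, ∀ l : 𝒢 →L[ℝ] ℝ, (∃ C : ℝ, ∀ i, |l (v i q)| ≤ C * d i) →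
        ∀ f ∈ Q, l (f q) = 0 := by
  classical
  have hex : ∃ n, ∃ Q ≤ Pc, (∃ C : ℝ, ∀ i, ∃ f ∈ Q, ∀ q ∈ s, ‖v i q - f q‖ ≤ C * d i) ∧
      Module.finrank ℝ Q = n := ⟨_, Pc, le_rfl, h, rfl⟩
  obtain ⟨Q, hQ, ⟨C, hC⟩, hn⟩ := Nat.find_spec hex
  refine ⟨Q, hQ, ⟨C, hC⟩, fun q hq l ⟨C', hC'⟩ f hf => ?_⟩
  by_contra hne
  let φ : (Z → 𝒢) →ₗ[ℝ] ℝ := (l : 𝒢 →ₗ[ℝ] ℝ) ∘ₗ LinearMap.proj q
  have hφ : ∀ g, φ g = l (g q) := fun _ => rfl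
  haveI : FiniteDimensional ℝ Q := Submodule.finiteDimensional_of_le hQ
  have hlt : Q ⊓ LinearMap.ker φ < Q :=
    lt_of_le_of_ne inf_le_left fun e => hne (e.ge hf).2
  obtain ⟨D, hD⟩ := hb f (hQ hf)
  refine Nat.find_min hex (hn ▸ Submodule.finrank_lt_finrank_of_lt hlt)
    ⟨_, inf_le_left.trans hQ, ⟨C + (C' + ‖l‖ * C) / |l (f q)| * D, fun i => ?_⟩, rfl⟩
  obtain ⟨g, hg, h1⟩ := hC i
  refine ⟨g - (l (g q) / l (f q)) • f, ⟨Q.sub_mem hg (Q.smul_mem _ hf), ?_⟩, fun p hp => ?_⟩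
  · change φ _ = 0
    rw [map_sub, map_smul, hφ, hφ, smul_eq_mul, div_mul_cancel₀ _ hne, sub_self]
  · have h2 : |l (g q)| ≤ (C' + ‖l‖ * C) * d i := by
      have h3 : l (g q) = l (v i q) - l (v i q - g q) := by rw [map_sub, sub_sub_cancel]
      have h4 : |l (v i q - g q)| ≤ ‖l‖ * (C * d i) :=
        (l.le_opNorm _).trans (mul_le_mul_of_nonneg_left (h1 q hq) (norm_nonneg _))
      rw [h3]
      refine (abs_sub _ _).trans ?_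
      linarith [hC' i]
    have h3 : v i p - (g - (l (g q) / l (f q)) • f) p = (v i p - g p) + (l (g q) / l (f q)) • f p := by
      rw [Pi.sub_apply, Pi.smul_apply, sub_add]
    rw [h3, add_mul]
    refine (norm_add_le _ _).trans (add_le_add (h1 p hp) ?_)
    rw [norm_smul, Real.norm_eq_abs, abs_div]
    calc |l (g q)| / |l (f q)| * ‖f p‖ ≤ (C' + ‖l‖ * C) * d i / |l (f q)| * D :=
          mul_le_mul (div_le_div_of_nonneg_right h2 (abs_nonneg _)) (hD p hp) (norm_nonneg _)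
            (div_nonneg ((abs_nonneg _).trans h2) (abs_nonneg _))
      _ = (C' + ‖l‖ * C) / |l (f q)| * D * d i := by ring

/-- the equations with values in `G`, as a system of germs -/
def Bun.gsys (𝔉 : Bun S F) (G : Type) [NormedAddCommGroup G] [NormedSpace ℝ G] :
    GSys S V (F →L[ℝ] G) where
  θ := S.τ
  L x y q := (ContinuousLinearMap.compL ℝ F F G).flip (𝔉.A x y q)
  T := {u | u.2 ∈ S.dom u.1.1.1 u.1.1.2}
  θ_jc := (Sys.jc_τ (S := S)).pullback (c := fun p : S.Pair => p.1) continuous_subtype_val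
  L_jc := by
    have h := 𝔉.jc.clm (G := (F →L[ℝ] G) →L[ℝ] F →L[ℝ] G) (ContinuousLinearMap.compL ℝ F F G).flip
    exact h.pullback (c := fun p : S.Pair => p.1) continuous_subtype_val
  mem p := Sys.zero_dom p.2
  θ_zero _ _ h := Sys.τ_zero h
  coc x y z h h' := by
    filter_upwards [Sys.dom_nhds (Sys.zero_dom h), Sys.dom_nhds (Sys.zero_dom h')] with q h h'
    refine ⟨Sys.τ_trans h h', ?_⟩
    rw [← 𝔉.coc x y z q h h']
    rfl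
  smul g x y h := by
    filter_upwards [Sys.dom_nhds (Sys.zero_dom h)] with q h
    exact ⟨Sys.τ_smul g h, by rw [𝔉.smul g x y q h]⟩

theorem Bun.gsys_pb (𝔉 : Bun S F) (y x : X) (M : V → F →L[ℝ] G) :
    (𝔉.gsys G).pb y x M = 𝔉.pull y x M := rfl

/-- the cocycle on the jets of the sections of the dual bundle -/
def Bun.jetC (𝔉 : Bun S F) (K : ℕ) : Coc0 S (Jet K V (F →L[ℝ] ℝ)) := (𝔉.gsys ℝ).coc0 K

theorem Bun.jetC_apply (𝔉 : Bun S F) (K : ℕ) {x y : X} (h : S.pt x = S.pt y)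
    (a : Jet K V (F →L[ℝ] ℝ)) : (𝔉.jetC K).Φ x y a = jet K (𝔉.pull y x (poly a)) 0 :=
  (𝔉.gsys ℝ).coc0_apply K h a
theorem Bun.jetC_self (𝔉 : Bun S F) (K : ℕ) (x : X) (a : Jet K V (F →L[ℝ] ℝ)) :
    (𝔉.jetC K).Φ x x a = jet K (poly a) 0 :=
  (𝔉.jetC_apply K rfl a).trans (jet_congr (𝔉.pull_self x _))
theorem Bun.rev_jetC (𝔉 : Bun S F) (K : ℕ) : (𝔉.rev.jetC K).Φ = (𝔉.jetC K).Φ := by
  funext x y
  exact congrArg (fun τ : X → X → V → V => jetL K (τ y x) ((𝔉.gsys ℝ).L y x)) Sys.rev_τ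

end Vale.Agent.P207Z
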