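import Vale.Agent.P207Z.Ann
import Vale.Agent.P207Z.Stay

/-!
# P207: jets of transversals to the stable axis, definitions
-/

set_option linter.all false

open Set Filter Topology Metric MeasureTheory Asymptotics
open scoped ContDiff

noncomputable section

namespace Vale.Agent.P207Z

open Vale.Agent.P207.N3 (JC)

variable {Γ X B E V : Type} [Group Γ] [Countable Γ] [MetricSpace X] [ProperSpace X]
  [MulAction Γ X] [IsIsometricSMul Γ X] [MeasurableSpace X] [BorelSpace X]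
  [TopologicalSpace B] [CompactSpace B] [T2Space B] [SecondCountableTopology B] [MulAction Γ B]
  [ContinuousConstSMul Γ B] [MeasurableSpace B] [BorelSpace B]
  [NormedAddCommGroup E] [InnerProductSpace ℝ E] [FiniteDimensional ℝ E]
  [NormedAddCommGroup V] [NormedSpace ℝ V] [FiniteDimensional ℝ V]
  {F G W : Type} [NormedAddCommGroup F] [NormedSpace ℝ F] [FiniteDimensional ℝ F]
  [NormedAddCommGroup G] [NormedSpace ℝ G] [FiniteDimensional ℝ G]
  [NormedAddCommGroup W] [NormedSpace ℝ W]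

variable {S : Sys Γ X B E V} {Y : Type} [MeasurableSpace Y] [MulAction Γ Y] {𝔉 : Bun S F}

/-- composition on the right -/
def preL (F F' : Type) [NormedAddCommGroup F] [NormedSpace ℝ F] [NormedAddCommGroup F']
    [NormedSpace ℝ F'] : (F →L[ℝ] F') →L[ℝ] (F' →L[ℝ] ℝ) →L[ℝ] (F →L[ℝ] ℝ) :=
  (ContinuousLinearMap.compL ℝ F F' ℝ).flip

theorem preL_apply {F F' : Type} [NormedAddCommGroup F] [NormedSpace ℝ F] [NormedAddCommGroup F']
    [NormedSpace ℝ F'] (A : F →L[ℝ] F') (l : F' →L[ℝ] ℝ) : preL F F' A l = l ∘L A := rfl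

namespace Sys

variable (S) {N : ℕ}

/-- the transversal to the stable axis with the jet `ζ` -/
def tγ (ζ : Jet N E E) (a : E) : V := S.iS (poly ζ a) + S.iU a

/-- the two components of its image in another chart -/
def tW (x y : X) (ζ : Jet N E E) (a : E) : E := S.pS (S.τ x y (S.tγ ζ a))

def tA (x y : X) (ζ : Jet N E E) (a : E) : E := S.pU (S.τ x y (S.tγ ζ a))

/-- `ζ'` is the jet of the image of the transversal `ζ` -/
def IsTθ (x y : X) (ζ ζ' : Jet N E E) : Prop :=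
  jet N (poly ζ') 0 = ζ' ∧ Flat N (fun a => poly ζ' (S.tA x y ζ a) - S.tW x y ζ a) 0

/-- the action on the jets of transversals -/
def tθ (x y : X) (ζ : Jet N E E) : Jet N E E := Classical.epsilon (S.IsTθ x y ζ)

/-- pairs of frames of one stable leaf -/
abbrev SPair : Type := {p : X × X // S.ep p.1 = S.ep p.2}

/-- the domain -/
def tD (x y : X) (ζ : Jet N E E) : Prop := S.ep x = S.ep y ∧ S.iS (poly ζ 0) ∈ S.dom x y

variable {S} {ε : ℝ} (G' : S.rev.GrS ε) (N : ℕ)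

/-- the jet of the unstable leaf through the point `iS w` -/
def tu (x : X) (w : E) : Jet N E E := jet N (G'.g x (S.c x (S.iS w)).1) 0

variable {N} (G₀ : S.GrS ε)

/-- the leaf of `η` passes through the ball of radius `r` -/
def Nr (S : Sys Γ X B E V) (r : ℝ) (x : X) (η : B) : Prop := ∃ z ∈ ball (0 : V) r, (S.c x z).2 = η

/-- `a` is the parameter of the intersection of the transversal with the stable leaf of `η` -/
def IsTa (x : X) (η : B) (ζ : Jet N E E) (a : E) : Prop :=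
  ‖a‖ < 2 * G₀.r ∧ ‖poly ζ a‖ < 2 * G₀.r ∧ a = G₀.g x η (poly ζ a)

def ta (x : X) (η : B) (ζ : Jet N E E) : E := Classical.epsilon (IsTa G₀ x η ζ)

end Sys

namespace Bun

variable (𝔉) {N : ℕ}

/-- the pull back of the jets of sections of the dual bundle along transversals -/
def tP (x y : X) (ζ : Jet N E E) : Jet N E (F →L[ℝ] ℝ) →L[ℝ] Jet N E (F →L[ℝ] ℝ) :=
  jetL N (S.tA x y ζ) fun a => preL F F (𝔉.A x y (S.tγ ζ a))

end Bun

/-- the section, tested by jets along a transversal at the intersection with a stable leaf -/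
def CSec.tv (s : CSec 𝔉) {ε : ℝ} (G₀ : S.GrS ε) {N : ℕ} (x : X) (η : B) (ζ : Jet N E E) :
    Jet N E (F →L[ℝ] ℝ) →L[ℝ] ℝ :=
  ContinuousLinearMap.apply ℝ ℝ (s.e x (S.tγ ζ (Sys.ta G₀ x η ζ))) ∘L
    polyL N E (F →L[ℝ] ℝ) (Sys.ta G₀ x η ζ)

theorem CSec.tv_apply (s : CSec 𝔉) {ε : ℝ} (G₀ : S.GrS ε) {N : ℕ} (x : X) (η : B) (ζ : Jet N E E)
    (β : Jet N E (F →L[ℝ] ℝ)) :
    s.tv G₀ x η ζ β = poly β (Sys.ta G₀ x η ζ) (s.e x (S.tγ ζ (Sys.ta G₀ x η ζ))) := by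
  simp [CSec.tv, polyL_apply]

/-- the properties of the intersection, for the jets in the ball of radius `r₂` -/
structure TaOk (s : Sec 𝔉) {ε : ℝ} (G₀ : S.GrS ε) (N : ℕ) (r₂ : ℝ) : Prop where
  pos : 0 < r₂
  ex : ∀ x η, S.Nr G₀.r x η → ∀ ζ ∈ ball (0 : Jet N E E) r₂, Sys.IsTa G₀ x η ζ (Sys.ta G₀ x η ζ)
  uniq : ∀ x η, S.Nr G₀.r x η → ∀ ζ ∈ ball (0 : Jet N E E) r₂, ∀ a, Sys.IsTa G₀ x η ζ a →
    Sys.ta G₀ x η ζ = a
  lip : ∃ C : ℝ, ∀ x η, S.Nr G₀.r x η → ∀ w ∈ ball (0 : E) (2 * G₀.r),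
    ∀ w' ∈ ball (0 : E) (2 * G₀.r), ‖s.e x (S.iS w + S.iU (G₀.g x η w))
      - s.e x (S.iS w' + S.iU (G₀.g x η w'))‖ ≤ C * ‖w - w'‖
  smooth : ∀ x η, S.Nr G₀.r x η → ContDiffOn ℝ ∞ (s.c.tv G₀ x η) (ball (0 : Jet N E E) r₂)
  bd : ∀ k : ℕ, ∃ C : ℝ, ∀ x η, S.Nr G₀.r x η → ∀ ζ ∈ ball (0 : Jet N E E) r₂,
    ‖iteratedFDeriv ℝ k (s.c.tv G₀ x η) ζ‖ ≤ C

end Vale.Agent.P207Z
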