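import Vale.Agent.P207Z.JetC
import Vale.Agent.P207Z.Geo.Sp

/-!
# P207: a kernel along a Hoelder section extends along a smooth section, to a finite order (KER)
-/

set_option linter.all false

open Set Filter Topology Metric
open scoped ContDiff

noncomputable section

namespace Vale.Agent.P207Z

namespace KX

variable {E Z : Type} [NormedAddCommGroup E] [NormedSpace ℝ E]
  [NormedAddCommGroup Z] [NormedSpace ℝ Z]

/-- A map which vanishes on a graph is flat along the graph, or some real function vanishes on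
the graph with a nonzero vertical derivative. -/
theorem alt {O : Set E} {u : E → Z} (hO : IsOpen O) (hu : ContinuousOn u O) (s k : ℕ) :
    ∀ (W : Type) [NormedAddCommGroup W] [NormedSpace ℝ W] (g : E × Z → W),
      (∀ w ∈ O, ContDiffAt ℝ (s + k : ℕ) g (w, u w)) → (∀ w ∈ O, g (w, u w) = 0) →
      (∃ f : E × Z → ℝ, (∀ w ∈ O, ContDiffAt ℝ s f (w, u w)) ∧ (∀ w ∈ O, f (w, u w) = 0) ∧
        ∃ w ∈ O, fderiv ℝ f (w, u w) ∘L ContinuousLinearMap.inr ℝ E Z ≠ 0) ∨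
      ∀ w₀ ∈ O, ∃ C : ℝ, 0 ≤ C ∧ ∀ᶠ p in 𝓝 (w₀, u w₀), ‖g p‖ ≤ C * ‖p.2 - u p.1‖ ^ k := by
  induction k with
  | zero =>
    intro W _ _ g hg h0
    refine Or.inr fun w hw => ⟨1, zero_le_one, ?_⟩
    have h1 := (hg w hw).continuousAt.norm.eventually_lt_const (u := 1) (by simp [h0 w hw])
    exact h1.mono fun p hp => by simpa using hp.le
  | succ k ih =>
    intro W _ _ g hg h0
    by_cases h1 : ∀ w ∈ O, fderiv ℝ g (w, u w) ∘L ContinuousLinearMap.inr ℝ E Z = 0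
    · have h2 : ∀ w ∈ O, ContDiffAt ℝ (s + k : ℕ)
          (fun p => fderiv ℝ g p ∘L ContinuousLinearMap.inr ℝ E Z) (w, u w) := fun w hw =>
        ((hg w hw).fderiv_right (by norm_cast)).clm_comp contDiffAt_const
      refine (ih _ _ h2 h1).imp id fun h3 w₀ hw₀ => ?_
      obtain ⟨C, hC, h4⟩ := h3 w₀ hw₀
      have h5 : ∀ᶠ p in 𝓝 (w₀, u w₀), ContDiffAt ℝ 1 g p :=
        ((hg w₀ hw₀).of_le (by norm_cast; omega)).eventually (by simp)
      obtain ⟨ε, hε, hb⟩ := Metric.eventually_nhds_iff_ball.1 (h4.and h5)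
      have t1 : Tendsto (fun p : E × Z => p.1) (𝓝 (w₀, u w₀)) (𝓝 w₀) := continuous_fst.tendsto _
      refine ⟨C, hC, ?_⟩
      filter_upwards [ball_mem_nhds (w₀, u w₀) hε, t1.eventually (hO.mem_nhds hw₀),
        t1.eventually ((hu.continuousAt (hO.mem_nhds hw₀)).eventually (ball_mem_nhds _ hε))]
        with p p1 p2 p3
      obtain ⟨w, z⟩ := p
      rw [← ball_prod_same] at p1 hb
      have h6 := Convex.norm_image_sub_le_of_norm_hasFDerivWithin_le (f := fun z => g (w, z))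
        (f' := fun z => fderiv ℝ g (w, z) ∘L ContinuousLinearMap.inr ℝ E Z)
        (s := ball (u w₀) ε ∩ closedBall (u w) ‖z - u w‖) (C := C * ‖z - u w‖ ^ k)
        (x := u w) (y := z)
        (fun y hy => (((hb (w, y) ⟨p1.1, hy.1⟩).2.differentiableAt one_ne_zero).hasFDerivAt.comp y
          (hasFDerivAt_prodMk_right w y)).hasFDerivWithinAt)
        (fun y hy => (hb (w, y) ⟨p1.1, hy.1⟩).1.trans (mul_le_mul_of_nonneg_left
          (pow_le_pow_left₀ (norm_nonneg _) (mem_closedBall_iff_norm.1 hy.2) k) hC))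
        ((convex_ball _ _).inter (convex_closedBall _ _)) ⟨p3, mem_closedBall_self (norm_nonneg _)⟩
        ⟨p1.2, mem_closedBall_iff_norm.2 le_rfl⟩
      rw [h0 w p2, sub_zero, mul_assoc, ← pow_succ] at h6
      exact h6
    · push Not at h1
      obtain ⟨w, hw, h1⟩ := h1
      obtain ⟨v, hv⟩ := DFunLike.ne_iff.1 h1
      obtain ⟨l, hl⟩ := SeparatingDual.exists_ne_zero (R := ℝ) hv
      refine Or.inl ⟨fun p => l (g p), fun w hw => l.contDiff.contDiffAt.comp _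
        ((hg w hw).of_le (by norm_cast; omega)), fun w hw => by simp [h0 w hw], w, hw, ?_⟩
      have h2 := l.hasFDerivAt.comp _
        ((hg w hw).differentiableAt (by norm_cast)).hasFDerivAt
      intro h3
      have h4 := DFunLike.congr_fun h3 v
      rw [show (fun p => l (g p)) = l ∘ g from rfl, h2.fderiv] at h4
      exact hl h4

/-- Reduction: a map which vanishes on a Hoelder graph is flat along smooth sections. -/
theorem red (E : Type) [NormedAddCommGroup E] [NormedSpace ℝ E] [FiniteDimensional ℝ E]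
    (J r₀ : ℕ) {α : ℝ} (hα : 0 < α) (n : ℕ) : ∃ r : ℕ, ∀ (Z : Type) [NormedAddCommGroup Z]
      [NormedSpace ℝ Z] [FiniteDimensional ℝ Z], Module.finrank ℝ Z < n →
      ∀ (W : Type) [NormedAddCommGroup W] [NormedSpace ℝ W] (O : Set E) (u : E → Z)
        (g : E × Z → W), IsOpen O → O.Nonempty → ContinuousOn u O →
      (∀ w₀ ∈ O, ∃ C : ℝ, ∀ᶠ w in 𝓝 w₀, ‖u w - u w₀‖ ≤ C * ‖w - w₀‖ ^ α) →
      (∀ w ∈ O, ContDiffAt ℝ r g (w, u w)) → (∀ w ∈ O, g (w, u w) = 0) →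
      ∃ O₁ ⊆ O, IsOpen O₁ ∧ O₁.Nonempty ∧ ∀ w₀ ∈ O₁, ∃ ζ : E → Z, ContDiffAt ℝ r₀ ζ w₀ ∧
        ζ w₀ = u w₀ ∧ ∃ C : ℝ, ∀ᶠ w in 𝓝 w₀, ‖g (w, ζ w)‖ ≤ C * ‖w - w₀‖ ^ J := by
  induction n with
  | zero => exact ⟨0, fun Z _ _ _ h => absurd h (Nat.not_lt_zero _)⟩
  | succ n ih =>
    obtain ⟨r, ih⟩ := ih
    obtain ⟨k, hk⟩ := exists_nat_ge (J / α)
    rw [div_le_iff₀' hα] at hk
    refine ⟨r + r₀ + 1 + k, fun Z _ _ _ hZ W _ _ O u g hO hne hu hH hg h0 => ?_⟩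
    have := FiniteDimensional.complete ℝ E
    rcases alt hO hu (r + r₀ + 1) k W g hg h0 with ⟨f, hf, f0, w₁, hw₁, hl⟩ | hA
    · obtain ⟨l, hl'⟩ : ∃ l, l = fderiv ℝ f (w₁, u w₁) ∘L ContinuousLinearMap.inr ℝ E Z := ⟨_, rfl⟩
      rw [← hl'] at hl
      obtain ⟨e, he⟩ : ∃ e, l e = 1 := by
        obtain ⟨v, hv⟩ := DFunLike.ne_iff.1 hl
        exact ⟨(l v)⁻¹ • v, by rw [map_smul, smul_eq_mul, inv_mul_cancel₀ hv]⟩
      have hK : Module.finrank ℝ l.ker < n := by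
        have h1 : l.ker ≠ ⊤ := fun h => by
          have h2 : l e = 0 := (h ▸ Submodule.mem_top : e ∈ l.ker)
          rw [he] at h2
          exact one_ne_zero h2
        have := Submodule.finrank_lt h1
        omega
      have := FiniteDimensional.complete ℝ l.ker
      let π : Z →L[ℝ] l.ker := (1 - l.smulRight e : Z →L[ℝ] Z).codRestrict l.ker fun z => by
        simp [he]
      let A : (E × l.ker) × ℝ →L[ℝ] E × Z :=
        (ContinuousLinearMap.fst ℝ _ _ ∘L ContinuousLinearMap.fst ℝ _ _).prod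
          (l.ker.subtypeL ∘L ContinuousLinearMap.snd ℝ _ _ ∘L ContinuousLinearMap.fst ℝ _ _ +
            (ContinuousLinearMap.snd ℝ _ _).smulRight e)
      have hA : ∀ w z, A ((w, π z), l z) = (w, z) := fun w z => by simp [A, π]
      have hH1 : ContDiffAt ℝ (r + r₀ + 1 : ℕ) (f ∘ A) ((w₁, π (u w₁)), l (u w₁)) :=
        ContDiffAt.comp _ (by rw [hA]; exact hf w₁ hw₁) A.contDiff.contDiffAt
      have hI : (fderiv ℝ (f ∘ A) ((w₁, π (u w₁)), l (u w₁)) ∘L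
          ContinuousLinearMap.inr ℝ (E × l.ker) ℝ).IsInvertible := by
        refine ⟨ContinuousLinearEquiv.refl ℝ ℝ, ?_⟩
        have h1 : HasFDerivAt f (fderiv ℝ f (w₁, u w₁)) (A ((w₁, π (u w₁)), l (u w₁))) := by
          rw [hA]
          exact ((hf w₁ hw₁).differentiableAt (by norm_cast)).hasFDerivAt
        rw [(h1.comp _ A.hasFDerivAt).fderiv]
        ext
        have h2 : l e = fderiv ℝ f (w₁, u w₁) (0, e) := by rw [hl']; rfl
        simp [A, ← h2, he]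
      have y1 := (hH1.contDiffAt_implicitFunction (by norm_cast) hI).eventually
        (by exact_mod_cast ENat.coe_ne_top _)
      have y2 := hH1.eventually_apply_eq_iff_implicitFunction (by norm_cast) hI
      generalize hH1.implicitFunction (by norm_cast) hI = y at y1 y2
      have c1 := hu.continuousAt (hO.mem_nhds hw₁)
      have c2 : ContinuousAt (fun w => (w, π (u w))) w₁ :=
        continuousAt_id.prodMk (π.continuous.continuousAt.comp c1)
      have c3 : ContinuousAt (fun w => ((w, π (u w)), l (u w))) w₁ :=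
        c2.prodMk (l.continuous.continuousAt.comp c1)
      obtain ⟨O', b1, b2, b3⟩ := _root_.eventually_nhds_iff.1
        ((c2.eventually y1).and ((c3.eventually y2).and (hO.mem_nhds hw₁)))
      have y3 : ∀ w ∈ O', A ((w, π (u w)), y (w, π (u w))) = (w, u w) := fun w hw => by
        rw [(b1 w hw).2.1.1, hA]
        rw [Function.comp_apply, Function.comp_apply, hA, hA, f0 w (b1 w hw).2.2, f0 w₁ hw₁]
      obtain ⟨O₁, s1, s2, s3, s4⟩ := ih l.ker hK W O' (fun w => π (u w)) (fun p => g (A (p, y p)))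
        b2 ⟨w₁, b3⟩ (π.continuous.comp_continuousOn (hu.mono fun w hw => (b1 w hw).2.2))
        (fun w₀ hw₀ => by
          obtain ⟨C, hC⟩ := hH w₀ (b1 w₀ hw₀).2.2
          refine ⟨‖π‖ * C, hC.mono fun w hw => ?_⟩
          rw [← map_sub, mul_assoc]
          exact (π.le_opNorm _).trans (mul_le_mul_of_nonneg_left hw (norm_nonneg _)))
        (fun w hw => ContDiffAt.comp (g := g) _
          (by rw [y3 w hw]; exact (hg w (b1 w hw).2.2).of_le (by norm_cast; omega))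
          (A.contDiff.contDiffAt.comp _
            (contDiffAt_id.prodMk ((b1 w hw).1.of_le (by norm_cast; omega)))))
        (fun w hw => by rw [y3 w hw, h0 w (b1 w hw).2.2])
      refine ⟨O₁, fun w hw => (b1 w (s1 hw)).2.2, s2, s3, fun w₀ hw₀ => ?_⟩
      obtain ⟨ζ, z1, z2, z3⟩ := s4 w₀ hw₀
      refine ⟨fun w => (A ((w, ζ w), y (w, ζ w))).2, ?_,
        by beta_reduce; rw [z2, y3 w₀ (s1 hw₀)], z3⟩
      have z4 : ContDiffAt ℝ r₀ (fun w => (w, ζ w)) w₀ := contDiffAt_id.prodMk z1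
      refine (A.contDiff.contDiffAt.comp _ (z4.prodMk (ContDiffAt.comp (g := y) _ ?_ z4))).snd
      rw [z2]
      exact (b1 w₀ (s1 hw₀)).1.of_le (by norm_cast; omega)
    · refine ⟨O, Subset.rfl, hO, hne, fun w₀ hw₀ => ⟨fun _ => u w₀, contDiffAt_const, rfl, ?_⟩⟩
      obtain ⟨C, hC, h1⟩ := hA w₀ hw₀
      obtain ⟨D, h2⟩ := hH w₀ hw₀
      have t1 : ContinuousAt (fun w : E => (w, u w₀)) w₀ := by fun_prop
      refine ⟨C * |D| ^ k, ?_⟩
      filter_upwards [t1.eventually h1, h2, closedBall_mem_nhds w₀ one_pos] with w p1 p2 p3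
      refine p1.trans ?_
      rw [mul_assoc, norm_sub_rev]
      refine mul_le_mul_of_nonneg_left ((pow_le_pow_left₀ (norm_nonneg _) (p2.trans
        (mul_le_mul_of_nonneg_right (le_abs_self D) (by positivity))) k).trans ?_) hC
      rw [mul_pow, ← Real.rpow_natCast (_ ^ α), ← Real.rpow_mul (norm_nonneg _),
        ← Real.rpow_natCast _ J]
      exact mul_le_mul_of_nonneg_left (Real.rpow_le_rpow_of_exponent_ge' (norm_nonneg _)
        (mem_closedBall_iff_norm.1 p3) (Nat.cast_nonneg J) hk) (by positivity)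

/-- A smooth field which projects on the kernel at all points where the rank does not jump. -/
theorem proj {T V W : Type} [NormedAddCommGroup T] [NormedSpace ℝ T] [NormedAddCommGroup V]
    [NormedSpace ℝ V] [FiniteDimensional ℝ V] [NormedAddCommGroup W] [NormedSpace ℝ W]
    [FiniteDimensional ℝ W] {n : ℕ} {Φ : T → V →L[ℝ] W} {z₀ : T} (hΦ : ContDiffAt ℝ n Φ z₀) :
    ∃ P : T → V →L[ℝ] V, ∀ᶠ z in 𝓝 z₀, ContDiffAt ℝ n P z ∧ (∀ v, Φ z v = 0 → P z v = v) ∧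
      (Module.finrank ℝ (Φ z).range ≤ Module.finrank ℝ (Φ z₀).range → Φ z ∘L P z = 0) := by
  have := FiniteDimensional.complete ℝ V
  obtain ⟨Ψ, hΨ⟩ := Geo.exists_ginv (Φ z₀)
  have hM : ∀ᶠ z in 𝓝 z₀, ContDiffAt ℝ n (fun z => 1 + Ψ ∘L (Φ z - Φ z₀)) z :=
    (hΦ.eventually (by exact_mod_cast ENat.coe_ne_top _)).mono fun z hz =>
      contDiffAt_const.add (contDiffAt_const.clm_comp (hz.sub contDiffAt_const))
  have hU := Geo.eventually_isUnit hM.self_of_nhds.continuousAt (by simp)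
  refine ⟨fun z => Ring.inverse (1 + Ψ ∘L (Φ z - Φ z₀)) * (1 - Ψ ∘L Φ z₀), ?_⟩
  filter_upwards [hM, hU] with z h1 h2
  have h4 : ∀ v, Φ z v = 0 →
      (Ring.inverse (1 + Ψ ∘L (Φ z - Φ z₀)) * (1 - Ψ ∘L Φ z₀)) v = v := fun v hv => by
    have h5 : (1 - Ψ ∘L Φ z₀) v = (1 + Ψ ∘L (Φ z - Φ z₀)) v := by simp [hv, sub_eq_add_neg]
    rw [mul_apply_eq_comp, h5, ← mul_apply_eq_comp, Ring.inverse_mul_cancel _ h2]
    rfl
  refine ⟨(Geo.contDiffAt_inv h1 h2).mul contDiffAt_const, h4, fun h3 => ?_⟩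
  have h5 : (Ring.inverse (1 + Ψ ∘L (Φ z - Φ z₀)) * (1 - Ψ ∘L Φ z₀)).range = (Φ z).ker := by
    refine Eq.symm (Submodule.eq_of_le_of_finrank_le (fun v hv => ⟨v, h4 v hv⟩) ?_)
    have h6 : (Ring.inverse (1 + Ψ ∘L (Φ z - Φ z₀)) * (1 - Ψ ∘L Φ z₀)).range ≤
        (Φ z₀).ker.map (Ring.inverse (1 + Ψ ∘L (Φ z - Φ z₀)) : V →L[ℝ] V).toLinearMap := by
      rintro _ ⟨v, rfl⟩
      exact ⟨(1 - Ψ ∘L Φ z₀) v, by simp [hΨ], rfl⟩
    have h7 := (Submodule.finrank_mono h6).trans (Submodule.finrank_map_le _ _)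
    have h8 := (Φ z : V →ₗ[ℝ] W).finrank_range_add_finrank_ker
    have h9 := (Φ z₀ : V →ₗ[ℝ] W).finrank_range_add_finrank_ker
    omega
  exact ContinuousLinearMap.ext fun v => h5.le ⟨v, rfl⟩

end KX

theorem ker_ext (E Z F : Type) [NormedAddCommGroup E] [NormedSpace ℝ E] [FiniteDimensional ℝ E]
    [NormedAddCommGroup Z] [NormedSpace ℝ Z] [FiniteDimensional ℝ Z]
    [NormedAddCommGroup F] [NormedSpace ℝ F] [FiniteDimensional ℝ F] (J r₀ : ℕ) {α : ℝ}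
    (hα : 0 < α) : ∃ r : ℕ, ∀ (G : Type) [NormedAddCommGroup G] [NormedSpace ℝ G]
      [FiniteDimensional ℝ G] (O : Set E) (u : E → Z) (M : E × Z → F →L[ℝ] G),
      IsOpen O → O.Nonempty → ContinuousOn u O →
      (∀ w₀ ∈ O, ∃ C : ℝ, ∀ᶠ w in 𝓝 w₀, ‖u w - u w₀‖ ≤ C * ‖w - w₀‖ ^ α) →
      (∀ w ∈ O, ContDiffAt ℝ r M (w, u w)) →
      ∃ O₁ ⊆ O, IsOpen O₁ ∧ O₁.Nonempty ∧ ∀ w₀ ∈ O₁, ∀ β₀ : F, M (w₀, u w₀) β₀ = 0 →
        ∃ (ζ : E → Z) (β : E → F), ContDiffAt ℝ r₀ ζ w₀ ∧ ContDiffAt ℝ r₀ β w₀ ∧ ζ w₀ = u w₀ ∧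
          β w₀ = β₀ ∧ ∃ C : ℝ, ∀ᶠ w in 𝓝 w₀, ‖M (w, ζ w) (β w)‖ ≤ C * ‖w - w₀‖ ^ J := by
  obtain ⟨r, hr⟩ := KX.red E J r₀ hα (Module.finrank ℝ Z + 1)
  refine ⟨r + r₀, fun G _ _ _ O u M hO hne hu hH hM => ?_⟩
  obtain ⟨w₁, hw₁, hmax⟩ : ∃ w₁ ∈ O, ∀ w ∈ O,
      Module.finrank ℝ (M (w, u w)).range ≤ Module.finrank ℝ (M (w₁, u w₁)).range := by
    have hf : ((fun w => Module.finrank ℝ (M (w, u w)).range) '' O).Finite :=
      (finite_le_nat (Module.finrank ℝ G)).subset (by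
        rintro _ ⟨w, -, rfl⟩
        exact Submodule.finrank_le _)
    obtain ⟨_, ⟨w₁, hw₁, rfl⟩, h⟩ := exists_max_image _ id hf (hne.image _)
    exact ⟨w₁, hw₁, fun w hw => h _ ⟨w, hw, rfl⟩⟩
  obtain ⟨P, hP⟩ := KX.proj (hM w₁ hw₁)
  have c : ContinuousAt (fun w => (w, u w)) w₁ :=
    continuousAt_id.prodMk (hu.continuousAt (hO.mem_nhds hw₁))
  obtain ⟨O', b1, b2, b3⟩ := _root_.eventually_nhds_iff.1 ((c.eventually hP).and (hO.mem_nhds hw₁))
  obtain ⟨O₁, s1, s2, s3, s4⟩ := hr Z (Nat.lt_succ_self _) (F →L[ℝ] G) O' u (fun p => M p ∘L P p)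
    b2 ⟨w₁, b3⟩ (hu.mono fun w hw => (b1 w hw).2) (fun w hw => hH w (b1 w hw).2)
    (fun w hw => ((hM w (b1 w hw).2).clm_comp (b1 w hw).1.1).of_le (by norm_cast; omega))
    (fun w hw => (b1 w hw).1.2.2 (hmax w (b1 w hw).2))
  refine ⟨O₁, fun w hw => (b1 w (s1 hw)).2, s2, s3, fun w₀ hw₀ β₀ hβ => ?_⟩
  obtain ⟨ζ, z1, z2, C, z3⟩ := s4 w₀ hw₀
  refine ⟨ζ, fun w => P (w, ζ w) β₀, z1, ?_, z2,
    by beta_reduce; rw [z2]; exact (b1 w₀ (s1 hw₀)).1.2.1 β₀ hβ, C * ‖β₀‖, z3.mono fun w hw => ?_⟩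
  · refine (ContDiffAt.comp (g := P) _ ?_ (contDiffAt_id.prodMk z1)).clm_apply contDiffAt_const
    rw [id, z2]
    exact (b1 w₀ (s1 hw₀)).1.1.of_le (by norm_cast; omega)
  · rw [mul_right_comm]
    exact ((M (w, ζ w) ∘L P (w, ζ w)).le_opNorm β₀).trans
      (mul_le_mul_of_nonneg_right hw (norm_nonneg _))

end Vale.Agent.P207Z
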