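import Vale.Agent.P207Z.TrA
import Vale.Agent.P207Z.VyB.U

/-!
# P207: naturality of the tested section up to the order `N + 1` (block VY2)
-/

set_option linter.all false

open Set Filter Topology Metric MeasureTheory Asymptotics
open scoped ContDiff

noncomputable section

namespace Vale.Agent.P207Z

open Vale.Agent.P207.N3 (JC)

variable {Γ X B E V : Type} [Group Γ] [Countable Γ] [MetricSpace X] [ProperSpace X]
  [MulAction Γ X] [IsIsometricSMul Γ X] [MeasurableSpace X] [BorelSpace X]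
  [TopologicalSpace B] [CompactSpace B] [T2Space B] [SecondCountableTopology B] [MulAction Γ B]
  [ContinuousConstSMul Γ B] [MeasurableSpace B] [BorelSpace B]
  [NormedAddCommGroup E] [InnerProductSpace ℝ E] [FiniteDimensional ℝ E]
  [NormedAddCommGroup V] [NormedSpace ℝ V] [FiniteDimensional ℝ V]
  {F G W : Type} [NormedAddCommGroup F] [NormedSpace ℝ F] [FiniteDimensional ℝ F]
  [NormedAddCommGroup G] [NormedSpace ℝ G] [FiniteDimensional ℝ G]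
  [NormedAddCommGroup W] [NormedSpace ℝ W]

variable {S : Sys Γ X B E V} {Y : Type} [MeasurableSpace Y] [MulAction Γ Y] {𝔉 : Bun S F}

namespace VyB

/-- uniform Taylor estimates along the transversals -/
theorem core (𝔉 : Bun S F) (N : ℕ) (D : ℝ) : ∃ C r : ℝ, 0 ≤ C ∧ 0 < r ∧ ∀ x y (ζ : Jet N E E),
    dist x y ≤ D → ‖ζ‖ ≤ 1 / 6 → S.tD x y ζ → ‖S.tθ x y ζ‖ ≤ 1 / 6 → ∀ a : E, ‖a‖ < r →
    S.tγ ζ a ∈ S.dom x y ∧ ‖S.tγ ζ a - S.iS (poly ζ 0)‖ ≤ C * ‖a‖ ∧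
    ‖S.τ x y (S.tγ ζ a) - S.iS (poly (S.tθ x y ζ) 0)‖ ≤ C * ‖a‖ ∧
    ‖poly (S.tθ x y ζ) (S.tA x y ζ a) - S.tW x y ζ a‖ ≤ C * ‖a‖ ^ (N + 1) ∧
    ∀ β : Jet N E (F →L[ℝ] ℝ), ‖poly β (S.tA x y ζ a) ∘L 𝔉.A x y (S.tγ ζ a) -
      poly (𝔉.tP x y ζ β) a‖ ≤ C * ‖a‖ ^ (N + 1) * ‖β‖ := by
  let ι := {p : X × X × Jet N E E // dist p.1 p.2.1 ≤ D ∧ ‖p.2.2‖ ≤ 1 / 6 ∧
    S.tD p.1 p.2.1 p.2.2 ∧ ‖S.tθ p.1 p.2.1 p.2.2‖ ≤ 1 / 6}
  have hq : ∀ i : ι, dist i.1.1 i.1.2.1 ≤ D ∧ S.iS (poly i.1.2.2 0) ∈ S.dom i.1.1 i.1.2.1 ∧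
      ‖S.iS (poly i.1.2.2 0)‖ ≤ 1 / 6 ∧ ‖S.τ i.1.1 i.1.2.1 (S.iS (poly i.1.2.2 0))‖ ≤ 1 / 6 :=
    fun i => ⟨i.2.1, i.2.2.2.1.2, by
      rw [S.norm_iS]
      exact (norm_poly_zero_le _).trans i.2.2.1, by
      rw [← Sys.tθ_base i.2.2.2.1, S.norm_iS]
      exact (norm_poly_zero_le _).trans i.2.2.2.2⟩
  obtain ⟨⟨r₀, hr₀, hd⟩, hτ⟩ := ub_at Sys.jc_τ (fun g x y q h => Sys.τ_smul g h) D (N + 2) hq
  obtain ⟨-, hA⟩ := ub_at 𝔉.jc 𝔉.smul D (N + 2) hq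
  have hγ : UB (N + 3) fun (i : ι) a => S.tγ i.1.2.2 a - S.iS (poly i.1.2.2 0) :=
    (((UB.poly fun i : ι => i.2.2.1.trans (by norm_num)).clm S.iS).add
      (UB.fix S.iU.contDiff.contDiffAt)).sub (UB.const fun i => (hq i).2.2.1.trans (by norm_num))
  have hγ0 : ∀ i : ι, S.tγ i.1.2.2 0 - S.iS (poly i.1.2.2 0) = 0 := fun i => by simp [Sys.tγ]
  have hT := hτ.comp hγ hγ0
  have hA' := hA.comp hγ hγ0
  simp only [add_sub_cancel] at hT hA'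
  have htA : UB (N + 1 + 1) fun i : ι => S.tA i.1.1 i.1.2.1 i.1.2.2 := hT.clm S.pU
  have htA0 : ∀ i : ι, S.tA i.1.1 i.1.2.1 i.1.2.2 0 = 0 := fun i => Sys.tA_zero i.2.2.2.1
  have h1 : UB (N + 1) fun (i : ι) a => poly (S.tθ i.1.1 i.1.2.1 i.1.2.2)
      (S.tA i.1.1 i.1.2.1 i.1.2.2 a) - S.tW i.1.1 i.1.2.1 i.1.2.2 a :=
    ((UB.poly fun i : ι => i.2.2.2.2.trans (by norm_num)).comp htA htA0).sub
      ((hT.clm S.pS).mono (Nat.le_succ _))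
  have h2 : UB (N + 1) fun (i : ι) a => preL F F (𝔉.A i.1.1 i.1.2.1 (S.tγ i.1.2.2 a)) ∘L
      polyL N E (F →L[ℝ] ℝ) (S.tA i.1.1 i.1.2.1 i.1.2.2 a) :=
    UB.bilin (W := (F →L[ℝ] ℝ) →L[ℝ] (F →L[ℝ] ℝ)) (W' := Jet N E (F →L[ℝ] ℝ) →L[ℝ] (F →L[ℝ] ℝ))
      (W'' := Jet N E (F →L[ℝ] ℝ) →L[ℝ] (F →L[ℝ] ℝ))
      (ContinuousLinearMap.compL ℝ (Jet N E (F →L[ℝ] ℝ)) (F →L[ℝ] ℝ) (F →L[ℝ] ℝ))
      ((hA'.clm (W' := (F →L[ℝ] ℝ) →L[ℝ] (F →L[ℝ] ℝ)) (preL F F)).mono (Nat.le_succ _))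
      ((UB.fix ((contDiff_polyL (k := N) (V := E) (W := F →L[ℝ] ℝ)).contDiffAt.of_le
        (by exact_mod_cast le_top))).comp htA htA0)
  obtain ⟨C₁, r₁, hC₁, hr₁, e₁⟩ := (hγ.mono (by omega : 1 ≤ N + 3)).lip
  obtain ⟨C₂, r₂, hC₂, hr₂, e₂⟩ := (hT.mono (by omega : 1 ≤ N + 2)).lip
  obtain ⟨C₃, r₃, hC₃, hr₃, e₃⟩ := h1.taylor
  obtain ⟨C₄, r₄, hC₄, hr₄, e₄⟩ := h2.taylor
  refine ⟨C₁ + C₂ + C₃ + C₄, min (min r₁ r₂) (min (min r₃ r₄) (r₀ / (C₁ + 1))), by positivity,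
    by positivity, fun x y ζ a1 a2 a3 a4 a ha => ?_⟩
  simp only [lt_min_iff] at ha
  obtain ⟨⟨b1, b2⟩, ⟨b3, b4⟩, b5⟩ := ha
  let i : ι := ⟨(x, y, ζ), a1, a2, a3, a4⟩
  have f₁ : ‖S.tγ ζ a - S.iS (poly ζ 0)‖ ≤ C₁ * ‖a‖ := by
    simpa only [hγ0, sub_zero] using e₁ i a b1
  have f₂ : ‖S.τ x y (S.tγ ζ a) - S.τ x y (S.tγ ζ 0)‖ ≤ C₂ * ‖a‖ := e₂ i a b2
  have f₃ := (e₃ i a b3).2
  rw [(flat_iff_jet (e₃ i a b3).1).1 (Sys.isTθ a3).2] at f₃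
  have hn := norm_nonneg a
  have hp : 0 ≤ ‖a‖ ^ (N + 1) := by positivity
  refine ⟨?_, f₁.trans (by nlinarith), ?_, ?_, fun β => ?_⟩
  · rw [lt_div_iff₀ (by positivity)] at b5
    have f₀ : C₁ * ‖a‖ ≤ r₀ := by nlinarith
    simpa only [i, add_sub_cancel] using hd i _ (f₁.trans f₀)
  · rw [Sys.tθ_base a3]
    exact le_trans (by simpa [Sys.tγ] using f₂) (by nlinarith)
  · exact le_trans (by simpa [poly] using f₃) (by nlinarith)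
  · have f₄ := (ContinuousLinearMap.le_opNorm _ β).trans
      (mul_le_mul_of_nonneg_right (e₄ i a b4).2 (norm_nonneg β))
    rw [Bun.tP, poly_jetL, ← polyL_apply β]
    exact f₄.trans (mul_le_mul_of_nonneg_right (by nlinarith) (norm_nonneg β))

end VyB

open VyB in
/-- **VY2**: naturality up to the order `N + 1` -/
theorem TaOk.nat {s : Sec 𝔉} {G₀ : S.GrS (1 / 2)} {N : ℕ} {r₂ : ℝ} (h : TaOk s G₀ N r₂)
    (D : ℝ) : ∃ C r₃ : ℝ, 0 < r₃ ∧ ∀ x y η, dist x y ≤ D →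
      ∀ ζ ∈ ball (0 : Jet N E E) (min r₂ G₀.r / 2), S.tD x y ζ →
      S.tθ x y ζ ∈ ball (0 : Jet N E E) (min r₂ G₀.r / 2) → S.Nr G₀.r x η →
      ‖Sys.ta G₀ x η ζ‖ ≤ r₃ → S.Nr G₀.r y η ∧
        ‖Sys.ta G₀ y η (S.tθ x y ζ)‖ ≤ C * ‖Sys.ta G₀ x η ζ‖ ∧ ∀ β : Jet N E (F →L[ℝ] ℝ),
        |s.c.tv G₀ x η ζ (𝔉.tP x y ζ β) - s.c.tv G₀ y η (S.tθ x y ζ) β|
          ≤ C * ‖β‖ * ‖Sys.ta G₀ x η ζ‖ ^ (N + 1) := by
  obtain ⟨C, r, hC, hr, hc⟩ := core 𝔉 N D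
  obtain ⟨L₀, hL₀⟩ := h.lip
  obtain ⟨M, hM, hb⟩ := s.c.bdd
  obtain ⟨P, hP, hp⟩ := poly_bound (V := E) (W := F →L[ℝ] ℝ) N 0
  have hG := G₀.r_pos
  have hG' := G₀.r_le
  have hL := abs_nonneg L₀
  refine ⟨2 * C + C * M + 9 / 2 * C * M + 2 * P * |L₀| * C,
    min (min (r / 2) 1) (G₀.r / (2 * (C + 1))), by positivity,
    fun x y η hxy ζ hζ hD hθ hN ha => ?_⟩
  have hm : ∀ u ∈ ball (0 : Jet N E E) (min r₂ G₀.r / 2), u ∈ ball (0 : Jet N E E) r₂ ∧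
      ‖u‖ < G₀.r / 2 := fun u hu => by
    rw [mem_ball_zero_iff] at hu ⊢
    exact ⟨by linarith [min_le_left r₂ G₀.r, h.pos], by linarith [min_le_right r₂ G₀.r]⟩
  obtain ⟨i1, i2, i3⟩ := h.ex x η hN ζ (hm ζ hζ).1
  simp only [CSec.tv_apply]
  generalize Sys.ta G₀ x η ζ = a at *
  simp only [le_min_iff] at ha
  obtain ⟨⟨a1, a2⟩, a3⟩ := ha
  rw [le_div_iff₀ (by positivity)] at a3
  obtain ⟨c1, c2, c3, c4, c5⟩ := hc x y ζ hxy (by linarith [(hm ζ hζ).2]) hD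
    (by linarith [(hm _ hθ).2]) a (by linarith)
  have hθ' := hm _ hθ
  generalize S.tθ x y ζ = θ at *
  have hn := norm_nonneg a
  have hq : ‖S.tγ ζ a‖ ≤ 1 / 2 := by
    have := norm_le_insert' (S.tγ ζ a) (S.iS (poly ζ 0))
    rw [S.norm_iS] at this
    nlinarith [norm_poly_zero_le ζ, (hm ζ hζ).2]
  have hz : ‖S.τ x y (S.tγ ζ a)‖ < G₀.r := by
    have := norm_le_insert' (S.τ x y (S.tγ ζ a)) (S.iS (poly θ 0))
    rw [S.norm_iS] at this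
    nlinarith [norm_poly_zero_le θ, hθ'.2]
  have hη : (S.c y (S.τ x y (S.tγ ζ a))).2 = η := by
    rw [Sys.c_τ c1, Sys.tγ]
    have := (G₀.on x η hN _ (mem_ball_zero_iff.2 i2)).2
    rwa [← i3] at this
  have hN' : S.Nr G₀.r y η := ⟨_, mem_ball_zero_iff.2 hz, hη⟩
  have hA : S.tA x y ζ a = G₀.g y η (S.tW x y ζ a) :=
    G₀.uniq y η hN' _ (mem_ball_zero_iff.2 (by linarith)) hη
  have hA1 : ‖S.tA x y ζ a‖ < G₀.r := (S.norm_pU_le _).trans_lt hz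
  have hW1 : S.tW x y ζ a ∈ ball (0 : E) (2 * G₀.r) :=
    mem_ball_zero_iff.2 ((S.norm_pS_le _).trans_lt (by linarith))
  have hA2 : ‖S.tA x y ζ a‖ ≤ C * ‖a‖ := by
    have := (S.norm_pU_le _).trans c3
    rwa [map_sub, S.pU_iS, sub_zero] at this
  have he : s.e y (S.iS (S.tW x y ζ a) + S.iU (G₀.g y η (S.tW x y ζ a))) =
      𝔉.A x y (S.tγ ζ a) (s.e x (S.tγ ζ a)) := by
    rw [← hA, Sys.tW, Sys.tA, S.iS_add, s.eqv x y _ c1]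
  have hb' : ‖𝔉.A x y (S.tγ ζ a) (s.e x (S.tγ ζ a))‖ ≤ M := by
    rw [← s.eqv x y _ c1]
    exact hb y _ (by linarith)
  obtain ⟨j1, j2, j3⟩ := h.ex y η hN' θ hθ'.1
  generalize Sys.ta G₀ y η θ = a' at *
  generalize S.tA x y ζ a = A at *
  generalize S.tW x y ζ a = w at *
  have hg : ‖G₀.g y η (poly θ a') - G₀.g y η w‖ ≤ 1 / 2 * ‖poly θ a' - w‖ :=
    (convex_ball (0 : E) (2 * G₀.r)).norm_image_sub_le_of_norm_fderiv_le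
      (fun u hu => ((G₀.smooth y η hN').contDiffAt (isOpen_ball.mem_nhds hu)).differentiableAt
        (by simp)) (G₀.slope y η hN') hW1 (mem_ball_zero_iff.2 j2)
  rw [← j3, ← hA] at hg
  have hl : ‖poly θ a' - poly θ A‖ ≤ 3 / 4 * ‖a' - A‖ :=
    (poly_lip θ (by linarith) (by linarith)).trans
      (mul_le_mul_of_nonneg_right (by linarith [hθ'.2]) (norm_nonneg _))
  have ht := norm_sub_le_norm_sub_add_norm_sub (poly θ a') (poly θ A) w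
  have hd := norm_nonneg (poly θ A - w)
  have k1 : ‖a' - A‖ ≤ C * ‖a‖ ^ (N + 1) := by linarith
  have k2 : ‖w - poly θ a'‖ ≤ 2 * (C * ‖a‖ ^ (N + 1)) := by
    rw [norm_sub_rev]
    linarith
  have hδ : 0 ≤ ‖a‖ ^ (N + 1) := by positivity
  refine ⟨hN', ?_, fun β => ?_⟩
  · have k3 : ‖a‖ ^ (N + 1) ≤ ‖a‖ := pow_le_of_le_one hn a2 (Nat.succ_ne_zero N)
    have k4 := norm_le_insert' a' A
    have k5 : 0 ≤ (C * M + 9 / 2 * C * M + 2 * P * |L₀| * C) * ‖a‖ := by positivity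
    nlinarith [mul_le_mul_of_nonneg_left k3 hC]
  · have l1 := (hL₀ y η hN' w hW1 _ (mem_ball_zero_iff.2 j2)).trans
      ((mul_le_mul_of_nonneg_right (le_abs_self L₀) (norm_nonneg _)).trans
        (mul_le_mul_of_nonneg_left k2 hL))
    rw [he, ← j3] at l1
    have l2 := ((poly β A ∘L 𝔉.A x y (S.tγ ζ a) - poly (𝔉.tP x y ζ β) a).le_opNorm
      (s.e x (S.tγ ζ a))).trans (mul_le_mul (c5 β) (hb x _ hq) (norm_nonneg _) (by positivity))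
    have l3 := ((poly β a' - poly β A).le_opNorm _).trans (mul_le_mul
      ((poly_lip β (by linarith) (by linarith)).trans
        (mul_le_mul_of_nonneg_left k1 (by positivity))) hb' (norm_nonneg _) (by positivity))
    have l4 := ((poly β a').le_opNorm _).trans (mul_le_mul (by
      simpa using hp β a' (mem_closedBall_zero_iff.2 (by linarith))) l1 (norm_nonneg _)
        (by positivity : 0 ≤ P * ‖β‖))
    simp only [sub_apply, ContinuousLinearMap.comp_apply, map_sub, Real.norm_eq_abs] at l2 l3 l4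
    have l5 : 0 ≤ C * ‖β‖ * ‖a‖ ^ (N + 1) := by positivity
    rw [abs_le] at l2 l3 l4 ⊢
    simp only [Sec.c, Sys.tγ] at l2 l3 l4 ⊢
    constructor <;> linarith [l2.1, l2.2, l3.1, l3.2, l4.1, l4.2]

end Vale.Agent.P207Z
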