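import Vale.Agent.P207Z.Calc

/-!
# P207: families of maps with uniformly bounded derivatives; fixed points with parameters
-/

set_option linter.all false

open Set Filter Topology Metric
open scoped ContDiff

noncomputable section

namespace Vale.Agent.P207Z

open CalcAux

variable {I U U' W W' : Type} [NormedAddCommGroup U] [NormedSpace ℝ U] [NormedAddCommGroup U']
  [NormedSpace ℝ U'] [NormedAddCommGroup W] [NormedSpace ℝ W] [NormedAddCommGroup W']
  [NormedSpace ℝ W'] {n : ℕ} {f : I → U → W} {O : Set U}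

/-- a family of `C^n` maps on `O` whose derivatives are uniformly bounded -/
structure UB (n : ℕ) (f : I → U → W) (O : Set U) : Prop where
  op : IsOpen O
  smooth : ∀ i, ContDiffOn ℝ n (f i) O
  bd : ∃ C : ℕ, ∀ k ≤ n, ∀ i, ∀ u ∈ O, ‖iteratedFDeriv ℝ k (f i) u‖ ≤ C

namespace UB

theorem mk' (hO : IsOpen O) (hs : ∀ i, ContDiffOn ℝ n (f i) O)
    (h : ∀ k ≤ n, ∃ C : ℝ, ∀ i, ∀ u ∈ O, ‖iteratedFDeriv ℝ k (f i) u‖ ≤ C) : UB n f O := by
  choose! C hC using h
  obtain ⟨m, -, hm⟩ := exists_bd C n 0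
  exact ⟨hO, hs, m, fun k hk i u hu => (hC k hk i u hu).trans (hm k hk)⟩

theorem of_infty (hO : IsOpen O) (hs : ∀ i, ContDiffOn ℝ ∞ (f i) O)
    (h : ∀ k, ∃ C : ℝ, ∀ i, ∀ u ∈ O, ‖iteratedFDeriv ℝ k (f i) u‖ ≤ C) (n : ℕ) : UB n f O :=
  mk' hO (fun i => (hs i).of_le (by exact_mod_cast le_top)) fun k _ => h k

theorem infty (h : ∀ n, UB n f O) : (∀ i, ContDiffOn ℝ ∞ (f i) O) ∧
    ∀ k, ∃ C : ℝ, ∀ i, ∀ u ∈ O, ‖iteratedFDeriv ℝ k (f i) u‖ ≤ C :=
  ⟨fun i => contDiffOn_infty.2 fun n => (h n).smooth i, fun k =>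
    (h k).bd.elim fun C hC => ⟨C, hC k le_rfl⟩⟩

theorem mono (h : UB n f O) {m : ℕ} (hm : m ≤ n) {O' : Set U} (hO : IsOpen O') (hs : O' ⊆ O) :
    UB m f O' :=
  ⟨hO, fun i => ((h.smooth i).of_le (cast_le hm)).mono hs,
    h.bd.imp fun _ hC k hk i u hu => hC k (hk.trans hm) i u (hs hu)⟩

theorem contDiffAt (h : UB n f O) (i : I) {u : U} (hu : u ∈ O) : ContDiffAt ℝ n (f i) u :=
  (h.smooth i).contDiffAt (h.op.mem_nhds hu)

theorem norm_le (h : UB n f O) : ∃ C : ℝ, ∀ i, ∀ u ∈ O, ‖f i u‖ ≤ C :=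
  h.bd.elim fun C hC => ⟨C, fun i u hu => by
    simpa only [norm_iteratedFDeriv_zero] using hC 0 (Nat.zero_le n) i u hu⟩

theorem congr (h : UB n f O) {g : I → U → W} (e : ∀ i, ∀ u ∈ O, g i u = f i u) : UB n g O :=
  ⟨h.op, fun i => (h.smooth i).congr (e i), h.bd.imp fun _ hC k hk i u hu => by
    rw [(Filter.EventuallyEq.iteratedFDeriv ℝ (f₁ := g i) (f₂ := f i)
      (mem_of_superset (h.op.mem_nhds hu) (e i)) k).self_of_nhds]
    exact hC k hk i u hu⟩

theorem prod (h : UB n f O) {g : I → U → W'} (h' : UB n g O) :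
    UB n (fun i u => (f i u, g i u)) O := by
  obtain ⟨C, hC⟩ := h.bd
  obtain ⟨C', hC'⟩ := h'.bd
  refine mk' h.op (fun i => (h.smooth i).prodMk (h'.smooth i)) fun k hk =>
    ⟨max C C', fun i u hu => ?_⟩
  rw [iteratedFDeriv_prodMk (h.contDiffAt i hu) (h'.contDiffAt i hu) (cast_le hk),
    ContinuousMultilinearMap.opNorm_prod]
  exact max_le_max (hC k hk i u hu) (hC' k hk i u hu)

theorem comp {Φ : I → W → W'} {T : Set W} (hΦ : UB n Φ T) (h : UB n f O)
    (hm : ∀ i, MapsTo (f i) O T) : UB n (fun i u => Φ i (f i u)) O := by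
  obtain ⟨C, hC⟩ := hΦ.bd
  obtain ⟨D, hD⟩ := h.bd
  exact mk' h.op (fun i => (hΦ.smooth i).comp (h.smooth i) (hm i)) fun k hk =>
    ⟨_, fun i u hu => comp_bd (hΦ.smooth i) (h.smooth i) h.op hΦ.op (hm i) hu
      (fun j hj => hC j hj i _ (hm i hu)) (fun j hj => hD j hj i u hu) hk⟩

/-- composition with a fixed smooth map, on a compact set -/
theorem map {Φ : W → W'} {T K : Set W} (hT : IsOpen T) (hΦ : ContDiffOn ℝ ∞ Φ T)
    (hK : IsCompact K) (hKT : K ⊆ T) (h : UB n f O) (hm : ∀ i, MapsTo (f i) O K) :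
    UB n (fun i u => Φ (f i u)) O := by
  have hΦ' : ContDiffOn ℝ n Φ T := hΦ.of_le (by exact_mod_cast le_top)
  have hb : ∀ j ≤ n, ∃ C : ℝ, ∀ y ∈ K, ‖iteratedFDeriv ℝ j Φ y‖ ≤ C := fun j hj =>
    hK.exists_bound_of_continuousOn fun y hy =>
      ((hΦ'.contDiffAt (hT.mem_nhds (hKT hy))).continuousAt_iteratedFDeriv
        (cast_le hj)).continuousWithinAt
  choose! C hC using hb
  obtain ⟨m, -, hm'⟩ := exists_bd C n 0
  obtain ⟨D, hD⟩ := h.bd
  exact mk' h.op (fun i => hΦ'.comp (h.smooth i) ((hm i).mono_right hKT)) fun k hk =>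
    ⟨_, fun i u hu => comp_bd hΦ' (h.smooth i) h.op hT ((hm i).mono_right hKT) hu
      (fun j hj => (hC j hj _ (hm i hu)).trans (hm' j hj)) (fun j hj => hD j hj i u hu) hk⟩

theorem map' [FiniteDimensional ℝ W] {Φ : W → W'} (hΦ : ContDiff ℝ ∞ Φ) (h : UB n f O) :
    UB n (fun i u => Φ (f i u)) O := by
  have := FiniteDimensional.proper_real W
  obtain ⟨C, hC⟩ := h.norm_le
  exact h.map isOpen_univ hΦ.contDiffOn (isCompact_closedBall 0 C) (subset_univ _)
    fun i u hu => mem_closedBall_zero_iff.2 (hC i u hu)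

theorem fderiv (h : UB (n + 1) f O) : UB n (fun i => fderiv ℝ (f i)) O :=
  ⟨h.op, fun i => (h.smooth i).fderiv_of_isOpen h.op (by exact_mod_cast le_rfl),
    h.bd.imp fun _ hC k hk i u hu => by
      rw [norm_iteratedFDeriv_fderiv]
      exact hC _ (by omega) i u hu⟩

theorem zero (hO : IsOpen O) (hc : ∀ i, ContinuousOn (f i) O) {C : ℝ}
    (hb : ∀ i, ∀ u ∈ O, ‖f i u‖ ≤ C) : UB 0 f O :=
  mk' hO (fun i => contDiffOn_zero.2 (hc i)) fun k hk => ⟨C, fun i u hu => by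
    rw [Nat.le_zero.1 hk, norm_iteratedFDeriv_zero]
    exact hb i u hu⟩

theorem succ {f' : I → U → U →L[ℝ] W} (h : UB n f' O)
    (hd : ∀ i, ∀ u ∈ O, HasFDerivAt (f i) (f' i u) u) {C : ℝ} (hb : ∀ i, ∀ u ∈ O, ‖f i u‖ ≤ C) :
    UB (n + 1) f O := by
  have h1 := h.congr (g := fun i => _root_.fderiv ℝ (f i)) fun i u hu => (hd i u hu).fderiv
  obtain ⟨D, hD⟩ := h1.bd
  refine mk' h.op (fun i => ?_) fun k hk => ?_
  · exact (contDiffOn_succ_iff_fderiv_of_isOpen (n := n) h.op).2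
      ⟨fun u hu => (hd i u hu).differentiableAt.differentiableWithinAt, by simp, h1.smooth i⟩
  · rcases k with _ | k
    · exact ⟨C, fun i u hu => by
        rw [norm_iteratedFDeriv_zero]
        exact hb i u hu⟩
    · exact ⟨D, fun i u hu => by
        rw [← norm_iteratedFDeriv_fderiv]
        exact hD k (by omega) i u hu⟩

theorem const (hO : IsOpen O) {c : I → W} {C : ℝ} (hb : ∀ i, ‖c i‖ ≤ C) (n : ℕ) :
    UB n (fun i (_ : U) => c i) O :=
  mk' hO (fun _ => contDiffOn_const) fun k _ => ⟨max C 0, fun i u _ => by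
    rcases k with _ | k
    · rw [norm_iteratedFDeriv_zero]
      exact (hb i).trans (le_max_left _ _)
    · rw [iteratedFDeriv_const_of_ne (Nat.succ_ne_zero k), Pi.zero_apply, norm_zero]
      exact le_max_right _ _⟩

theorem id (hO : IsOpen O) {C : ℝ} (hb : ∀ u ∈ O, ‖u‖ ≤ C) (n : ℕ) :
    UB n (fun (_ : I) (u : U) => u) O :=
  (succ (const hO (c := fun _ => ContinuousLinearMap.id ℝ U)
    (fun _ => ContinuousLinearMap.norm_id_le) n) (fun _ u _ => hasFDerivAt_id u)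
      fun _ => hb).mono (Nat.le_succ n) hO Subset.rfl

/-- the derivative of a fixed point -/
def dfix (L : U × W →L[ℝ] W) : U →L[ℝ] W :=
  Ring.inverse (1 - L ∘L ContinuousLinearMap.inr ℝ U W) ∘L L ∘L ContinuousLinearMap.inl ℝ U W

theorem contDiffOn_dfix [CompleteSpace W] : ContDiffOn ℝ ∞ (dfix (U := U) (W := W))
    {L | ‖L ∘L ContinuousLinearMap.inr ℝ U W‖ < 1} := fun L hL => by
  have h1 : ContDiff ℝ ∞ fun L : U × W →L[ℝ] W => 1 - L ∘L ContinuousLinearMap.inr ℝ U W :=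
    contDiff_const.sub (contDiff_id.clm_comp contDiff_const)
  have h2 := contDiffAt_ringInverse ℝ (n := ∞) (Units.oneSub _ hL)
  have h3 : ContDiff ℝ ∞ fun L : U × W →L[ℝ] W => L ∘L ContinuousLinearMap.inl ℝ U W :=
    contDiff_id.clm_comp contDiff_const
  exact ((ContDiffAt.comp L h2 h1.contDiffAt).clm_comp h3.contDiffAt).contDiffWithinAt

theorem hasFDerivAt_fix [CompleteSpace W] {h : U × W → W} {a : U → W} {u : U}
    {L : U × W →L[ℝ] W} (hc : ContinuousAt a u) (hd : HasFDerivAt h L (u, a u))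
    (hL : ‖L ∘L ContinuousLinearMap.inr ℝ U W‖ < 1) (e : ∀ᶠ v in 𝓝 u, h (v, a v) = a v) :
    HasFDerivAt a (dfix L) u := by
  have h1 := HasFDerivAt.of_comp_of_leftInverse (g := fun v => (v, a v))
    (f'symm := (ContinuousLinearMap.fst ℝ U W).prod
      (Ring.inverse (1 - L ∘L ContinuousLinearMap.inr ℝ U W) ∘L (ContinuousLinearMap.snd ℝ U W +
        L ∘L ContinuousLinearMap.inl ℝ U W ∘L ContinuousLinearMap.fst ℝ U W)))
    (continuousAt_id.prodMk hc) (hasFDerivAt_fst.prodMk (hasFDerivAt_snd.sub hd))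
    (hasFDerivAt_prodMk_left u (0 : W)) (e.mono fun v hv => Prod.ext rfl (sub_eq_zero.2 hv.symm))
    fun p => Prod.ext rfl (by
      have h2 : p.2 - L p + L (p.1, 0) = (1 - L ∘L ContinuousLinearMap.inr ℝ U W) p.2 := by
        have h3 : L p = L (p.1, 0) + L (0, p.2) := by rw [← map_add]; simp
        rw [h3]
        change _ = p.2 - L (0, p.2)
        abel
      change Ring.inverse (1 - L ∘L ContinuousLinearMap.inr ℝ U W) (p.2 - L p + L (p.1, 0)) = p.2
      rw [h2, ← ContinuousLinearMap.mul_apply,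
        Ring.inverse_mul_cancel (1 - L ∘L ContinuousLinearMap.inr ℝ U W) (Units.oneSub _ hL).isUnit,
        ContinuousLinearMap.one_apply])
  refine h1.snd.congr_fderiv ?_
  ext v
  simp [dfix]

theorem lip_snd {h : U × W → W} {T : Set W} (hT : Convex ℝ T) {u : U}
    (hd : ∀ w ∈ T, DifferentiableAt ℝ h (u, w))
    (hL : ∀ w ∈ T, ‖_root_.fderiv ℝ h (u, w) ∘L ContinuousLinearMap.inr ℝ U W‖ ≤ 1 / 2)
    {w w' : W} (hw : w ∈ T) (hw' : w' ∈ T) : ‖h (u, w') - h (u, w)‖ ≤ 1 / 2 * ‖w' - w‖ :=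
  hT.norm_image_sub_le_of_norm_hasFDerivWithin_le (f := fun w => h (u, w))
    (fun w hw => ((hd w hw).hasFDerivAt.comp w (hasFDerivAt_prodMk_right u w)).hasFDerivWithinAt)
    hL hw hw'

/-- **fixed points with parameters** -/
theorem fix [FiniteDimensional ℝ U] [FiniteDimensional ℝ W] {h : I → U × W → W} {T : Set W}
    (hO : IsOpen O) (hT : Convex ℝ T) {C : ℝ} (hb : ∀ u ∈ O, ‖u‖ ≤ C)
    (hh : ∀ n, UB n h (O ×ˢ T)) (hL : ∀ i, ∀ u ∈ O, ∀ w ∈ T,
      ‖_root_.fderiv ℝ (h i) (u, w) ∘L ContinuousLinearMap.inr ℝ U W‖ ≤ 1 / 2)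
    {a : I → U → W} (ha : ∀ i, ∀ u ∈ O, a i u ∈ T ∧ h i (u, a i u) = a i u) (n : ℕ) :
    UB n a O := by
  have := FiniteDimensional.complete ℝ W
  have := FiniteDimensional.proper_real (U × W →L[ℝ] W)
  have hd : ∀ i, ∀ u ∈ O, ∀ w ∈ T, DifferentiableAt ℝ (h i) (u, w) := fun i u hu w hw =>
    ((hh 1).contDiffAt i ⟨hu, hw⟩).differentiableAt (by simp)
  have hc : ∀ i, ∀ u ∈ O, ContinuousAt (a i) u := fun i u hu => by
    have h1 : Tendsto (fun v => 2 * ‖h i (v, a i u) - h i (u, a i u)‖) (𝓝 u) (𝓝 0) := by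
      have h2 : ContinuousAt (fun v => 2 * ‖h i (v, a i u) - h i (u, a i u)‖) u :=
        continuousAt_const.mul ((ContinuousAt.comp (f := fun v => (v, a i u))
          (hd i u hu _ (ha i u hu).1).continuousAt (by fun_prop)).sub continuousAt_const).norm
      simpa only [ContinuousAt, sub_self, norm_zero, mul_zero] using h2
    refine tendsto_iff_norm_sub_tendsto_zero.2 (squeeze_zero' (Eventually.of_forall fun _ =>
      norm_nonneg _) (mem_of_superset (hO.mem_nhds hu) fun v hv => ?_) h1)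
    have h2 := lip_snd hT (hd i v hv) (hL i v hv) (ha i u hu).1 (ha i v hv).1
    have h3 := norm_sub_le_norm_sub_add_norm_sub (h i (v, a i v)) (h i (v, a i u)) (h i (u, a i u))
    change ‖a i v - a i u‖ ≤ 2 * _
    nth_rw 1 [(ha i v hv).2, (ha i u hu).2] at h3
    linarith
  obtain ⟨D, hD⟩ := (hh 0).norm_le
  have hb' : ∀ i, ∀ u ∈ O, ‖a i u‖ ≤ D := fun i u hu =>
    (ha i u hu).2 ▸ hD i _ ⟨hu, (ha i u hu).1⟩
  induction n with
  | zero => exact zero hO (fun i u hu => (hc i u hu).continuousWithinAt) hb'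
  | succ n ih =>
    have h1 := (hh (n + 1)).fderiv.comp ((id hO hb n).prod ih) fun i u hu => ⟨hu, (ha i u hu).1⟩
    obtain ⟨D', hD'⟩ := h1.norm_le
    have h2 : Continuous fun L : U × W →L[ℝ] W => ‖L ∘L ContinuousLinearMap.inr ℝ U W‖ :=
      (continuous_id.clm_comp continuous_const).norm
    refine succ (h1.map (isOpen_lt h2 continuous_const) contDiffOn_dfix
      ((isCompact_closedBall 0 D').inter_right (isClosed_le h2 (continuous_const (y := 1 / 2))))
      (fun L hL => lt_of_le_of_lt (b := (1 / 2 : ℝ)) hL.2 one_half_lt_one) fun i u hu =>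
        ⟨mem_closedBall_zero_iff.2 (hD' i u hu), hL i u hu _ (ha i u hu).1⟩)
      (fun i u hu => hasFDerivAt_fix (hc i u hu) (hd i u hu _ (ha i u hu).1).hasFDerivAt
        ((hL i u hu _ (ha i u hu).1).trans_lt one_half_lt_one)
        (mem_of_superset (hO.mem_nhds hu) fun v hv => (ha i v hv).2)) hb'

end UB

end Vale.Agent.P207Z
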