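import Vale.Agent.P207Z.HullD
import Vale.Agent.P207Z.UB

/-!
# P207: the intersection of a transversal with a stable leaf (block VY1)
-/

set_option linter.all false

open Set Filter Topology Metric MeasureTheory Asymptotics
open scoped ContDiff

noncomputable section

namespace Vale.Agent.P207Z

variable {Γ X B E V : Type} [Group Γ] [Countable Γ] [MetricSpace X] [ProperSpace X]
  [MulAction Γ X] [IsIsometricSMul Γ X] [MeasurableSpace X] [BorelSpace X]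
  [TopologicalSpace B] [CompactSpace B] [T2Space B] [SecondCountableTopology B] [MulAction Γ B]
  [ContinuousConstSMul Γ B] [MeasurableSpace B] [BorelSpace B]
  [NormedAddCommGroup E] [InnerProductSpace ℝ E] [FiniteDimensional ℝ E]
  [NormedAddCommGroup V] [NormedSpace ℝ V] [FiniteDimensional ℝ V]
  {F : Type} [NormedAddCommGroup F] [NormedSpace ℝ F] [FiniteDimensional ℝ F]

variable {S : Sys Γ X B E V} {𝔉 : Bun S F}

theorem UB.exists_fix {W : Type} [NormedAddCommGroup W] [CompleteSpace W] {f : W → W} {s : Set W}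
    (hs : IsClosed s) {w₀ : W} (h0 : w₀ ∈ s) (hm : MapsTo f s s)
    (h : ∀ w ∈ s, ∀ w' ∈ s, ‖f w' - f w‖ ≤ 1 / 2 * ‖w' - w‖) : ∃ w ∈ s, f w = w := by
  obtain ⟨w, hw, e, -⟩ := ContractingWith.exists_fixedPoint' (K := 1 / 2) hs.isComplete hm
    ⟨by norm_num, LipschitzWith.of_dist_le_mul fun a b => by
      have h1 := h b b.2 a a.2
      rw [← dist_eq_norm, ← dist_eq_norm] at h1
      exact h1.trans_eq (by push_cast; rfl)⟩ h0 (edist_ne_top _ _)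
  exact ⟨w, hw, e⟩

theorem exists_small_jet (N : ℕ) {r : ℝ} (hr : 0 < r) : ∃ r₂ > 0, ∀ ζ ∈ ball (0 : Jet N E E) r₂,
    ∀ a ∈ ball (0 : E) 1, ‖poly ζ a‖ < r ∧ ‖fderiv ℝ (poly ζ) a‖ ≤ 1 := by
  obtain ⟨C₀, h0, hC₀⟩ := poly_bound (V := E) (W := E) N 0
  obtain ⟨C₁, h1, hC₁⟩ := poly_bound (V := E) (W := E) N 1
  refine ⟨min (r / (C₀ + 1)) (1 / (C₁ + 1)), by positivity, fun ζ hζ a ha => ?_⟩
  have h2 := hC₀ ζ a (ball_subset_closedBall ha)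
  have h3 := hC₁ ζ a (ball_subset_closedBall ha)
  rw [norm_iteratedFDeriv_zero] at h2
  rw [norm_iteratedFDeriv_one] at h3
  obtain ⟨h4, h5⟩ := lt_min_iff.1 (mem_ball_zero_iff.1 hζ)
  rw [lt_div_iff₀ (by positivity)] at h4 h5
  have h6 := norm_nonneg ζ
  exact ⟨by nlinarith, by nlinarith⟩

theorem UB.ta_abs {I U : Type} [NormedAddCommGroup U] [NormedSpace ℝ U] [FiniteDimensional ℝ U]
    {g : I → E → E} {ρ r₂ : ℝ} (hρ : 0 < ρ) (hρ1 : ρ < 1)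
    (hg : ∀ n, UB n g (ball 0 ρ)) (hb : ∀ i, ∀ w ∈ ball (0 : E) ρ, ‖g i w‖ < ρ)
    (hs : ∀ i, ∀ w ∈ ball (0 : E) ρ, ‖_root_.fderiv ℝ (g i) w‖ ≤ 1 / 2) {p : U → E → E}
    (hc : ContDiff ℝ ∞ fun u : U × E => p u.1 u.2) (hp : ∀ ζ ∈ ball (0 : U) r₂,
      ∀ a ∈ ball (0 : E) 1, ‖p ζ a‖ < ρ ∧ ‖_root_.fderiv ℝ (p ζ) a‖ ≤ 1) :
    (∀ i, ∀ ζ ∈ ball (0 : U) r₂, ∃ a, ‖a‖ < ρ ∧ ‖p ζ a‖ < ρ ∧ a = g i (p ζ a)) ∧
      (∀ i, ∀ ζ ∈ ball (0 : U) r₂, ∀ a a', ‖a‖ < ρ → ‖a'‖ < ρ → a = g i (p ζ a) →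
        a' = g i (p ζ a') → a' = a) ∧
      ∀ a : I → U → E, (∀ i, ∀ ζ ∈ ball (0 : U) r₂,
        ‖a i ζ‖ < ρ ∧ a i ζ = g i (p ζ (a i ζ))) → ∀ n, UB n a (ball 0 r₂) := by
  have := FiniteDimensional.complete ℝ E
  have hh : ∀ n, UB n (fun i (u : U × E) => g i (p u.1 u.2)) (ball 0 r₂ ×ˢ ball 0 1) := fun n => by
    have k1 := (UB.id (I := I) (O := ball (0 : U) r₂ ×ˢ ball (0 : E) 1)
      (isOpen_ball.prod isOpen_ball) (C := max r₂ 1) (fun u hu => max_le_max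
        (mem_ball_zero_iff.1 hu.1).le (mem_ball_zero_iff.1 hu.2).le) n).map' hc
    exact (hg n).comp k1 fun _ u hu => mem_ball_zero_iff.2 (hp _ hu.1 _ hu.2).1
  have hd : ∀ i, ∀ ζ ∈ ball (0 : U) r₂, ∀ a ∈ ball (0 : E) 1,
      DifferentiableAt ℝ (fun u : U × E => g i (p u.1 u.2)) (ζ, a) :=
    fun i ζ hζ a ha => ((hh 1).contDiffAt i ⟨hζ, ha⟩).differentiableAt (by simp)
  have hL : ∀ i, ∀ ζ ∈ ball (0 : U) r₂, ∀ a ∈ ball (0 : E) 1,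
      ‖_root_.fderiv ℝ (fun u : U × E => g i (p u.1 u.2)) (ζ, a) ∘L
        ContinuousLinearMap.inr ℝ U E‖ ≤ 1 / 2 := fun i ζ hζ a ha => by
    have k0 := mem_ball_zero_iff.2 (hp ζ hζ a ha).1
    have k1 : DifferentiableAt ℝ (p ζ) a := DifferentiableAt.comp (f := fun a : E => (ζ, a)) a
      (hc.differentiable (by simp) _) (by fun_prop)
    rw [((hd i ζ hζ a ha).hasFDerivAt.comp a (hasFDerivAt_prodMk_right ζ a)).unique
      ((((hg 1).contDiffAt i k0).differentiableAt (by simp)).hasFDerivAt.comp a k1.hasFDerivAt)]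
    exact (ContinuousLinearMap.opNorm_comp_le _ _).trans ((mul_le_mul (hs i _ k0)
      (hp ζ hζ a ha).2 (norm_nonneg _) (by norm_num)).trans_eq (mul_one _))
  have hlip : ∀ i, ∀ ζ ∈ ball (0 : U) r₂, ∀ a ∈ ball (0 : E) 1, ∀ a' ∈ ball (0 : E) 1,
      ‖g i (p ζ a') - g i (p ζ a)‖ ≤ 1 / 2 * ‖a' - a‖ :=
    fun i ζ hζ a ha a' ha' => UB.lip_snd (convex_ball _ _) (hd i ζ hζ) (hL i ζ hζ) ha ha'
  refine ⟨fun i ζ hζ => ?_, fun i ζ hζ a a' k1 k2 k3 k4 => ?_, fun a ha =>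
    UB.fix isOpen_ball (convex_ball _ _) (fun u hu => (mem_ball_zero_iff.1 hu).le) hh hL
      fun i ζ hζ => ⟨mem_ball_zero_iff.2 ((ha i ζ hζ).1.trans hρ1), (ha i ζ hζ).2.symm⟩⟩
  · have k1 : ∀ a ∈ closedBall (0 : E) ρ, ‖g i (p ζ a)‖ < ρ := fun a ha =>
      hb i _ (mem_ball_zero_iff.2 (hp ζ hζ a (closedBall_subset_ball hρ1 ha)).1)
    obtain ⟨a, ha, e⟩ := UB.exists_fix (f := fun a => g i (p ζ a)) isClosed_closedBall
      (mem_closedBall_self hρ.le) (fun a ha => mem_closedBall_zero_iff.2 (k1 a ha).le)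
      fun a ha a' ha' => hlip i ζ hζ a (closedBall_subset_ball hρ1 ha) a'
        (closedBall_subset_ball hρ1 ha')
    exact ⟨a, e ▸ k1 a ha, (hp ζ hζ a (closedBall_subset_ball hρ1 ha)).1, e.symm⟩
  · have k5 := hlip i ζ hζ a (mem_ball_zero_iff.2 (k1.trans hρ1)) a'
      (mem_ball_zero_iff.2 (k2.trans hρ1))
    rw [← k3, ← k4] at k5
    exact sub_eq_zero.1 (norm_le_zero_iff.1 (by linarith))

theorem UB.tv_abs {I : Type} {e : I → E → F} {T : Set E} {N n : ℕ} {r : ℝ}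
    {a : I → Jet N E E → E} (he : UB n e T) (ha : UB n a (ball 0 r))
    (hm : ∀ i, ∀ ζ ∈ ball (0 : Jet N E E) r, poly ζ (a i ζ) ∈ T) :
    UB n (fun i ζ => ContinuousLinearMap.apply ℝ ℝ (e i (poly ζ (a i ζ))) ∘L
      polyL N E (F →L[ℝ] ℝ) (a i ζ)) (ball 0 r) := by
  have k0 := ((UB.id isOpen_ball (fun u hu => (mem_ball_zero_iff.1 hu).le) n).prod ha).map'
    contDiff_poly₂
  have k2 : ContDiff ℝ ∞ fun u : F × E =>
      ContinuousLinearMap.apply ℝ ℝ u.1 ∘L polyL N E (F →L[ℝ] ℝ) u.2 :=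
    ((ContinuousLinearMap.apply ℝ ℝ (E := F)).contDiff.comp contDiff_fst).clm_comp
      (contDiff_polyL.comp contDiff_snd)
  have k3 := ((he.comp k0 hm).prod ha).map' k2
  exact k3

/-- **VY1** -/
theorem exists_taOk (s : Sec 𝔉) (N : ℕ) : ∃ r₁ > 0, ∀ G₀ : S.GrS (1 / 2), G₀.r ≤ r₁ →
    ∃ r₂, TaOk s G₀ N r₂ := by
  obtain ⟨r₁, hr₁, hs⟩ := S.sec_graph s
  refine ⟨r₁, hr₁, fun G₀ hG => ?_⟩
  obtain ⟨e1, e2⟩ := hs _ G₀ le_rfl hG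
  have he : ∀ n, UB n (fun (p : {p : X × B // S.Nr G₀.r p.1 p.2}) w =>
      s.e p.1.1 (S.iS w + S.iU (G₀.g p.1.1 p.1.2 w))) (ball 0 (2 * G₀.r)) :=
    UB.of_infty isOpen_ball (fun p => e1 _ _ p.2) fun k => (e2 k).imp fun _ h p => h _ _ p.2
  obtain ⟨r₂, hr₂, hp⟩ := exists_small_jet (E := E) N (mul_pos two_pos G₀.r_pos)
  obtain ⟨h1, h2, h3⟩ := UB.ta_abs
    (g := fun p : {p : X × B // S.Nr G₀.r p.1 p.2} => G₀.g p.1.1 p.1.2)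
    (mul_pos two_pos G₀.r_pos) (by linarith [G₀.r_le, G₀.r_pos])
    (UB.of_infty isOpen_ball (fun p => G₀.smooth _ _ p.2) fun k =>
      (G₀.bd k).imp fun _ h p => h _ _ p.2) (fun p w hw => (G₀.on _ _ p.2 w hw).1)
    (fun p => G₀.slope _ _ p.2) contDiff_poly₂ hp
  have hex : ∀ x η, S.Nr G₀.r x η → ∀ ζ ∈ ball (0 : Jet N E E) r₂,
      Sys.IsTa G₀ x η ζ (Sys.ta G₀ x η ζ) := fun x η h ζ hζ =>
    Classical.epsilon_spec (p := Sys.IsTa G₀ x η ζ) (h1 ⟨(x, η), h⟩ ζ hζ)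
  have ht : ∀ n, UB n (fun p : {p : X × B // S.Nr G₀.r p.1 p.2} => s.c.tv G₀ p.1.1 p.1.2)
      (ball (0 : Jet N E E) r₂) := fun n => by
    refine ((he n).tv_abs (h3 (fun p => Sys.ta G₀ p.1.1 p.1.2) (fun p ζ hζ =>
      ⟨(hex _ _ p.2 ζ hζ).1, (hex _ _ p.2 ζ hζ).2.2⟩) n) fun p ζ hζ =>
        mem_ball_zero_iff.2 (hex _ _ p.2 ζ hζ).2.1).congr fun p ζ hζ => ?_
    rw [← (hex _ _ p.2 ζ hζ).2.2]
    rfl
  refine ⟨r₂, hr₂, hex, fun x η h ζ hζ a k => h2 ⟨(x, η), h⟩ ζ hζ a _ k.1 (hex x η h ζ hζ).1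
    k.2.2 (hex x η h ζ hζ).2.2, ?_, fun x η h => (UB.infty ht).1 ⟨(x, η), h⟩,
    fun k => ((UB.infty ht).2 k).imp fun _ hC x η h => hC ⟨(x, η), h⟩⟩
  obtain ⟨C, hC⟩ := (he 1).fderiv.norm_le
  exact ⟨C, fun x η h w hw w' hw' => (convex_ball _ _).norm_image_sub_le_of_norm_fderiv_le
    (fun w hw => ((he 1).contDiffAt ⟨(x, η), h⟩ hw).differentiableAt (by simp))
    (hC ⟨(x, η), h⟩) hw' hw⟩

end Vale.Agent.P207Z
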