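import Vale.Agent.P207Z.TrC
import Vale.Agent.P207Z.VyA
import Vale.Agent.P207Z.VyB

/-!
# P207: the tested section is close to a finite dimensional space (VY3)
-/

set_option linter.all false

open Set Filter Topology Metric MeasureTheory Asymptotics
open scoped ContDiff

noncomputable section

namespace Vale.Agent.P207Z

open Vale.Agent.P207.N3 (JC)

variable {Γ X B E V : Type} [Group Γ] [Countable Γ] [MetricSpace X] [ProperSpace X]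
  [MulAction Γ X] [IsIsometricSMul Γ X] [MeasurableSpace X] [BorelSpace X]
  [TopologicalSpace B] [CompactSpace B] [T2Space B] [SecondCountableTopology B] [MulAction Γ B]
  [ContinuousConstSMul Γ B] [MeasurableSpace B] [BorelSpace B]
  [NormedAddCommGroup E] [InnerProductSpace ℝ E] [FiniteDimensional ℝ E]
  [NormedAddCommGroup V] [NormedSpace ℝ V] [FiniteDimensional ℝ V]
  {F G W : Type} [NormedAddCommGroup F] [NormedSpace ℝ F] [FiniteDimensional ℝ F]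
  [NormedAddCommGroup G] [NormedSpace ℝ G] [FiniteDimensional ℝ G]
  [NormedAddCommGroup W] [NormedSpace ℝ W]

variable {S : Sys Γ X B E V} {Y : Type} [MeasurableSpace Y] [MulAction Γ Y] {𝔉 : Bun S F}

namespace Vy3

theorem norm_le_preL (A : F →L[ℝ] G) (v : F) : ‖A v‖ ≤ ‖preL F G A‖ * ‖v‖ := by
  obtain ⟨l, hl, h⟩ := exists_dual_vector'' ℝ (A v)
  calc ‖A v‖ = preL F G A l v := h.symm
    _ ≤ ‖preL F G A l‖ * ‖v‖ := (le_abs_self _).trans ((preL F G A l).le_opNorm v)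
    _ ≤ ‖preL F G A‖ * ‖v‖ := by
      gcongr
      exact ((preL F G A).le_opNorm l).trans (mul_le_of_le_one_right (norm_nonneg _) hl)

/-- the choice of the number of steps -/
theorem steps {α K C r₃ : ℝ} (hα : 0 < α) (hK : 1 ≤ K) (hC : 0 < C) (hr : 0 < r₃) (J : ℕ) :
    ∃ M d₀ : ℝ, 0 < d₀ ∧ ∀ d, 0 < d → d ≤ d₀ → ∃ n : ℕ, K ^ n * (C * d ^ α) ≤ r₃ ∧
      Real.exp (-M * n) ≤ Real.exp M * d ^ J ∧
      ∀ N : ℕ, (J : ℝ) ≤ α * N → K ^ n * (C * d ^ α) ^ (N + 1) ≤ C ^ (N + 1) * d ^ J := by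
  have hc : 0 ≤ Real.log K := Real.log_nonneg hK
  set θ := α / 2 / (Real.log K + 1) with hθ
  have hθ0 : 0 < θ := by positivity
  have hθ1 : θ * Real.log K ≤ α / 2 := by
    rw [hθ, div_mul_eq_mul_div, div_le_iff₀ (by positivity)]
    nlinarith
  refine ⟨J / θ, min 1 (Real.exp (2 / α * Real.log (r₃ / C))), lt_min one_pos (Real.exp_pos _),
    fun d hd hd₀ => ?_⟩
  obtain ⟨L, rfl⟩ : ∃ L, d = Real.exp (-L) := ⟨-Real.log d, by rw [neg_neg, Real.exp_log hd]⟩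
  have hL : 0 ≤ L := by
    have := Real.exp_le_one_iff.1 (hd₀.trans (min_le_left _ _))
    linarith
  have hL' : -L ≤ 2 / α * Real.log (r₃ / C) := Real.exp_le_exp.1 (hd₀.trans (min_le_right _ _))
  have h1 : (⌊θ * L⌋₊ : ℝ) ≤ θ * L := Nat.floor_le (by positivity)
  have h2 : θ * L < (⌊θ * L⌋₊ : ℝ) + 1 := Nat.lt_floor_add_one _
  have h3 : K ^ ⌊θ * L⌋₊ ≤ Real.exp (α / 2 * L) := by
    rw [← Real.exp_log (zero_lt_one.trans_le hK), ← Real.exp_nat_mul, Real.exp_le_exp]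
    nlinarith [mul_le_mul_of_nonneg_right h1 hc, mul_le_mul_of_nonneg_right hθ1 hL]
  rw [← Real.exp_mul]
  refine ⟨⌊θ * L⌋₊, ?_, ?_, fun N hN => ?_⟩
  · calc _ ≤ Real.exp (α / 2 * L) * (C * Real.exp (-L * α)) := by gcongr
      _ = C * Real.exp (α / 2 * -L) := by
        rw [mul_left_comm, ← Real.exp_add]
        congr 2
        ring
      _ ≤ C * Real.exp (α / 2 * (2 / α * Real.log (r₃ / C))) := by gcongr
      _ = r₃ := by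
        rw [← mul_assoc (α / 2), show α / 2 * (2 / α) = 1 by field_simp, one_mul,
          Real.exp_log (by positivity)]
        field_simp
  · rw [← Real.exp_nat_mul, ← Real.exp_add, Real.exp_le_exp]
    have h4 : (J : ℝ) / θ * (θ * L) ≤ J / θ * (⌊θ * L⌋₊ + 1) :=
      mul_le_mul_of_nonneg_left h2.le (by positivity)
    rw [← mul_assoc, div_mul_cancel₀ _ hθ0.ne'] at h4
    linarith
  · calc _ ≤ Real.exp (α / 2 * L) * (C * Real.exp (-L * α)) ^ (N + 1) := by gcongr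
      _ = C ^ (N + 1) * Real.exp (α / 2 * L + (N + 1 : ℕ) * (-L * α)) := by
        rw [mul_pow, mul_left_comm, ← Real.exp_nat_mul, ← Real.exp_add]
      _ ≤ C ^ (N + 1) * Real.exp (-L) ^ J := by
        rw [← Real.exp_nat_mul]
        gcongr
        push_cast
        nlinarith [mul_le_mul_of_nonneg_right hN hL, mul_nonneg hα.le hL]

variable {B' 𝒢 : Type} [NormedAddCommGroup B'] [NormedSpace ℝ B'] [FiniteDimensional ℝ B']
  [NormedAddCommGroup 𝒢] [NormedSpace ℝ 𝒢] [FiniteDimensional ℝ 𝒢] {𝔖 : GSys S B' 𝒢}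
  {t₁ r C r₃ : ℝ} {N : ℕ} {u : X → B → B' → 𝒢} {t : X → B → B' → ℝ} {R : X → B → Prop}

theorem bd_L (hc : 𝔖.Contr t₁ r) :
    ∃ L, 1 ≤ L ∧ ∀ x, ∀ ζ ∈ ball (0 : B') r, ‖𝔖.L x (S.φ t₁ x) ζ‖ ≤ L := by
  obtain ⟨C₁, hC₁⟩ := hc.bd 0
  refine ⟨max C₁ 1, le_max_right _ _, fun x ζ hζ => ?_⟩
  have h1 := (hC₁ x ζ hζ).2
  rw [norm_iteratedFDeriv_zero] at h1
  exact h1.trans (le_max_left _ _)

theorem maps (hc : 𝔖.Contr t₁ r) (x : X) (ζ : B') (hζ : ζ ∈ ball (0 : B') r) :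
    𝔖.θ x (S.φ t₁ x) ζ ∈ ball (0 : B') r := by
  have h1 := (convex_ball (0 : B') r).norm_image_sub_le_of_norm_fderiv_le
    (fun q hq => ((hc.smθ x).contDiffAt (isOpen_ball.mem_nhds hq)).differentiableAt (by simp))
    (hc.lip x) (mem_ball_self hc.r_pos) hζ
  rw [𝔖.θ_zero x _ (S.pt_φ t₁ x).symm, sub_zero, sub_zero] at h1
  rw [mem_ball_zero_iff] at hζ ⊢
  linarith [norm_nonneg ζ]

variable (𝔖 t₁ r C r₃ N u t R) in
/-- one step -/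
def Step : Prop := ∀ x η, R x η → ∀ ζ ∈ ball (0 : B') r, t x η ζ ≤ r₃ → R (S.φ t₁ x) η ∧
  t (S.φ t₁ x) η (𝔖.θ x (S.φ t₁ x) ζ) ≤ C * t x η ζ ∧
  ‖u x η ζ - 𝔖.L x (S.φ t₁ x) ζ (u (S.φ t₁ x) η (𝔖.θ x (S.φ t₁ x) ζ))‖ ≤ C * t x η ζ ^ (N + 1)

/-- the telescoping estimate -/
theorem tele (hc : 𝔖.Contr t₁ r) (c1 : 1 ≤ C) (ht : ∀ x η ζ, 0 ≤ t x η ζ)
    (hn : Step 𝔖 t₁ r C r₃ N u t R) :
    ∃ K : ℝ, 1 ≤ K ∧ ∀ (n : ℕ) (x : X) (η : B) (A : ℝ), R x η →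
      K ^ n * A ≤ r₃ → ∀ ζ ∈ ball (0 : B') r, t x η ζ ≤ A → R ((S.φ t₁)^[n] x) η ∧
        ‖u x η ζ - 𝔖.pbn t₁ n x (u ((S.φ t₁)^[n] x) η) ζ‖ ≤ K ^ n * A ^ (N + 1) := by
  obtain ⟨L, l1, hL⟩ := bd_L hc
  have p1 : 1 ≤ C ^ (N + 1) := one_le_pow₀ c1
  have k0 : C ≤ C + L * C ^ (N + 1) := by nlinarith
  have k1 : 1 ≤ C + L * C ^ (N + 1) := c1.trans k0
  refine ⟨C + L * C ^ (N + 1), k1, fun n => ?_⟩
  generalize hK : C + L * C ^ (N + 1) = K at k0 k1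
  induction n with
  | zero =>
    intro x η A hη _ ζ _ hA
    refine ⟨hη, ?_⟩
    show ‖u x η ζ - u x η ζ‖ ≤ _
    rw [sub_self, norm_zero]
    exact mul_nonneg (by positivity) (pow_nonneg ((ht _ _ _).trans hA) _)
  | succ n ih =>
    intro x η A hη hA3 ζ hζ hA
    have A0 : 0 ≤ A := (ht _ _ _).trans hA
    have q1 : 1 ≤ K ^ n := one_le_pow₀ k1
    obtain ⟨a1, a2, a3⟩ := hn x η hη ζ hζ
      (hA.trans ((le_mul_of_one_le_left A0 (one_le_pow₀ k1)).trans hA3))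
    obtain ⟨b1, b2⟩ := ih (S.φ t₁ x) η (C * A) a1
      (le_trans (by rw [pow_succ, mul_assoc]; gcongr) hA3) _ (maps hc x ζ hζ)
      (a2.trans (mul_le_mul_of_nonneg_left hA (by positivity)))
    rw [Function.iterate_succ_apply]
    refine ⟨b1, ?_⟩
    have e1 := a3.trans (mul_le_mul_of_nonneg_left (pow_le_pow_left₀ (ht _ _ _) hA (N + 1))
      (by positivity))
    have e2 := (𝔖.L x (S.φ t₁ x) ζ).le_of_opNorm_le_of_le (hL x ζ hζ) b2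
    rw [map_sub] at e2
    refine (norm_sub_le_norm_sub_add_norm_sub _ _ _).trans ((add_le_add e1 e2).trans ?_)
    rw [mul_pow, pow_succ K]
    generalize K ^ n = Q at q1
    rw [← hK]
    nlinarith [mul_le_mul_of_nonneg_left q1 (show 0 ≤ C * A ^ (N + 1) by positivity)]

/-- the approximation, for a system of germs -/
theorem approx (P : Prob S Y) (hc : 𝔖.Contr t₁ r) (c1 : 1 ≤ C) (hr₃ : 0 < r₃)
    (ht : ∀ x η ζ, 0 ≤ t x η ζ)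
    (hn : Step 𝔖 t₁ r C r₃ N u t R) (hs : ∀ x η, R x η → ContDiffOn ℝ ∞ (u x η) (ball 0 r))
    (hb : ∀ k : ℕ, ∃ C : ℝ, ∀ x η, R x η → ∀ ζ ∈ ball (0 : B') r,
      ‖iteratedFDeriv ℝ k (u x η) ζ‖ ≤ C) {α CH ρ : ℝ} (hα : 0 < α) (hCH : 0 < CH) (hρ : 0 < ρ)
    {J : ℕ} (hJ : (J : ℝ) ≤ α * N) (j : ℕ) {η : X → E → B}
    (hnr : ∀ x a, ‖a‖ < ρ → R x (η x a))
    (hta : ∀ x a, ‖a‖ < ρ → ∀ ζ ∈ ball (0 : B') r, t x (η x a) ζ ≤ CH * ‖a‖ ^ α) :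
    ∀ᵐ x ∂S.μ, ∃ Pc : Submodule ℝ (B' → 𝒢), FiniteDimensional ℝ Pc ∧
      (∀ f ∈ Pc, ContDiffOn ℝ j f (ball 0 r) ∧ ∃ C, ∀ ζ ∈ ball (0 : B') r, ‖f ζ‖ ≤ C) ∧
      ∃ C : ℝ, ∀ a : E, ‖a‖ < ρ → ∃ f ∈ Pc, ∀ ζ ∈ ball (0 : B') r,
        ‖u x (η x a) ζ - f ζ‖ ≤ C * ‖a‖ ^ J := by
  have hr := hc.r_pos
  obtain ⟨K, hK, tele⟩ := tele hc c1 ht hn
  obtain ⟨M, d₀, hd₀, steps⟩ := steps hα hK hCH hr₃ J
  obtain ⟨Kp, hP⟩ := 𝔖.pclass P hc j M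
  choose Cb hCb using hb
  have hb0 : ∀ x η, R x η → ∀ ζ ∈ ball (0 : B') r, ‖u x η ζ‖ ≤ Cb 0 := fun x η hη ζ hζ => by
    have h1 := hCb 0 x η hη ζ hζ
    rwa [norm_iteratedFDeriv_zero] at h1
  filter_upwards [hP] with x ⟨Pc, p1, p2, p3⟩
  have h0 : R x (η x 0) := hnr x 0 (by rwa [norm_zero])
  obtain ⟨C', hC⟩ := p3 (∑ i ∈ Finset.range (Kp + 1), |Cb i|)
  refine ⟨Pc ⊔ Submodule.span ℝ {u x (η x 0)}, inferInstance, fun f hf => ?_,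
    max (CH ^ (N + 1) + |C'| * Real.exp M) (|Cb 0| / d₀ ^ J), fun a ha => ?_⟩
  · obtain ⟨g, hg, g', hg', rfl⟩ := Submodule.mem_sup.1 hf
    obtain ⟨c, rfl⟩ := Submodule.mem_span_singleton.1 hg'
    obtain ⟨q1, C₁, q2⟩ := p2 g hg
    refine ⟨q1.add (((hs x _ h0).of_le (by exact_mod_cast le_top)).const_smul c),
      C₁ + |c| * Cb 0, fun ζ hζ => (norm_add_le _ _).trans (add_le_add (q2 ζ hζ) ?_)⟩
    rw [Pi.smul_apply, norm_smul, Real.norm_eq_abs]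
    exact mul_le_mul_of_nonneg_left (hb0 x _ h0 ζ hζ) (abs_nonneg _)
  have hm : 0 ≤ max (CH ^ (N + 1) + |C'| * Real.exp M) (|Cb 0| / d₀ ^ J) :=
    le_max_of_le_right (by positivity)
  rcases (norm_nonneg a).eq_or_lt with h1 | h1
  · obtain rfl : a = 0 := norm_eq_zero.1 h1.symm
    refine ⟨_, Submodule.mem_sup_right (Submodule.mem_span_singleton_self _), fun ζ _ => ?_⟩
    rw [sub_self, norm_zero]
    positivity
  rcases le_total ‖a‖ d₀ with h2 | h2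
  · obtain ⟨n, n1, n2, n3⟩ := steps _ h1 h2
    have t1 := tele n x _ _ (hnr x a ha) n1
    have t2 := (t1 0 (mem_ball_self hr) (hta x a ha 0 (mem_ball_self hr))).1
    obtain ⟨f, hf, hf'⟩ := hC n _ (hs _ _ t2) fun i hi ζ hζ =>
      (hCb i _ _ t2 ζ hζ).trans ((le_abs_self _).trans (Finset.single_le_sum
        (f := fun i => |Cb i|) (fun _ _ => abs_nonneg _) (Finset.mem_range.2 (by omega))))
    refine ⟨f, Submodule.mem_sup_left hf, fun ζ hζ => ?_⟩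
    refine (norm_sub_le_norm_sub_add_norm_sub _ _ _).trans ((add_le_add
      ((t1 ζ hζ (hta x a ha ζ hζ)).2.trans (n3 N hJ)) (hf' ζ hζ)).trans ?_)
    calc _ ≤ CH ^ (N + 1) * ‖a‖ ^ J + |C'| * (Real.exp M * ‖a‖ ^ J) := by
          gcongr
          exact le_abs_self _
      _ = (CH ^ (N + 1) + |C'| * Real.exp M) * ‖a‖ ^ J := by ring
      _ ≤ _ := by
          gcongr
          exact le_max_left _ _
  · refine ⟨0, Submodule.zero_mem _, fun ζ hζ => ?_⟩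
    rw [Pi.zero_apply, sub_zero]
    calc _ ≤ |Cb 0| / d₀ ^ J * d₀ ^ J := by
          rw [div_mul_cancel₀ _ (by positivity)]
          exact (hb0 x _ (hnr x a ha) ζ hζ).trans (le_abs_self _)
      _ ≤ _ := by
          gcongr
          exact le_max_right _ _

theorem num {a C L b n t : ℝ} (h : a ≤ C * n * t) (hn : n ≤ L * b) (h0 : 0 ≤ n) (ht : 0 ≤ t)
    (hb : 0 ≤ b) (hL : 1 ≤ L) : a ≤ max C 1 * L * t * b := by
  have h1 : C * n ≤ max C 1 * (L * b) :=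
    mul_le_mul (le_max_left _ _) hn h0 (zero_le_one.trans (le_max_right _ _))
  nlinarith [mul_le_mul_of_nonneg_right h1 ht]

variable {s : Sec 𝔉} {G₀ : S.GrS (1 / 2)} {r₂ : ℝ}

/-- one step for the tested section -/
theorem step (h : TaOk s G₀ N r₂) (hc : (𝔉.tsys N).Contr t₁ r)
    (hD : ∀ x, ∀ ζ ∈ ball (0 : Jet N E E) r, S.tD x (S.φ t₁ x) ζ) (hr : r ≤ min r₂ G₀.r / 2) :
    ∃ C r₃ : ℝ, 1 ≤ C ∧ 0 < r₃ ∧ Step (𝔉.tsys N) t₁ r C r₃ N (s.c.tv G₀)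
      (fun x η ζ => ‖Sys.ta G₀ x η ζ‖) (S.Nr G₀.r) := by
  obtain ⟨D, hD0, hd⟩ := S.dist_le_lv
  obtain ⟨C, r₃, hr₃, hn⟩ := h.nat (D * (|t₁| + 1))
  obtain ⟨L, l1, hL⟩ := bd_L hc
  have hdist : ∀ x, dist x (S.φ t₁ x) ≤ D * (|t₁| + 1) := fun x => by
    have h1 := hd x _ (S.pt_φ t₁ x).symm
    rwa [S.lv_φ, sub_add_cancel_left, abs_neg] at h1
  have c1 : 1 ≤ max C 1 := le_max_right _ _
  have c2 : max C 1 ≤ max C 1 * L := le_mul_of_one_le_right (zero_le_one.trans c1) l1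
  refine ⟨max C 1 * L, r₃, c1.trans c2, hr₃, fun x η hη ζ hζ hA => ?_⟩
  have hb := ball_subset_ball (x := (0 : Jet N E E)) hr
  obtain ⟨a1, a2, a3⟩ := hn x (S.φ t₁ x) η (hdist x) ζ (hb hζ) (hD x ζ hζ)
    (hb (maps hc x ζ hζ)) hη hA
  refine ⟨a1, a2.trans (mul_le_mul_of_nonneg_right ((le_max_left _ _).trans c2) (norm_nonneg _)),
    ContinuousLinearMap.opNorm_le_bound _ (mul_nonneg (zero_le_one.trans (c1.trans c2))
      (pow_nonneg (norm_nonneg _) _)) fun β => ?_⟩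
  have h1 := a3 (𝔉.tP (S.φ t₁ x) x (S.tθ x (S.φ t₁ x) ζ) β)
  have h2 : S.tD x x ζ := ⟨rfl, Sys.dom_self (hD x ζ hζ).2.1⟩
  rw [← ContinuousLinearMap.mul_apply, 𝔉.tP_trans (hD x ζ hζ) h2, 𝔉.tP_self h2, CSec.tv_apply,
    poly_jet_poly, ← CSec.tv_apply] at h1
  have h3 := (norm_le_preL (𝔉.tP (S.φ t₁ x) x (S.tθ x (S.φ t₁ x) ζ)) β).trans
    (mul_le_mul_of_nonneg_right (hL x ζ hζ) (norm_nonneg β))
  exact num h1 h3 (norm_nonneg _) (pow_nonneg (norm_nonneg _) _) (norm_nonneg _) l1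

end Vy3

/-- **VY3**: the family is close to a finite dimensional space -/
theorem tv_approx (P : Prob S Y) (s : Sec 𝔉) (J : ℕ) : ∃ N₀ : ℕ, ∀ N ≥ N₀, ∀ j : ℕ,
    ∃ (G₀ : S.GrS (1 / 2)) (r₂ r : ℝ), TaOk s G₀ N r₂ ∧ 0 < r ∧ r ≤ min r₂ G₀.r / 2 ∧
      ∀ᵐ x ∂S.μ, ∃ Pc : Submodule ℝ (Jet N E E → Jet N E (F →L[ℝ] ℝ) →L[ℝ] ℝ),
        FiniteDimensional ℝ Pc ∧
        (∀ f ∈ Pc, ContDiffOn ℝ j f (ball 0 r) ∧ ∃ C, ∀ ζ ∈ ball (0 : Jet N E E) r, ‖f ζ‖ ≤ C) ∧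
        ∃ C : ℝ, ∀ a : E, ‖a‖ < G₀.r → ∃ f ∈ Pc, ∀ ζ ∈ ball (0 : Jet N E E) r,
          ‖s.c.tv G₀ x (S.c x (S.iU a)).2 ζ - f ζ‖ ≤ C * ‖a‖ ^ J := by
  obtain ⟨rH, CH, α, hrH, hCH, hα, -, hH⟩ := S.holderS
  refine ⟨⌈J / α⌉₊, fun N hN j => ?_⟩
  have hJ : (J : ℝ) ≤ α * N := by
    rw [mul_comm, ← div_le_iff₀ hα]
    exact (Nat.le_ceil _).trans (by exact_mod_cast hN)
  obtain ⟨r₁, hr₁, hT⟩ := exists_taOk s N
  obtain ⟨G₀, hG⟩ := S.exists_grS (ε := 1 / 2) (by norm_num) (lt_min hr₁ (half_pos hrH))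
  obtain ⟨r₂, h⟩ := hT G₀ (hG.trans (min_le_left _ _))
  have hG2 : 2 * G₀.r ≤ rH := by linarith [hG.trans (min_le_right _ _)]
  obtain ⟨t₁, r₀, hr₀, hc⟩ := 𝔉.tsys_contr N
  have hr : 0 < min r₀ (min r₂ G₀.r / 2) := lt_min hr₀ (half_pos (lt_min h.pos G₀.r_pos))
  obtain ⟨hc, hD⟩ := hc _ hr (min_le_left _ _)
  refine ⟨G₀, r₂, _, h, hr, min_le_right _ _, ?_⟩
  have hb : ball (0 : Jet N E E) (min r₀ (min r₂ G₀.r / 2)) ⊆ ball 0 r₂ := ball_subset_ball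
    ((min_le_right _ _).trans ((half_le_self (lt_min h.pos G₀.r_pos).le).trans (min_le_left _ _)))
  obtain ⟨C, r₃, hC, hr₃, hs⟩ := Vy3.step h hc hD (min_le_right _ _)
  have hnr : ∀ x, ∀ a : E, ‖a‖ < G₀.r → S.Nr G₀.r x (S.c x (S.iU a)).2 := fun x a ha =>
    ⟨S.iU a, S.iU_mem.2 (mem_ball_zero_iff.2 ha), rfl⟩
  refine Vy3.approx P hc hC hr₃ (fun _ _ _ => norm_nonneg _) hs
    (fun x η hη => (h.smooth x η hη).mono hb)
    (fun k => (h.bd k).imp fun C hC x η hη ζ hζ => hC x η hη ζ (hb hζ)) hα hCH G₀.r_pos hJ j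
    (η := fun x a => (S.c x (S.iU a)).2) hnr fun x a ha ζ hζ => ?_
  obtain ⟨h1, h2, h3⟩ := h.ex x _ (hnr x a ha) ζ (hb hζ)
  have h4 := (G₀.on x _ (hnr x a ha) _ (mem_ball_zero_iff.2 h2)).2
  rw [← h3] at h4
  have h5 := hH x (S.iU a) (S.iU_mem.2 (mem_ball_zero_iff.2 (by linarith [G₀.r_pos]))) _
    (by rw [mem_ball_zero_iff, S.norm_add]; exact (max_lt h2 h1).trans_le hG2) h4.symm
  rwa [map_add, S.pU_iS, S.pU_iU, S.pU_iU, zero_add] at h5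

end Vale.Agent.P207Z
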