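import Vale.Agent.P207Z.HullD

/-!
# P207: from a smooth family of transversals to a relation (block VY4)
-/

set_option linter.all false

open Set Filter Topology Metric MeasureTheory Asymptotics
open scoped ContDiff

noncomputable section

namespace Vale.Agent.P207Z

open Vale.Agent.P207.N3 (JC)

variable {Γ X B E V : Type} [Group Γ] [Countable Γ] [MetricSpace X] [ProperSpace X]
  [MulAction Γ X] [IsIsometricSMul Γ X] [MeasurableSpace X] [BorelSpace X]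
  [TopologicalSpace B] [CompactSpace B] [T2Space B] [SecondCountableTopology B] [MulAction Γ B]
  [ContinuousConstSMul Γ B] [MeasurableSpace B] [BorelSpace B]
  [NormedAddCommGroup E] [InnerProductSpace ℝ E] [FiniteDimensional ℝ E]
  [NormedAddCommGroup V] [NormedSpace ℝ V] [FiniteDimensional ℝ V]
  {F G W : Type} [NormedAddCommGroup F] [NormedSpace ℝ F] [FiniteDimensional ℝ F]
  [NormedAddCommGroup G] [NormedSpace ℝ G] [FiniteDimensional ℝ G]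
  [NormedAddCommGroup W] [NormedSpace ℝ W]

variable {S : Sys Γ X B E V} {Y : Type} [MeasurableSpace Y] [MulAction Γ Y] {𝔉 : Bun S F}

theorem vyD_right_inv {n : ℕ} {f : V → V} {z : V} (hf : ContDiffAt ℝ (n + 1 : ℕ) f z)
    (hz : f z = z) (hi : ∀ v, fderiv ℝ f z v = 0 → v = 0) :
    ∃ g : V → V, ContDiffAt ℝ (n + 1 : ℕ) g z ∧ g z = z ∧ ∀ᶠ q in 𝓝 z, f (g q) = q := by
  have := FiniteDimensional.complete ℝ V
  have hn : ((n + 1 : ℕ) : WithTop ℕ∞) ≠ 0 := by exact_mod_cast Nat.succ_ne_zero n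
  have h1 : HasFDerivAt f ((LinearEquiv.ofInjectiveEndo (fderiv ℝ f z).toLinearMap
      ((injective_iff_map_eq_zero _).2 hi)).toContinuousLinearEquiv : V →L[ℝ] V) z :=
    (hf.differentiableAt hn).hasFDerivAt
  have h2 := hf.to_localInverse h1 hn
  have h3 := hf.localInverse_apply_image h1 hn
  have h4 := (hf.hasStrictFDerivAt' h1 hn).eventually_right_inverse
  rw [hz] at h2 h3 h4
  exact ⟨_, h2, h3, h4⟩

theorem Sys.vyD_om {N M : ℕ} {w₀ : E} {ζ : E → Jet N E E}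
    (hζ : ContDiffAt ℝ (M + 1 : ℕ) ζ w₀) (hb : ∀ᶠ w in 𝓝 w₀, poly (ζ w) 0 = w) :
    ∃ om : V → E, ContDiffAt ℝ (M + 1 : ℕ) om (S.iS w₀) ∧ om (S.iS w₀) = w₀ ∧
      ∀ᶠ q in 𝓝 (S.iS w₀), poly (ζ (om q)) (S.pU q) = S.pS q := by
  set f : V → V := fun z => S.tγ (ζ (S.pS z)) (S.pU z)
  have h1 : ContDiffAt ℝ (M + 1 : ℕ) (fun z => ζ (S.pS z)) (S.iS w₀) :=
    ContDiffAt.comp (g := ζ) _ (by rwa [S.pS_iS]) S.pS.contDiff.contDiffAt
  have h2 : ContDiffAt ℝ (M + 1 : ℕ) f (S.iS w₀) :=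
    (S.iS.contDiff.contDiffAt.comp _ ((contDiff_poly₂.of_le (StayAux.cast_le _)).contDiffAt.comp _
      (h1.prodMk S.pU.contDiff.contDiffAt))).add (S.iU ∘L S.pU).contDiff.contDiffAt
  have h3 : (fun w => f (S.iS w)) =ᶠ[𝓝 w₀] S.iS := hb.mono fun w hw => by
    simp only [f, Sys.tγ, S.pS_iS, S.pU_iS, hw, map_zero, add_zero]
  have h4 : ∀ z, S.pU (f z) = S.pU z := fun z => by
    simp only [f, Sys.tγ, map_add, S.pU_iS, S.pU_iU, zero_add]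
  have h5 := (h2.differentiableAt (by exact_mod_cast Nat.succ_ne_zero M)).hasFDerivAt
  have h6 := (h5.comp w₀ S.iS.hasFDerivAt).unique (S.iS.hasFDerivAt.congr_of_eventuallyEq h3)
  have h7 := (S.pU.hasFDerivAt.comp _ h5).unique
    (S.pU.hasFDerivAt.congr_of_eventuallyEq (Eventually.of_forall h4))
  obtain ⟨g, g1, g2, g3⟩ := vyD_right_inv h2 h3.self_of_nhds fun v hv => by
    have a1 : S.pU (fderiv ℝ f (S.iS w₀) v) = S.pU v := congrArg (fun L : V →L[ℝ] E => L v) h7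
    have a2 : fderiv ℝ f (S.iS w₀) (S.iS (S.pS v)) = S.iS (S.pS v) :=
      congrArg (fun L : E →L[ℝ] V => L (S.pS v)) h6
    rw [hv, map_zero] at a1
    rw [S.iS_pS a1.symm, hv] at a2
    exact a2.symm
  refine ⟨fun q => S.pS (g q), S.pS.contDiff.contDiffAt.comp _ g1, by simp only [g2, S.pS_iS],
    g3.mono fun q hq => ?_⟩
  have a1 := h4 (g q)
  have a2 := congrArg S.pS hq
  rw [hq] at a1
  simpa only [f, Sys.tγ, map_add, S.pS_iS, S.pS_iU, add_zero, ← a1] using a2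

/-- **VY4**: from a smooth family of transversals to a relation -/
theorem TaOk.rel {s : Sec 𝔉} {G₀ : S.GrS (1 / 2)} {N : ℕ} {r₂ : ℝ} (h : TaOk s G₀ N r₂) (M : ℕ)
    {x : X} {w₀ : E} (hw : ‖w₀‖ < G₀.r) {ζ : E → Jet N E E} {β : E → Jet N E (F →L[ℝ] ℝ)}
    (hζ : ContDiffAt ℝ (M + 1 : ℕ) ζ w₀) (hβ : ContDiffAt ℝ (M + 1 : ℕ) β w₀)
    (hb : ∀ᶠ w in 𝓝 w₀, poly (ζ w) 0 = w) (hr : ‖ζ w₀‖ < r₂) {C : ℝ}
    (hv : ∀ᶠ p : E × V in 𝓝 (w₀, S.iS w₀), S.pU p.2 = Sys.ta G₀ x (S.c x p.2).2 (ζ p.1) →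
      |s.c.tv G₀ x (S.c x p.2).2 (ζ p.1) (β p.1)|
        ≤ C * (‖S.pU p.2‖ ^ (M + 1) + ‖p.1 - w₀‖ ^ (M + 1))) :
    ∃ σ : V → F →L[ℝ] ℝ, ContDiffAt ℝ (M + 1 : ℕ) σ (S.iS w₀) ∧ σ (S.iS w₀) = poly (β w₀) 0 ∧
      ∃ C' : ℝ, ∀ᶠ q in 𝓝 (S.iS w₀), |σ q (s.e x q)| ≤ C' * ‖q - S.iS w₀‖ ^ (M + 1) := by
  obtain ⟨om, o1, o2, o3⟩ := S.vyD_om hζ hb
  have o4 : Tendsto om (𝓝 (S.iS w₀)) (𝓝 w₀) := by
    simpa only [o2] using o1.continuousAt.tendsto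
  obtain ⟨K, hK, o5⟩ := (o1.differentiableAt
    (by exact_mod_cast Nat.succ_ne_zero M)).hasFDerivAt.isBigO_sub.exists_nonneg
  refine ⟨fun q => poly (β (om q)) (S.pU q),
    (contDiff_poly₂.of_le (StayAux.cast_le _)).contDiffAt.comp _
      ((ContDiffAt.comp (g := β) _ (by rwa [o2]) o1).prodMk S.pU.contDiff.contDiffAt),
    by simp only [o2, S.pU_iS], |C| * (1 + K ^ (M + 1)), ?_⟩
  filter_upwards [o3, o5.bound, (o4.prodMk_nhds tendsto_id).eventually hv,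
    isOpen_ball.mem_nhds (S.iS_mem.2 (mem_ball_zero_iff.2 hw)),
    (hζ.continuousAt.tendsto.comp o4).eventually
      (isOpen_ball.mem_nhds (mem_ball_zero_iff.2 hr))] with q a1 a2 a3 a4 a5
  have b1 : S.Nr G₀.r x (S.c x q).2 := ⟨q, a4, rfl⟩
  have b2 : ‖q‖ < 2 * G₀.r := by linarith [mem_ball_zero_iff.1 a4, G₀.r_pos]
  have b3 : Sys.ta G₀ x (S.c x q).2 (ζ (om q)) = S.pU q :=
    h.uniq x _ b1 _ a5 _ ⟨(S.norm_pU_le q).trans_lt b2, a1 ▸ (S.norm_pS_le q).trans_lt b2,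
      a1 ▸ G₀.uniq x _ b1 q (mem_ball_zero_iff.2 b2) rfl⟩
  have b4 := a3 b3.symm
  rw [CSec.tv_apply] at b4
  simp only [id, b3, Sys.tγ, a1, S.iS_add] at b4
  have b5 : ‖S.pU q‖ ≤ ‖q - S.iS w₀‖ := by
    simpa only [map_sub, S.pU_iS, sub_zero] using S.norm_pU_le (q - S.iS w₀)
  rw [o2] at a2
  refine b4.trans ((mul_le_mul_of_nonneg_right (le_abs_self C) (by positivity)).trans ?_)
  rw [mul_assoc, add_mul, one_mul, ← mul_pow]
  gcongr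

end Vale.Agent.P207Z
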