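import Vale.Agent.P207Z.TrD
import Vale.Agent.P207Z.VyB
import Vale.Agent.P207Z.VyC
import Vale.Agent.P207Z.VyD
import Vale.Agent.P207Z.KerX

/-!
# P207: relations along the unstable leaves (SL)
-/

set_option linter.all false

open Set Filter Topology Metric MeasureTheory Asymptotics
open scoped ContDiff

noncomputable section

namespace Vale.Agent.P207Z

variable {Γ X B E V : Type} [Group Γ] [Countable Γ] [MetricSpace X] [ProperSpace X]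
  [MulAction Γ X] [IsIsometricSMul Γ X] [MeasurableSpace X] [BorelSpace X]
  [TopologicalSpace B] [CompactSpace B] [T2Space B] [SecondCountableTopology B] [MulAction Γ B]
  [ContinuousConstSMul Γ B] [MeasurableSpace B] [BorelSpace B]
  [NormedAddCommGroup E] [InnerProductSpace ℝ E] [FiniteDimensional ℝ E]
  [NormedAddCommGroup V] [NormedSpace ℝ V] [FiniteDimensional ℝ V]
  {F : Type} [NormedAddCommGroup F] [NormedSpace ℝ F] [FiniteDimensional ℝ F]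
  {S : Sys Γ X B E V} {Y : Type} [MeasurableSpace Y] [MulAction Γ Y] {𝔉 : Bun S F}

namespace SlAux

theorem hpow {s t C α : ℝ} (hs : 0 ≤ s) (h0 : 0 ≤ t) (h1 : t ≤ 1) (hC : 0 ≤ C)
    (h : s ≤ C * t ^ α) {N J : ℕ} (hJ : (J : ℝ) ≤ α * N) : s ^ N ≤ C ^ N * t ^ J := by
  refine (pow_le_pow_left₀ hs h N).trans ?_
  rw [mul_pow, ← Real.rpow_natCast (t ^ α), ← Real.rpow_mul h0, ← Real.rpow_natCast t]
  exact mul_le_mul_of_nonneg_left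
    (Real.rpow_le_rpow_of_exponent_ge' h0 h1 (Nat.cast_nonneg J) hJ) (by positivity)

theorem exists_nat {α : ℝ} (hα : 0 < α) (n N₀ : ℕ) : ∃ N ≥ N₀, (n : ℝ) ≤ α * N := by
  obtain ⟨N, hN⟩ := exists_nat_ge (n / α)
  refine ⟨max N₀ N, le_max_left _ _, ((div_le_iff₀' hα).1 hN).trans ?_⟩
  exact mul_le_mul_of_nonneg_left (Nat.cast_le.2 (le_max_right _ _)) hα.le

theorem glob {f : E → ℝ} {r K : ℝ} {J : ℕ} (hb : ∀ a, ‖a‖ < r → |f a| ≤ K)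
    (h : f =O[𝓝 0] fun a => ‖a‖ ^ J) : ∃ C, ∀ a, ‖a‖ < r → |f a| ≤ C * ‖a‖ ^ J := by
  obtain ⟨C, hC⟩ := h.bound
  obtain ⟨δ, hδ, h1⟩ := Metric.eventually_nhds_iff_ball.1 hC
  refine ⟨max C (|K| / δ ^ J), fun a ha => ?_⟩
  by_cases e : a ∈ ball (0 : E) δ
  · have h2 := h1 a e
    rw [norm_pow, norm_norm] at h2
    exact h2.trans (mul_le_mul_of_nonneg_right (le_max_left _ _) (by positivity))
  · rw [mem_ball_zero_iff, not_lt] at e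
    refine ((hb a ha).trans (le_abs_self K)).trans ?_
    rw [← div_mul_cancel₀ |K| (pow_pos hδ J).ne']
    exact mul_le_mul (by rw [mul_div_cancel_right₀ _ (pow_pos hδ J).ne']; exact le_max_right _ _)
      (pow_le_pow_left₀ hδ.le e J) (by positivity) ((by positivity : _ ≤ _).trans (le_max_right _ _))

theorem exists_coef {Z G : Type} [NormedAddCommGroup G] [NormedSpace ℝ G] {s : Set Z}
    (Q : Submodule ℝ (Z → G)) [FiniteDimensional ℝ Q] (hb : ∀ f ∈ Q, ∃ C, ∀ q ∈ s, ‖f q‖ ≤ C) :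
    ∃ (d : ℕ) (g : Fin d → Z → G) (C : ℝ), 0 ≤ C ∧ (∀ i, g i ∈ Q) ∧ ∀ f ∈ Q, ∀ K, 0 ≤ K →
      (∀ q ∈ s, ‖f q‖ ≤ K) → ∃ c : Fin d → ℝ, ∑ i, |c i| ≤ C * K ∧
        ∀ q ∈ s, f q = ∑ i, c i • g i q := by
  let R : Q →ₗ[ℝ] lp (fun _ : s => G) ⊤ :=
    { toFun := fun f => ⟨fun q => f.1 q, memℓp_infty ((hb f.1 f.2).imp fun C hC =>
        forall_mem_range.2 fun q => hC q q.2)⟩
      map_add' := fun _ _ => rfl
      map_smul' := fun _ _ => rfl }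
  let b := Module.finBasis ℝ R.range
  choose g hg using fun i => (b i).2
  refine ⟨_, fun i => g i, ∑ i, ‖(b.coord i).toContinuousLinearMap‖, by positivity,
    fun i => (g i).2, fun f hf K hK h => ⟨fun i => b.coord i ⟨R ⟨f, hf⟩, _, rfl⟩, ?_, fun q hq => ?_⟩⟩
  · rw [Finset.sum_mul]
    exact Finset.sum_le_sum fun i _ => ((b.coord i).toContinuousLinearMap.le_opNorm _).trans
      (mul_le_mul_of_nonneg_left (lp.norm_le_of_forall_le hK fun q => h q q.2)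
        (ContinuousLinearMap.opNorm_nonneg _))
  · have h1 := congrArg Subtype.val (b.sum_repr ⟨R ⟨f, hf⟩, _, rfl⟩)
    simp only [Submodule.coe_sum, Submodule.coe_smul, ← hg, ← map_smul, ← map_sum] at h1
    have h2 : ((∑ i, b.repr ⟨R ⟨f, hf⟩, _, rfl⟩ i • g i : Q) : Z → G) q = f q :=
      congrArg (fun u : lp (fun _ : s => G) ⊤ => u ⟨q, hq⟩) h1
    rw [← h2]
    simp

theorem exists_cst (N : ℕ) : ∃ c : E →L[ℝ] Jet N E E, ∀ v, poly (c v) 0 = v := by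
  obtain ⟨c, hc⟩ := (polyL N E E 0 : Jet N E E →ₗ[ℝ] E).exists_rightInverse_of_surjective
    (LinearMap.range_eq_top.2 fun v => ⟨jet N (fun _ => v) 0,
      (polyL_apply _ _).trans (poly_jet_zero _ _)⟩)
  exact ⟨c.toContinuousLinearMap, fun v => (polyL_apply _ _).symm.trans (DFunLike.congr_fun hc v)⟩

theorem kill {s : Sec 𝔉} {G₀ : S.GrS (1 / 2)} {N J : ℕ} {r₂ ρ C α : ℝ} (h : TaOk s G₀ N r₂)
    (hρ : 0 < ρ) (hC : 0 ≤ C) (hH : ∀ x, ∀ z ∈ ball (0 : V) ρ, ∀ z' ∈ ball (0 : V) ρ,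
      (S.c x z).2 = (S.c x z').2 → ‖S.pU z'‖ ≤ C * ‖S.pU z‖ ^ α) (hJ : (J : ℝ) ≤ α * N)
    {x y : X} {ζ : Jet N E E} (hζ : ζ ∈ ball (0 : Jet N E E) (min r₂ G₀.r / 2))
    (hr : ‖poly ζ 0‖ < ρ) (hD : S.tD x y ζ) (h0 : S.tθ x y ζ = 0) {σ : E → F →L[ℝ] ℝ}
    (hσ : ContDiffAt ℝ ∞ σ 0) (hσ' : ∀ᶠ a in 𝓝 (0 : E), σ a (s.e y (S.iU a)) = 0) :
    (fun a => s.c.tv G₀ x (S.c x (S.iU a)).2 ζ (𝔉.tP x y ζ (jet N σ 0))) =O[𝓝 0]
      fun a => ‖a‖ ^ J := by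
  have hm : 0 < min r₂ G₀.r / 2 := half_pos (lt_min h.pos G₀.r_pos)
  have hN : ∀ r, 0 < r → ∀ᶠ a in 𝓝 (0 : E), S.Nr r x (S.c x (S.iU a)).2 := fun r hr =>
    mem_of_superset (ball_mem_nhds 0 hr) fun a ha => ⟨_, S.iU_mem.2 ha, rfl⟩
  set a₁ := fun a => Sys.ta G₀ x (S.c x (S.iU a)).2 ζ with ha₁
  set a₂ := fun a => Sys.ta G₀ y (S.c x (S.iU a)).2 (0 : Jet N E E) with ha₂
  have hT : ∀ᶠ a in 𝓝 (0 : E), Sys.IsTa G₀ x (S.c x (S.iU a)).2 ζ (a₁ a) :=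
    (hN _ G₀.r_pos).mono fun a ha => h.ex x _ ha ζ (ball_subset_ball
      (by linarith [min_le_left r₂ G₀.r]) hζ)
  have t1 : Tendsto a₁ (𝓝 0) (𝓝 0) := NormedAddGroup.tendsto_nhds_zero.2 fun ε hε => by
    obtain ⟨r', hr', h1⟩ := G₀.small 0 _ (half_pos hε)
    filter_upwards [hT, hN r' hr'] with a h2 h3
    have h4 := h1 x _ h3 _ (mem_ball_zero_iff.2 h2.2.1)
    rw [norm_iteratedFDeriv_zero, ← h2.2.2] at h4
    linarith
  have t2 : ∀ᶠ a in 𝓝 (0 : E), S.tγ ζ (a₁ a) ∈ ball (0 : V) ρ := by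
    have h1 : Continuous (S.tγ ζ) :=
      (S.iS.continuous.comp (contDiff_poly ζ).continuous).add S.iU.continuous
    refine (h1.tendsto 0).comp t1 (isOpen_ball.mem_nhds ?_)
    rw [Sys.tγ, map_zero, add_zero, S.iS_mem]
    exact mem_ball_zero_iff.2 hr
  have e3 : (fun a => ‖a₁ a‖ ^ N) =O[𝓝 0] fun a : E => ‖a‖ ^ J := by
    refine IsBigO.of_bound (C ^ N) ?_
    filter_upwards [hT, t2, hN _ G₀.r_pos, ball_mem_nhds 0 hρ, ball_mem_nhds 0 one_pos]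
      with a h1 h2 h3 h4 h5
    have h6 := (G₀.on x _ h3 _ (mem_ball_zero_iff.2 h1.2.1)).2
    rw [← h1.2.2] at h6
    have h7 := hH x _ (S.iU_mem.2 h4) _ h2 h6.symm
    rw [Sys.tγ, map_add, S.pU_iS, S.pU_iU, S.pU_iU, zero_add] at h7
    rw [norm_pow, norm_pow, norm_norm, norm_norm]
    exact hpow (norm_nonneg _) (norm_nonneg _) (mem_ball_zero_iff.1 h5).le hC h7 hJ
  obtain ⟨C₁, r₃, hr₃, hn⟩ := h.nat (dist x y)
  have b2 := (hN _ G₀.r_pos).mp ((NormedAddGroup.tendsto_nhds_zero.1 t1 _ hr₃).mono fun a ha h1 =>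
    hn x y _ le_rfl ζ hζ hD (by rw [h0]; exact mem_ball_self hm) h1 ha.le)
  rw [h0] at b2
  have b3 : a₂ =O[𝓝 0] a₁ := IsBigO.of_bound C₁ (b2.mono fun a ha => ha.2.1)
  have t3 := b3.trans_tendsto t1
  have e1 : (fun a => s.c.tv G₀ x (S.c x (S.iU a)).2 ζ (𝔉.tP x y ζ (jet N σ 0)) -
      s.c.tv G₀ y (S.c x (S.iU a)).2 0 (jet N σ 0)) =O[𝓝 0] fun a => ‖a₁ a‖ ^ N := by
    refine (IsBigO.of_bound (C₁ * ‖jet N σ 0‖) (g := fun a => ‖a₁ a‖ ^ (N + 1))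
      (b2.mono fun a ha => by rw [norm_pow, norm_norm]; exact ha.2.2 _)).trans ?_
    simpa only [pow_succ, mul_one] using (isBigO_refl (fun a => ‖a₁ a‖ ^ N) _).mul
      (t1.norm.isBigO_one ℝ)
  have e2 : (fun a => s.c.tv G₀ y (S.c x (S.iU a)).2 0 (jet N σ 0)) =O[𝓝 0]
      fun a => ‖a₂ a‖ ^ N := by
    obtain ⟨K, -, hK⟩ := s.c.bdd
    have h1 := (flat_taylor (k := N) (hσ.of_le (by exact_mod_cast le_top))).isBigO.comp_tendsto t3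
    simp only [sub_zero, Function.comp_def] at h1
    refine (IsBigO.of_bound K ?_).trans h1
    filter_upwards [t3 hσ', NormedAddGroup.tendsto_nhds_zero.1 t3 _ one_half_pos] with a h2 h3
    have h4 : S.tγ (0 : Jet N E E) (a₂ a) = S.iU (a₂ a) := by
      rw [Sys.tγ, ← polyL_apply, map_zero, map_zero, zero_add]
    rw [CSec.tv_apply, h4, ← norm_neg, ← zero_sub, ← show σ (a₂ a) (s.c.e y (S.iU (a₂ a))) = 0
      from h2, ← ContinuousLinearMap.sub_apply, mul_comm]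
    exact (ContinuousLinearMap.le_opNorm _ _).trans (mul_le_mul_of_nonneg_left
      (hK y _ (by rw [S.norm_iU]; exact h3.le)) (norm_nonneg _))
  simpa only [sub_add_cancel] using (e1.add (e2.trans (b3.norm_norm.pow N))).trans e3

theorem pull_mem (s : CSec 𝔉) {M : ℕ} {x y : X} {z : V} (hz : z ∈ ball (0 : V) 1)
    (hy : S.pt y = S.c x z) {σ : V → F →L[ℝ] ℝ} (hσ : ContDiffAt ℝ (M + 1 : ℕ) σ z) {C : ℝ}
    (h : ∀ᶠ q in 𝓝 z, |σ q (s.e x q)| ≤ C * ‖q - z‖ ^ (M + 1)) :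
    jet M (𝔉.pull y x σ) 0 ∈ s.Ann M y := by
  have h0 := Sys.zero_dom' hz hy
  rw [← Sys.τ_zero' hz hy] at h hσ
  have h1 : (fun q => σ q (s.e x q)) =O[𝓝 (S.τ y x 0)] fun q => ‖q - S.τ y x 0‖ ^ (M + 1) :=
    IsBigO.of_bound C (h.mono fun q hq => by rwa [norm_pow, norm_norm])
  obtain ⟨K, hK⟩ := ((h1.comp_tendsto (Sys.continuousAt_τ h0)).trans
    ((Sys.differentiableAt_τ h0).isBigO_sub.norm_norm.pow (M + 1))).bound
  refine s.jet_mem_ann (C := K) ((hσ.comp 0 ((Sys.contDiffAt_τ h0).of_le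
    (by exact_mod_cast le_top))).clm_comp ((𝔉.contDiffAt h0).of_le (by exact_mod_cast le_top))) ?_
  filter_upwards [hK, Sys.dom_nhds h0] with q h2 h3
  rwa [norm_pow, norm_norm, sub_zero, Function.comp_apply, s.eqv y x q h3] at h2

theorem near (G₀ : S.GrS (1 / 2)) {ρ C α : ℝ} (hρ : 0 < ρ) (hC : 0 ≤ C)
    (hH : ∀ x, ∀ z ∈ ball (0 : V) ρ, ∀ z' ∈ ball (0 : V) ρ,
      (S.c x z).2 = (S.c x z').2 → ‖S.pU z'‖ ≤ C * ‖S.pU z‖ ^ α) {N J : ℕ} (hJ : (J : ℝ) ≤ α * N) :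
    ∃ r > 0, r ≤ ρ ∧ r ≤ G₀.r ∧ ∀ x, ∀ z ∈ ball (0 : V) r, ∃ a, ‖a‖ < G₀.r ∧
      (S.c x (S.iU a)).2 = (S.c x z).2 ∧ ‖a‖ ^ N ≤ C ^ N * ‖S.pU z‖ ^ J := by
  have hG := G₀.r_pos
  obtain ⟨r, hr, h⟩ := G₀.small 0 (min G₀.r ρ / 2) (by positivity)
  refine ⟨min r (min ρ G₀.r), by positivity, by simp, by simp, fun x z hz => ?_⟩
  simp only [mem_ball_zero_iff, lt_min_iff] at hz
  have q5 := h x _ ⟨z, mem_ball_zero_iff.2 hz.1, rfl⟩ 0 (mem_ball_self (by positivity))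
  have q6 := (G₀.on x _ ⟨z, mem_ball_zero_iff.2 hz.2.2, rfl⟩ 0 (mem_ball_self (by positivity))).2
  rw [norm_iteratedFDeriv_zero] at q5
  rw [map_zero, zero_add] at q6
  have a2 := hH x _ (mem_ball_zero_iff.2 hz.2.1) _ (S.iU_mem.2 (mem_ball_zero_iff.2
    (by linarith [min_le_right G₀.r ρ]))) q6.symm
  rw [S.pU_iU] at a2
  exact ⟨_, by linarith [min_le_left G₀.r ρ], q6, hpow (norm_nonneg _) (norm_nonneg _)
    ((S.norm_pU_le _).trans (by linarith [G₀.r_le])) hC a2 hJ⟩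

/-- a map which is close to the space `Q` is almost killed by what the generators almost kill -/
theorem est {Z G : Type} [NormedAddCommGroup G] [NormedSpace ℝ G] {s : Set Z}
    (Q : Submodule ℝ (Z → G →L[ℝ] ℝ)) [FiniteDimensional ℝ Q]
    (hb : ∀ f ∈ Q, ∃ C, ∀ q ∈ s, ‖f q‖ ≤ C) : ∃ (d : ℕ) (g : Fin d → Z → G →L[ℝ] ℝ),
      (∀ i, g i ∈ Q) ∧ ∀ K A D R C : ℝ, ∃ C', ∀ (v : Z → G →L[ℝ] ℝ) (e u t : ℝ), 0 ≤ u → 0 ≤ t →
        0 ≤ e → e ≤ 1 → e ≤ D * u → (∀ q ∈ s, ‖v q‖ ≤ K) → (∃ f ∈ Q, ∀ q ∈ s, ‖v q - f q‖ ≤ A * e) →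
        ∀ q ∈ s, ∀ β, ‖β‖ ≤ R → (∀ i, |g i q β| ≤ C * t) → |v q β| ≤ C' * (u + t) := by
  obtain ⟨d, g, Cg, hCg, hg, hg'⟩ := exists_coef Q hb
  refine ⟨d, g, hg, fun K A D R C => ⟨max (|A| * |D| * |R|) (Cg * (|K| + |A|) * |C|), ?_⟩⟩
  rintro v e u t hu ht h0 h1 h2 hK ⟨f, f1, f2⟩ q hq β hβ hC
  have f3 : ∀ q ∈ s, ‖v q - f q‖ ≤ |A| * e := fun q hq =>
    (f2 q hq).trans (mul_le_mul_of_nonneg_right (le_abs_self _) h0)
  obtain ⟨c, c1, c2⟩ := hg' f f1 (|K| + |A|) (by positivity) fun q hq => by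
    rw [← sub_sub_cancel (v q) (f q)]
    exact (norm_sub_le _ _).trans (add_le_add ((hK q hq).trans (le_abs_self K))
      ((f3 q hq).trans (mul_le_of_le_one_right (abs_nonneg _) h1)))
  rw [← sub_add_cancel (v q) (f q), ContinuousLinearMap.add_apply, mul_add]
  refine (abs_add_le _ _).trans (add_le_add ?_ ?_)
  · refine (ContinuousLinearMap.le_of_opNorm_le _ (f3 _ hq) _).trans (le_trans ?_
      (mul_le_mul_of_nonneg_right (le_max_left _ _) hu))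
    rw [mul_right_comm _ |R|, mul_assoc |A| |D|]
    exact mul_le_mul (mul_le_mul_of_nonneg_left (h2.trans (mul_le_mul_of_nonneg_right
      (le_abs_self D) hu)) (abs_nonneg _)) (hβ.trans (le_abs_self R)) (norm_nonneg _) (by positivity)
  · refine le_trans ?_ (mul_le_mul_of_nonneg_right (le_max_right _ _) ht)
    rw [c2 _ hq, ContinuousLinearMap.sum_apply, mul_assoc]
    refine (Finset.abs_sum_le_sum_abs _ _).trans (le_trans ?_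
      (mul_le_mul_of_nonneg_right c1 (by positivity)))
    rw [Finset.sum_mul]
    refine Finset.sum_le_sum fun i _ => ?_
    rw [ContinuousLinearMap.smul_apply, smul_eq_mul, abs_mul]
    exact mul_le_mul_of_nonneg_left ((hC i).trans
      (mul_le_mul_of_nonneg_right (le_abs_self _) ht)) (abs_nonneg _)

theorem exists_ins (N : ℕ) : ∃ ins : E × Jet N E E →L[ℝ] Jet N E E,
    (∀ w ζ, poly (ins (w, ζ)) 0 = w) ∧ ∀ ζ, ins (poly ζ 0, ζ) = ζ := by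
  obtain ⟨c, hc⟩ := exists_cst (E := E) N
  refine ⟨.snd ℝ _ _ + c ∘L (.fst ℝ _ _ - polyL N E E 0 ∘L .snd ℝ _ _), fun w ζ => ?_, fun ζ => ?_⟩
  · change poly (ζ + c (w - polyL N E E 0 ζ)) 0 = w
    rw [← polyL_apply, map_add, polyL_apply (c _), hc, add_sub_cancel]
  · change ζ + c (poly ζ 0 - polyL N E E 0 ζ) = ζ
    rw [polyL_apply, sub_self, map_zero, add_zero]

theorem smooth_pi {D Z G : Type} [NormedAddCommGroup D] [NormedSpace ℝ D] [NormedAddCommGroup Z]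
    [NormedSpace ℝ Z] [NormedAddCommGroup G] [NormedSpace ℝ G] {d j : ℕ} {g : Fin d → Z → G →L[ℝ] ℝ}
    (L : D →L[ℝ] Z) {p : D} (h : ∀ i, ContDiffAt ℝ j (g i) (L p)) :
    ContDiffAt ℝ j (fun p => ContinuousLinearMap.pi fun i => g i (L p)) p :=
  (ContinuousLinearMap.piEquivL ℝ G fun _ : Fin d => ℝ).contDiff.contDiffAt.comp p
    (contDiffAt_pi.2 fun i => (h i).comp p L.contDiff.contDiffAt)

theorem core (E Z G : Type) [NormedAddCommGroup E] [NormedSpace ℝ E] [FiniteDimensional ℝ E]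
    [NormedAddCommGroup Z] [NormedSpace ℝ Z] [FiniteDimensional ℝ Z] [NormedAddCommGroup G]
    [NormedSpace ℝ G] [FiniteDimensional ℝ G] (J : ℕ) {α : ℝ} (hα : 0 < α) : ∃ j : ℕ,
    ∀ {ι : Type} {ρ r K : ℝ} {u : E → Z} {L : E × Z →L[ℝ] Z} {Pc : Submodule ℝ (Z → G →L[ℝ] ℝ)}
      (v : ι → Z → G →L[ℝ] ℝ) (e : ι → ℝ), 0 < ρ → ContinuousOn u (ball 0 ρ) →
      (∀ w₀ ∈ ball (0 : E) ρ, ∃ C : ℝ, ∀ᶠ w in 𝓝 w₀, ‖u w - u w₀‖ ≤ C * ‖w - w₀‖ ^ α) →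
      (∀ w ∈ ball (0 : E) ρ, L (w, u w) ∈ ball (0 : Z) r) → FiniteDimensional ℝ Pc →
      (∀ f ∈ Pc, ContDiffOn ℝ j f (ball 0 r) ∧ ∃ C, ∀ q ∈ ball (0 : Z) r, ‖f q‖ ≤ C) →
      (∀ i, 0 ≤ e i) → (∀ i, e i ≤ 1) → (∀ i, ∀ q ∈ ball (0 : Z) r, ‖v i q‖ ≤ K) →
      (∃ C : ℝ, ∀ i, ∃ f ∈ Pc, ∀ q ∈ ball (0 : Z) r, ‖v i q - f q‖ ≤ C * e i) →
      ∃ O ⊆ ball (0 : E) ρ, IsOpen O ∧ O.Nonempty ∧ ∀ w ∈ O, ∀ β₀,
        (∃ C : ℝ, ∀ i, |v i (L (w, u w)) β₀| ≤ C * e i) → ∃ (ζ : E → Z) (β : E → G),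
          ContDiffAt ℝ J (fun w => L (w, ζ w)) w ∧ ContDiffAt ℝ J β w ∧ ζ w = u w ∧ β w = β₀ ∧
          ∀ D : ℝ, ∃ C : ℝ, ∀ᶠ w' in 𝓝 w, ∀ i t, 0 ≤ t → e i ≤ D * t →
            |v i (L (w', ζ w')) (β w')| ≤ C * (t + ‖w' - w‖ ^ J) := by
  obtain ⟨j, hj⟩ := ker_ext E Z G J J hα
  refine ⟨j, fun {ι ρ r K u L Pc} v e hρ h1 h2 h3 _ h4 h5 h6 h7 h8 => ?_⟩
  obtain ⟨Q, hQ, ⟨CQ, hCQ⟩, hk⟩ := min_sub (fun f hf => (h4 f hf).2) v e h5 h8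
  have := Submodule.finiteDimensional_of_le hQ
  obtain ⟨d, g, hg, hg'⟩ := est Q fun f hf => (h4 f (hQ hf)).2
  obtain ⟨O, hO, hO1, hO2, hO3⟩ := hj (Fin d → ℝ) (ball 0 ρ) u
    (fun p => ContinuousLinearMap.pi fun i => g i (L p)) isOpen_ball (nonempty_ball.2 hρ) h1 h2
    fun w hw => smooth_pi L fun i => (h4 _ (hQ (hg i))).1.contDiffAt (isOpen_ball.mem_nhds (h3 w hw))
  refine ⟨O, hO, hO1, hO2, fun w hw β₀ h9 => ?_⟩
  obtain ⟨ζ, β, z1, z2, z3, z4, C, z5⟩ := hO3 w hw β₀ (funext fun i =>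
    hk _ (h3 w (hO hw)) (ContinuousLinearMap.apply ℝ ℝ β₀) h9 _ (hg i))
  have z6 : ContDiffAt ℝ J (fun w => L (w, ζ w)) w :=
    L.contDiff.contDiffAt.comp w (contDiffAt_id.prodMk z1)
  refine ⟨ζ, β, z6, z2, z3, z4, fun D => (hg' K CQ D (‖β w‖ + 1) C).imp fun C' hC' => ?_⟩
  filter_upwards [z5, z6.continuousAt.eventually (isOpen_ball.mem_nhds (z3 ▸ h3 w (hO hw))),
    z2.continuousAt.norm.eventually (gt_mem_nhds (lt_add_one _))] with w' q1 q2 q3 i t ht hi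
  exact hC' _ _ _ _ ht (by positivity) (h5 i) (h6 i) hi (h7 i) (hCQ i) _ q2 _ q3.le
    fun i => (norm_le_pi_norm _ i).trans q1

theorem val {N M : ℕ} {x y : X} {ζ : Jet N E E} (hD : S.tD x y ζ)
    (hy : S.pt y = S.c x (S.iS (poly ζ 0))) {σ : E → F →L[ℝ] ℝ} {σ' : V → F →L[ℝ] ℝ}
    (h : σ' (S.iS (poly ζ 0)) = poly (𝔉.tP x y ζ (jet N σ 0)) 0) :
    poly (jet M (𝔉.pull y x σ') 0) 0 = σ 0 := by
  have e := 𝔉.inv (Sys.zero_dom' (Sys.dom_ball hD.2) hy)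
  rw [Sys.τ_zero' (Sys.dom_ball hD.2) hy] at e
  rw [poly_jet_zero, Bun.pull, Sys.τ_zero' (Sys.dom_ball hD.2) hy, h, 𝔉.tP_val hD, poly_jet_zero]
  exact congrArg (σ 0 ∘L ·) e

end SlAux

open SlAux in
/-- **SL**: relations along the unstable leaf have the values of relations -/
theorem Sec.sl (P : Prob S Y) (s : Sec 𝔉) (M : ℕ) : ∀ᵐ x ∂S.μ, ∃ O : Set E, IsOpen O ∧
    O.Nonempty ∧ O ⊆ ball 0 1 ∧ ∀ w ∈ O, ∀ y, S.pt y = S.c x (S.iS w) →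
      ∀ σ : E → F →L[ℝ] ℝ, ContDiffAt ℝ ∞ σ 0 → (∀ᶠ a in 𝓝 (0 : E), σ a (s.e y (S.iU a)) = 0) →
        ∃ b ∈ s.c.Ann M y, poly b 0 = σ 0 := by
  obtain ⟨rH, CH, α, hrH, hCH, hα, -, hH⟩ := S.holderS
  obtain ⟨J, -, hJ⟩ := exists_nat hα (M + 1) 0
  obtain ⟨N₀, hN₀⟩ := tv_approx P s J
  obtain ⟨N, hN, hN'⟩ := exists_nat hα J N₀
  obtain ⟨G', -⟩ := S.rev.exists_grS one_pos one_pos
  obtain ⟨α', hα', hu⟩ := Sys.tu_holder G' N
  obtain ⟨j, hj⟩ := core E (Jet N E E) (Jet N E (F →L[ℝ] ℝ)) (M + 1) hα'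
  obtain ⟨G₀, r₂, r, hok, hr, hr', hP⟩ := hN₀ N hN j
  have hG := G₀.r_pos
  have hG' := G₀.r_le
  have hr2 : r ≤ r₂ := by linarith [min_le_left r₂ G₀.r]
  obtain ⟨r₄, hr₄, h4⟩ := Sys.tu_small G' N hr
  obtain ⟨r₅, hr₅, p5, p4, h5⟩ := near G₀ hrH hCH.le hH hJ
  obtain ⟨K, hK⟩ := hok.bd 0
  simp only [norm_iteratedFDeriv_zero] at hK
  obtain ⟨ins, i2, i1⟩ := exists_ins (E := E) N
  obtain ⟨ρ, hρ, p1, p2, p3⟩ : ∃ ρ > 0, ρ ≤ G'.r ∧ ρ ≤ r₄ ∧ ρ ≤ r₅ :=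
    ⟨min G'.r (min r₄ r₅), lt_min G'.r_pos (lt_min hr₄ hr₅), by simp, by simp, by simp⟩
  have i3 : ∀ x w, ‖w‖ < ρ → ins (w, Sys.tu G' N x w) = Sys.tu G' N x w := fun x w hw => by
    simpa only [Sys.tu_base G' N x (hw.trans_le p1)] using i1 (Sys.tu G' N x w)
  have i4 : ∀ x w, ‖w‖ < ρ → Sys.tu G' N x w ∈ ball (0 : Jet N E E) r := fun x w hw =>
    mem_ball_zero_iff.2 (h4 x w (hw.trans_le p2))
  filter_upwards [hP] with x ⟨Pc, hf, hs, hap⟩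
  have k0 := fun (a : E) (ha : ‖a‖ < G₀.r) q (hq : q ∈ ball (0 : Jet N E E) r) =>
    hK x _ ⟨_, S.iU_mem.2 (mem_ball_zero_iff.2 ha), rfl⟩ q (ball_subset_ball hr2 hq)
  obtain ⟨O, hO, hO1, hO2, hO3⟩ := hj (L := ins)
    (fun a : {a : E // ‖a‖ < G₀.r} => s.c.tv G₀ x (S.c x (S.iU a)).2) (fun a => ‖(a : E)‖ ^ J) hρ
    ((Sys.tu_cont G' N x).mono (ball_subset_ball p1))
    (fun w hw => hu x w ((mem_ball_zero_iff.1 hw).trans_le p1))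
    (fun w hw => by
      rw [i3 x w (mem_ball_zero_iff.1 hw)]
      exact i4 x w (mem_ball_zero_iff.1 hw))
    hf hs (fun a => by positivity) (fun a => pow_le_one₀ (norm_nonneg _) (by linarith [a.2]))
    (fun a => k0 a a.2) (hap.imp fun C hC a => hC a a.2)
  refine ⟨O, hO1, hO2, hO.trans (ball_subset_ball (by linarith)), fun w hw y hy σ hσ hσ' => ?_⟩
  have w1 := mem_ball_zero_iff.1 (hO hw)
  have w2 : w ∈ ball (0 : E) 1 := mem_ball_zero_iff.2 (by linarith)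
  have w3 := Sys.tu_base G' N x (w1.trans_le p1)
  have w4 := i4 x w w1
  have hD : S.tD x y (Sys.tu G' N x w) := ⟨(S.c_iS x w2).symm.trans (congrArg Prod.snd hy).symm, by
    rw [w3]
    exact Sys.mem_dom (S.iS_mem.2 w2) (mem_ball_self one_pos) ((S.c_zero' y).trans hy)⟩
  obtain ⟨C₁, k2⟩ := glob (fun a ha => ContinuousLinearMap.le_of_opNorm_le _ (k0 a ha _ w4) _)
    (kill hok hrH hCH.le hH hN' (ball_subset_ball hr' w4) (by rw [w3]; linarith) hD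
      (Sys.tθ_tu G' N (w1.trans_le p1) hy) hσ hσ')
  obtain ⟨ζ, β, z1, z2, z3, z4, z5⟩ := hO3 w hw _ ⟨C₁, fun a => by
    rw [i3 x w w1]
    exact k2 a a.2⟩
  obtain ⟨C', hC'⟩ := z5 (CH ^ J)
  obtain ⟨σ', s1, s2, C'', s3⟩ := hok.rel M (x := x) (w1.trans_le (p3.trans p4)) z1 z2
    (Eventually.of_forall fun w => i2 w _)
    (by rw [z3, i3 x w w1]; exact (mem_ball_zero_iff.1 w4).trans_le hr2) (C := C') (by
      filter_upwards [continuousAt_fst.eventually hC', continuousAt_snd.eventually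
        (isOpen_ball.mem_nhds (S.iS_mem.2 (ball_subset_ball p3 (hO hw))))] with p q1 q4 _
      obtain ⟨a, a1, a2, a3⟩ := h5 x _ q4
      rw [← a2]
      exact q1 ⟨a, a1⟩ _ (by positivity) a3)
  exact ⟨_, pull_mem s.c (S.iS_mem.2 w2) hy s1 s3, val hD (by rwa [w3]) (by rw [w3, s2, z4])⟩

end Vale.Agent.P207Z
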