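import Vale.Agent.P207Z.HullD

/-!
# P207: the action on the jets of transversals (TR1)
-/

set_option linter.all false

open Set Filter Topology Metric MeasureTheory Asymptotics
open scoped ContDiff

noncomputable section

namespace Vale.Agent.P207Z

open Vale.Agent.P207.N3 (JC)

variable {Γ X B E V : Type} [Group Γ] [Countable Γ] [MetricSpace X] [ProperSpace X]
  [MulAction Γ X] [IsIsometricSMul Γ X] [MeasurableSpace X] [BorelSpace X]
  [TopologicalSpace B] [CompactSpace B] [T2Space B] [SecondCountableTopology B] [MulAction Γ B]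
  [ContinuousConstSMul Γ B] [MeasurableSpace B] [BorelSpace B]
  [NormedAddCommGroup E] [InnerProductSpace ℝ E] [FiniteDimensional ℝ E]
  [NormedAddCommGroup V] [NormedSpace ℝ V] [FiniteDimensional ℝ V]
  {F G W : Type} [NormedAddCommGroup F] [NormedSpace ℝ F] [FiniteDimensional ℝ F]
  [NormedAddCommGroup G] [NormedSpace ℝ G] [FiniteDimensional ℝ G]
  [NormedAddCommGroup W] [NormedSpace ℝ W]

variable {S : Sys Γ X B E V} {Y : Type} [MeasurableSpace Y] [MulAction Γ Y] {𝔉 : Bun S F}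

namespace Sys

variable {N : ℕ}

section aux

variable {x y z : X} {ζ ζ₁ ζ₂ : Jet N E E} {ψ : E → E}

theorem tγ_zero (ζ : Jet N E E) : S.tγ ζ 0 = S.iS (poly ζ 0) := by simp [tγ]

theorem pS_tγ (ζ : Jet N E E) (a : E) : S.pS (S.tγ ζ a) = poly ζ a := by
  simp [tγ, S.pS_iS, S.pS_iU]

theorem pU_tγ (ζ : Jet N E E) (a : E) : S.pU (S.tγ ζ a) = a := by simp [tγ, S.pU_iS, S.pU_iU]

theorem contDiff_tγ₂ : ContDiff ℝ ∞ fun u : Jet N E E × E => S.tγ u.1 u.2 :=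
  (S.iS.contDiff.comp contDiff_poly₂).add (S.iU.contDiff.comp contDiff_snd)

theorem contDiff_tγ (ζ : Jet N E E) : ContDiff ℝ ∞ (S.tγ ζ) :=
  (S.iS.contDiff.comp (contDiff_poly ζ)).add S.iU.contDiff

theorem tD.dom (h : S.tD x y ζ) : S.tγ ζ 0 ∈ S.dom x y := tγ_zero (S := S) ζ ▸ h.2

theorem tD.ev (h : S.tD x y ζ) : ∀ᶠ a in 𝓝 (0 : E), S.tγ ζ a ∈ S.dom x y :=
  (contDiff_tγ ζ).continuous.continuousAt (dom_nhds h.dom)

theorem tD.cd (h : S.tD x y ζ) : ContDiffAt ℝ ∞ (fun a => S.τ x y (S.tγ ζ a)) 0 :=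
  (contDiffAt_τ h.dom).comp 0 (contDiff_tγ ζ).contDiffAt

theorem tD.cd_tA (h : S.tD x y ζ) : ContDiffAt ℝ ∞ (S.tA x y ζ) 0 :=
  S.pU.contDiff.contDiffAt.comp 0 h.cd

theorem tD.cd_tW (h : S.tD x y ζ) : ContDiffAt ℝ ∞ (S.tW x y ζ) 0 :=
  S.pS.contDiff.contDiffAt.comp 0 h.cd

theorem jc_τγ : JC (fun (p : S.SPair) (u : Jet N E E × E) => S.τ p.1.1 p.1.2 (S.tγ u.1 u.2))
    {u | S.tγ u.2.1 u.2.2 ∈ S.dom u.1.1.1 u.1.1.2} := by
  have h := ((jc_τ (S := S)).pullback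
    (continuous_subtype_val (p := fun p : X × X => S.ep p.1 = S.ep p.2))).comp (JC.of_contDiff
      (contDiff_tγ₂ (S := S) (N := N)) isOpen_univ)
  exact h.mono (by simpa [Vale.Agent.P207.N3.cdom, Dm] using h.isOpen) fun p hp => ⟨trivial, hp⟩

end aux

theorem tA_zero {x y : X} {ζ : Jet N E E} (h : S.tD x y ζ) : S.tA x y ζ 0 = 0 :=
  (pU_τ h.1 h.dom).2 (pU_tγ ζ 0)

theorem tA_inv {x y : X} {ζ : Jet N E E} (h : S.tD x y ζ) :
    (fderiv ℝ (S.tA x y ζ) 0).IsInvertible := by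
  have h1 := ((contDiff_tγ (S := S) ζ).differentiable (by simp) 0).hasFDerivAt
  have h2 : HasFDerivAt (S.tA x y ζ) _ 0 :=
    S.pU.hasFDerivAt.comp 0 ((differentiableAt_τ h.dom).hasFDerivAt.comp 0 h1)
  have h3 : S.pU ∘L fderiv ℝ (S.tγ ζ) 0 = ContinuousLinearMap.id ℝ E :=
    (S.pU.hasFDerivAt.comp 0 h1).unique
      ((hasFDerivAt_id 0).congr_of_eventuallyEq (Eventually.of_forall (pU_tγ ζ)))
  have h4 : Function.Injective (fderiv ℝ (S.tA x y ζ) 0) := by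
    refine (injective_iff_map_eq_zero _).2 fun a ha => ?_
    rw [h2.fderiv] at ha
    have h5 := S.iS_add (fderiv ℝ (S.τ x y) (S.tγ ζ 0) (fderiv ℝ (S.tγ ζ) 0 a))
    have h6 := pU_fderiv_τ h.1.symm (τ_dom h.dom) (tA_zero h)
      (S.pS (fderiv ℝ (S.τ x y) (S.tγ ζ 0) (fderiv ℝ (S.tγ ζ) 0 a)))
    rw [show S.pU (fderiv ℝ (S.τ x y) (S.tγ ζ 0) (fderiv ℝ (S.tγ ζ) 0 a)) = 0 from ha, map_zero,
      add_zero] at h5
    rw [h5, ← ContinuousLinearMap.mul_apply, fderiv_τ_inv h.dom] at h6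
    exact (DFunLike.congr_fun h3 a).symm.trans h6
  exact ⟨(LinearEquiv.ofInjectiveEndo (fderiv ℝ (S.tA x y ζ) 0).toLinearMap
    h4).toContinuousLinearEquiv, rfl⟩

/-- `ψ` is a local inverse of `tA` -/
structure TInv (S : Sys Γ X B E V) (x y : X) (ζ : Jet N E E) (ψ : E → E) : Prop where
  cd : ContDiffAt ℝ ∞ ψ 0
  zero : ψ 0 = 0
  left : ∀ᶠ a in 𝓝 (0 : E), ψ (S.tA x y ζ a) = a
  right : ∀ᶠ a in 𝓝 (0 : E), S.tA x y ζ (ψ a) = a

theorem exists_tInv (p₀ : S.SPair) {ζ₀ : Jet N E E} (h : S.tD p₀.1.1 p₀.1.2 ζ₀) :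
    ∃ (T : Set (S.SPair × (Jet N E E × E))) (φ : S.SPair → Jet N E E × E → E)
      (O : Set (S.SPair × Jet N E E)), JC φ T ∧ IsOpen O ∧ (p₀, ζ₀) ∈ O ∧
      (∀ u ∈ T, S.tγ u.2.1 (φ u.1 u.2) ∈ S.dom u.1.1.1 u.1.1.2) ∧
      ∀ u ∈ O, S.tD u.1.1.1 u.1.1.2 u.2 → (u.1, (u.2, 0)) ∈ T ∧
        S.TInv u.1.1.1 u.1.1.2 u.2 fun a => φ u.1 (u.2, a) := by
  have h1 := (jc_τγ.comp (JC.of_contDiff (Z := S.SPair)
    (φ := fun u : (Jet N E E × E) × E => (u.1.1, u.2)) (by fun_prop) isOpen_univ)).clm S.pU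
  have h2 := h1.sub (JC.of_contDiff (φ := fun u : (Jet N E E × E) × E => u.1.2) (by fun_prop)
    h1.isOpen)
  obtain ⟨T, φ, h3, -, -, h4, O, h5, h6, h7⟩ := h2.implicit (z₀ := p₀) (x₀ := (ζ₀, 0)) (y₀ := 0)
    ⟨trivial, h.dom⟩ (by simp only [sub_zero]; exact tA_inv h)
  have h8 : S.pU (S.τ p₀.1.1 p₀.1.2 (S.tγ ζ₀ 0)) - 0 = 0 := (sub_zero _).trans (tA_zero h)
  refine ⟨T, φ, {u | (u.1, ((u.2, 0), 0)) ∈ O}, h3, h5.preimage (by fun_prop), h6,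
    fun u hu => (h4 u hu).1.2, fun u hu hD => ?_⟩
  obtain ⟨h9, h10⟩ := h7 _ hu (((sub_zero _).trans (tA_zero hD)).trans h8.symm)
  refine ⟨h9, (h3.contDiffAt h9).comp 0 (f := fun a : E => (u.2, a)) (by fun_prop), h10, ?_, ?_⟩
  · have h11 : ContinuousAt (fun a : E => (u.1, ((u.2, S.tA u.1.1.1 u.1.1.2 u.2 a), a))) 0 :=
      continuousAt_const.prodMk ((continuousAt_const.prodMk hD.cd_tA.continuousAt).prodMk
        continuousAt_id)
    filter_upwards [h11.eventually (h5.mem_nhds (by beta_reduce; rwa [tA_zero hD]))] with a ha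
    exact (h7 _ ha ((sub_self _).trans h8.symm)).2
  · have h11 : ContinuousAt (fun a : E => (u.1, (u.2, a))) 0 := by fun_prop
    filter_upwards [h11.eventually (h3.isOpen.mem_nhds h9)] with a ha
    exact sub_eq_zero.1 ((h4 _ ha).2.trans h8)

theorem tD.exists_tInv {x y : X} {ζ : Jet N E E} (h : S.tD x y ζ) : ∃ ψ, S.TInv x y ζ ψ := by
  obtain ⟨T, φ, O, -, -, h1, -, h2⟩ := Sys.exists_tInv ⟨(x, y), h.1⟩ h
  exact ⟨_, (h2 _ h1 h).2⟩

theorem TInv.isTθ {x y : X} {ζ : Jet N E E} {ψ : E → E} (hψ : S.TInv x y ζ ψ) (h : S.tD x y ζ) :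
    S.IsTθ x y ζ (jet N (fun a => S.tW x y ζ (ψ a)) 0) := by
  have h1 : ContDiffAt ℝ N (fun a => S.tW x y ζ (ψ a)) 0 :=
    ((hψ.zero.symm ▸ h.cd_tW).comp 0 hψ.cd).of_le (by exact_mod_cast le_top)
  have h2 := flat_taylor h1
  rw [← tA_zero h] at h2
  refine ⟨jet_poly_jet h1, (h2.comp (h.cd_tA.differentiableAt (by simp))).neg.congr ?_⟩
  filter_upwards [hψ.left] with a ha
  rw [ha, tA_zero h, sub_zero, neg_sub]

theorem isTθ {x y : X} {ζ : Jet N E E} (h : S.tD x y ζ) : S.IsTθ x y ζ (S.tθ x y ζ) :=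
  Classical.epsilon_spec (h.exists_tInv.elim fun _ hψ => ⟨_, hψ.isTθ h⟩)

theorem IsTθ.eq {x y : X} {ζ ζ' : Jet N E E} (h : S.tD x y ζ) (h' : S.IsTθ x y ζ ζ') :
    S.tθ x y ζ = ζ' := by
  obtain ⟨ψ, hψ⟩ := h.exists_tInv
  have h1 := (isTθ h).2.sub h'.2
  rw [← hψ.zero] at h1
  rw [← (isTθ h).1, ← h'.1, jet_eq_iff
    ((contDiff_poly _).contDiffAt.of_le (by exact_mod_cast le_top))
    ((contDiff_poly _).contDiffAt.of_le (by exact_mod_cast le_top))]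
  refine (h1.comp (hψ.cd.differentiableAt (by simp))).congr ?_
  filter_upwards [hψ.right] with a ha
  rw [ha, sub_sub_sub_cancel_right]

theorem tθ_base {x y : X} {ζ : Jet N E E} (h : S.tD x y ζ) :
    S.iS (poly (S.tθ x y ζ) 0) = S.τ x y (S.iS (poly ζ 0)) := by
  have h1 := sub_eq_zero.1 (isTθ h).2.eq_zero
  have h2 : S.iS (S.tW x y ζ 0) + S.iU (S.tA x y ζ 0) = _ := S.iS_add _
  rw [tA_zero h] at h1 h2
  rw [h1, ← tγ_zero, ← h2, map_zero, add_zero]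

theorem tD.symm {x y : X} {ζ : Jet N E E} (h : S.tD x y ζ) : S.tD y x (S.tθ x y ζ) :=
  ⟨h.1.symm, tθ_base h ▸ τ_dom h.2⟩

theorem tD.trans {x y z : X} {ζ : Jet N E E} (h : S.tD x y ζ) (h' : S.tD x z ζ) :
    S.tD y z (S.tθ x y ζ) := ⟨h.1.symm.trans h'.1, tθ_base h ▸ τ_dom' h.2 h'.2⟩

theorem tθ_self {x : X} {ζ : Jet N E E} (h : S.tD x x ζ) : S.tθ x x ζ = jet N (poly ζ) 0 := by
  refine IsTθ.eq h ⟨by rw [poly_jet_poly], Flat.zero.congr ?_⟩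
  filter_upwards [h.ev] with a ha
  rw [tA, tW, τ_self (dom_ball ha), pU_tγ, pS_tγ, poly_jet_poly, sub_self]

/-- the image of the transversal has a contact of order `N` with the new transversal -/
theorem flat_tγ {x y : X} {ζ : Jet N E E} (h : S.tD x y ζ) :
    Flat N (fun a => S.τ x y (S.tγ ζ a) - S.tγ (S.tθ x y ζ) (S.tA x y ζ a)) 0 := by
  refine ((isTθ h).2.clm S.iS).neg.congr (Eventually.of_forall fun a => ?_)
  have h2 : S.iS (S.tW x y ζ a) + S.iU (S.tA x y ζ a) = _ := S.iS_add _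
  beta_reduce
  rw [← h2, tγ, map_sub]
  abel

theorem tθ_trans {x y z : X} {ζ : Jet N E E} (h : S.tD x y ζ) (h' : S.tD x z ζ) :
    S.tθ y z (S.tθ x y ζ) = S.tθ x z ζ := by
  have h1 := h.trans h'
  have h2 := (isTθ h1).2
  have h3 := contDiffAt_τ h1.dom
  rw [← tA_zero h] at h2 h3
  have h4 := (flat_tγ h).map (Φ := fun v => poly (S.tθ y z (S.tθ x y ζ)) (S.pU (S.τ y z v))
      - S.pS (S.τ y z v)) ((contDiff_tγ _).continuous.continuousAt.comp h.cd_tA.continuousAt)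
    ((((contDiff_poly _).contDiffAt.comp _ (S.pU.contDiff.contDiffAt.comp _ h3)).sub
      (S.pS.contDiff.contDiffAt.comp _ h3)).of_le (by exact_mod_cast le_top))
  refine (IsTθ.eq h' ⟨(isTθ h1).1,
    (h4.add (h2.comp (h.cd_tA.differentiableAt (by simp)))).congr ?_⟩).symm
  filter_upwards [h.ev, h'.ev] with a ha ha'
  rw [τ_trans ha ha']
  exact (sub_add_cancel _ _).symm

theorem tD.smul (g : Γ) {x y : X} {ζ : Jet N E E} (h : S.tD x y ζ) : S.tD (g • x) (g • y) ζ :=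
  ⟨by rw [S.ep_smul, S.ep_smul, h.1], (dom_smul (S := S) g).symm ▸ h.2⟩

theorem tθ_smul (g : Γ) {x y : X} {ζ : Jet N E E} (h : S.tD x y ζ) :
    S.tθ (g • x) (g • y) ζ = S.tθ x y ζ := by
  refine IsTθ.eq (h.smul g) ⟨(isTθ h).1, (isTθ h).2.congr ?_⟩
  filter_upwards [h.ev] with a ha
  rw [tA, tW, τ_smul g ha]
  rfl

theorem tD_zero {x y : X} (h : S.pt x = S.pt y) : S.tD x y (0 : Jet N E E) :=
  ⟨congrArg Prod.snd h, by simpa [poly] using zero_dom h⟩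

theorem tθ_zero {x y : X} (h : S.pt x = S.pt y) : S.tθ x y (0 : Jet N E E) = 0 := by
  have h0 : poly (0 : Jet N E E) = fun _ => 0 := funext fun _ => by simp [poly]
  refine IsTθ.eq (tD_zero h) ⟨?_, Flat.zero.congr ?_⟩
  · rw [h0]
    exact (flat_iff_jet contDiffAt_const).1 Flat.zero
  · filter_upwards [(tD_zero (N := N) h).ev] with a ha
    rw [tW, (pS_τ (congrArg Prod.fst h) ha).2 (by rw [pS_tγ, h0]), h0, sub_zero]

theorem isOpen_tD : IsOpen {u : S.SPair × Jet N E E | S.tD u.1.1.1 u.1.1.2 u.2} := by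
  have h := (jc_τγ (S := S) (N := N)).isOpen.preimage
    (f := fun u : S.SPair × Jet N E E => (u.1, (u.2, (0 : E)))) (by fun_prop)
  convert h using 1
  exact Set.ext fun u => ⟨tD.dom, fun h1 => ⟨u.1.2, tγ_zero (S := S) u.2 ▸ h1⟩⟩

theorem jc_tθ : JC (fun (p : S.SPair) (ζ : Jet N E E) => S.tθ p.1.1 p.1.2 ζ)
    {u | S.tD u.1.1.1 u.1.1.2 u.2} := by
  refine JC.of_local isOpen_tD fun u hu => ?_
  obtain ⟨T, φ, O, h1, h2, h3, h4, h5⟩ := exists_tInv u.1 hu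
  have h6 := (jc_τγ.comp' ((JC.id h1.isOpen).fst.prodMk h1) h4).clm S.pS
  exact ⟨O ∩ {u | S.tD u.1.1.1 u.1.1.2 u.2}, ⟨h3, hu⟩,
    ((jc_jet h6 N).mono (h2.inter isOpen_tD) fun v hv => (h5 v hv.1 hv.2).1).congr fun v hv =>
      IsTθ.eq hv.2 ((h5 v hv.1 hv.2).2.isTθ hv.2)⟩

end Sys

end Vale.Agent.P207Z
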