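import Vale.Agent.P207Z.TrA

/-!
# P207: the pull back of jets of sections along transversals (block TR1b)
-/

set_option linter.all false

open Set Filter Topology Metric MeasureTheory Asymptotics
open scoped ContDiff

noncomputable section

namespace Vale.Agent.P207Z

open Vale.Agent.P207.N3 (JC)

variable {Γ X B E V : Type} [Group Γ] [Countable Γ] [MetricSpace X] [ProperSpace X]
  [MulAction Γ X] [IsIsometricSMul Γ X] [MeasurableSpace X] [BorelSpace X]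
  [TopologicalSpace B] [CompactSpace B] [T2Space B] [SecondCountableTopology B] [MulAction Γ B]
  [ContinuousConstSMul Γ B] [MeasurableSpace B] [BorelSpace B]
  [NormedAddCommGroup E] [InnerProductSpace ℝ E] [FiniteDimensional ℝ E]
  [NormedAddCommGroup V] [NormedSpace ℝ V] [FiniteDimensional ℝ V]
  {F G W : Type} [NormedAddCommGroup F] [NormedSpace ℝ F] [FiniteDimensional ℝ F]
  [NormedAddCommGroup G] [NormedSpace ℝ G] [FiniteDimensional ℝ G]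
  [NormedAddCommGroup W] [NormedSpace ℝ W]

variable {S : Sys Γ X B E V} {Y : Type} [MeasurableSpace Y] [MulAction Γ Y] {𝔉 : Bun S F}

namespace TrB

variable {N : ℕ} {x y z : X} {ζ : Jet N E E}

theorem le_top (N : ℕ) : (N : WithTop ℕ∞) ≤ ∞ := by exact_mod_cast _root_.le_top

theorem sm_A (h : S.tD x y ζ) : ContDiffAt ℝ ∞ (fun a => 𝔉.A x y (S.tγ ζ a)) 0 :=
  (𝔉.contDiffAt h.dom).comp 0 (Sys.contDiff_tγ ζ).contDiffAt

theorem sm_pre {F F' : Type} [NormedAddCommGroup F] [NormedSpace ℝ F] [NormedAddCommGroup F']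
    [NormedSpace ℝ F'] : ContDiff ℝ ∞ fun A : F →L[ℝ] F' => preL F F' A :=
  ContinuousLinearMap.contDiff (𝕜 := ℝ) (E := F →L[ℝ] F') (F := (F' →L[ℝ] ℝ) →L[ℝ] F →L[ℝ] ℝ)
    (preL F F')

theorem pre_mul {F : Type} [NormedAddCommGroup F] [NormedSpace ℝ F] (A A' : F →L[ℝ] F) :
    preL F F A * preL F F A' = preL F F (A' * A) := ContinuousLinearMap.ext fun _ => rfl

theorem sm_L (h : S.tD x y ζ) :
    ContDiffAt ℝ N (fun a => preL F F (𝔉.A x y (S.tγ ζ a))) 0 :=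
  (sm_pre.contDiffAt.comp 0 (sm_A h)).of_le (le_top N)

theorem sm_f (h : S.tD x y ζ) (β : Jet N E (F →L[ℝ] ℝ)) :
    ContDiffAt ℝ ∞ (fun a => poly β (S.tA x y ζ a) ∘L 𝔉.A x y (S.tγ ζ a)) 0 :=
  ((contDiff_poly β).contDiffAt.comp 0 h.cd_tA).clm_comp (sm_A h)

theorem ev_tD (h : S.pt x = S.pt y) : ∀ᶠ ζ in 𝓝 (0 : Jet N E E), S.tD x y ζ :=
  (P207.N3.isOpen_slice Sys.jc_tθ.isOpen ⟨(x, y), congrArg Prod.snd h⟩).mem_nhds (Sys.tD_zero h)

theorem jc_θ : JC (fun (p : S.Pair) (ζ : Jet N E E) => S.tθ p.1.1 p.1.2 ζ)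
    {u | S.tD u.1.1.1 u.1.1.2 u.2} := by
  have h := (Sys.jc_tθ (S := S) (N := N)).pullback
    (c := fun p : S.Pair => ⟨p.1, congrArg Prod.snd p.2⟩) (continuous_subtype_val.subtype_mk _)
  exact h

end TrB

open TrB

namespace Bun

variable (𝔉) {N : ℕ}

theorem tP_apply {x y : X} {ζ : Jet N E E} (h : S.tD x y ζ) (β : Jet N E (F →L[ℝ] ℝ)) :
    𝔉.tP x y ζ β = jet N (fun a => poly β (S.tA x y ζ a) ∘L 𝔉.A x y (S.tγ ζ a)) 0 :=
  jetL_apply (h.cd_tA.of_le (le_top N)) (sm_L h) β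

theorem tP_trans {x y z : X} {ζ : Jet N E E} (h : S.tD x y ζ) (h' : S.tD x z ζ) :
    𝔉.tP x y ζ * 𝔉.tP y z (S.tθ x y ζ) = 𝔉.tP x z ζ := by
  refine ContinuousLinearMap.ext fun β => ?_
  have h1 := h.trans h'
  have h2 := Sys.τ_dom' h.dom h'.dom
  have h3 : ContDiffAt ℝ ∞ (fun q => poly β (S.pU (S.τ y z q)) ∘L 𝔉.A y z q)
      (S.τ x y (S.tγ ζ 0)) :=
    ((contDiff_poly β).contDiffAt.comp _ (S.pU.contDiff.contDiffAt.comp _
      (Sys.contDiffAt_τ h2))).clm_comp (𝔉.contDiffAt h2)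
  have h4 := sm_f (𝔉 := 𝔉) h1 β
  rw [ContinuousLinearMap.mul_apply, 𝔉.tP_apply h1, 𝔉.tP_apply h', tP,
    jetL_jet (h.cd_tA.of_le (le_top N)) (sm_L h) (Sys.tA_zero h) (h4.of_le (le_top N))]
  rw [← Sys.tA_zero h] at h4
  refine (jet_eq_iff ((((h4.comp 0 h.cd_tA).clm_comp (sm_A h))).of_le (le_top N))
    ((sm_f h' β).of_le (le_top N))).2 ?_
  refine ((((Sys.flat_tγ h).neg.congr (Eventually.of_forall fun a => (neg_sub _ _).symm)).map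
    h.cd.continuousAt (h3.of_le (le_top 1))).comp_left
    (sm_A (𝔉 := 𝔉) h).continuousAt).congr ?_
  filter_upwards [h.ev, h'.ev] with a ha ha'
  rw [ContinuousLinearMap.sub_comp, Sys.τ_trans ha ha', Sys.tA, ← 𝔉.coc x y z _ ha ha']
  rfl

theorem tP_self {x : X} {ζ : Jet N E E} (h : S.tD x x ζ) (β : Jet N E (F →L[ℝ] ℝ)) :
    𝔉.tP x x ζ β = jet N (poly β) 0 := by
  rw [𝔉.tP_apply h]
  refine jet_congr ?_
  filter_upwards [h.ev] with a ha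
  rw [Sys.tA, Sys.τ_self (Sys.dom_ball ha), 𝔉.self x _ (Sys.dom_ball ha), Sys.pU_tγ]
  rfl

theorem tP_val {x y : X} {ζ : Jet N E E} (h : S.tD x y ζ) (β : Jet N E (F →L[ℝ] ℝ)) :
    poly (𝔉.tP x y ζ β) 0 = poly β 0 ∘L 𝔉.A x y (S.iS (poly ζ 0)) := by
  rw [𝔉.tP_apply h, poly_jet_zero, Sys.tA_zero h, Sys.tγ_zero]

theorem tP_smul (g : Γ) {x y : X} {ζ : Jet N E E} (h : S.tD x y ζ) :
    𝔉.tP (g • x) (g • y) ζ = 𝔉.tP x y ζ := by
  refine ContinuousLinearMap.ext fun β => ?_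
  rw [𝔉.tP_apply h, 𝔉.tP_apply (h.smul g)]
  refine jet_congr ?_
  filter_upwards [h.ev] with a ha
  rw [Sys.tA, Sys.tA, Sys.τ_smul g ha, 𝔉.smul g x y _ ha]

theorem jc_tP : JC (fun (p : S.SPair) (ζ : Jet N E E) => 𝔉.tP p.1.1 p.1.2 ζ)
    {u | S.tD u.1.1.1 u.1.1.2 u.2} := by
  have h0 : JC (fun (_ : S.SPair) (p : Jet N E E × E) => S.tγ p.1 p.2) univ :=
    JC.of_contDiff Sys.contDiff_tγ₂ isOpen_univ
  have h1 := (((Sys.jc_τ (S := S)).pullback continuous_subtype_val).comp h0).clm S.pU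
  have h2 := ((𝔉.jc.pullback continuous_subtype_val).comp h0).comp_contDiff sm_pre
  exact (jc_jetL h1 h2 N).mono Sys.jc_tθ.isOpen fun u hu => ⟨mem_univ _, Sys.tD.dom hu⟩

theorem jc_tL : JC (fun (p : S.Pair) (ζ : Jet N E E) =>
    preL _ _ (𝔉.tP p.1.2 p.1.1 (S.tθ p.1.1 p.1.2 ζ))) {u | S.tD u.1.1.1 u.1.1.2 u.2} := by
  have h := (𝔉.jc_tP (N := N)).pullback
    (c := fun p : S.Pair => ⟨p.1.swap, congrArg Prod.snd p.2.symm⟩)
    ((continuous_swap.comp continuous_subtype_val).subtype_mk _)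
  have h1 : JC (fun (p : S.Pair) (ζ : Jet N E E) => 𝔉.tP p.1.2 p.1.1 ζ)
    {u | S.tD u.1.1.2 u.1.1.1 u.2} := h
  exact (h1.comp' jc_θ fun _ hp => Sys.tD.symm hp).comp_contDiff sm_pre

theorem tL_trans {x y z : X} {ζ : Jet N E E} (h : S.tD x y ζ) (h' : S.tD x z ζ) :
    preL _ _ (𝔉.tP y x (S.tθ x y ζ)) * preL _ _ (𝔉.tP z y (S.tθ y z (S.tθ x y ζ))) =
      preL _ _ (𝔉.tP z x (S.tθ x z ζ)) := by
  rw [Sys.tθ_trans h h', ← 𝔉.tP_trans (h'.trans h) h'.symm, Sys.tθ_trans h' h, pre_mul]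

theorem tL_smul (g : Γ) {x y : X} {ζ : Jet N E E} (h : S.tD x y ζ) :
    preL _ _ (𝔉.tP (g • y) (g • x) (S.tθ (g • x) (g • y) ζ)) =
      preL _ _ (𝔉.tP y x (S.tθ x y ζ)) := by
  rw [Sys.tθ_smul g h, 𝔉.tP_smul g h.symm]

/-- the system of germs on the jets of transversals -/
def tsys (N : ℕ) : GSys S (Jet N E E) (Jet N E (F →L[ℝ] ℝ) →L[ℝ] ℝ) where
  θ := S.tθ
  L x y ζ := preL _ _ (𝔉.tP y x (S.tθ x y ζ))
  T := {u | S.tD u.1.1.1 u.1.1.2 u.2}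
  θ_jc := jc_θ
  L_jc := 𝔉.jc_tL
  mem p := Sys.tD_zero p.2
  θ_zero _ _ := Sys.tθ_zero
  coc x y z h h' := ((ev_tD h).and (ev_tD h')).mono fun _ k =>
    ⟨Sys.tθ_trans k.1 k.2, 𝔉.tL_trans k.1 k.2⟩
  smul g x y h := (ev_tD h).mono fun _ k => ⟨Sys.tθ_smul g k, 𝔉.tL_smul g k⟩

end Bun

end Vale.Agent.P207Z
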