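import Vale.Agent.P207Z.TrB

/-!
# P207: the action on the jets of transversals is a contraction (TR2)
-/

set_option linter.all false

open Set Filter Topology Metric MeasureTheory Asymptotics
open scoped ContDiff

noncomputable section

namespace Vale.Agent.P207Z

open Vale.Agent.P207.N3 (JC)

namespace TrC

variable {V : Type} [NormedAddCommGroup V] [NormedSpace ℝ V]

theorem dflat0 (N : ℕ) : ∀ {W : Type} [NormedAddCommGroup W] [NormedSpace ℝ W] {h : ℝ × V → W},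
    (∀ᶠ p in 𝓝 ((0, 0) : ℝ × V), ContDiffAt ℝ ∞ h p) →
    (∀ᶠ s in 𝓝 (0 : ℝ), Flat N (fun a => h (s, a)) 0) →
    Flat N (fun a => fderiv ℝ h (0, a) (1, 0)) 0 := by
  have c1 : ContinuousAt (fun s : ℝ => ((s, 0) : ℝ × V)) 0 := by fun_prop
  have c2 : ∀ s : ℝ, ContinuousAt (fun a : V => ((s, a) : ℝ × V)) 0 := fun s => by fun_prop
  have key : ∀ (N : ℕ) {W : Type} [NormedAddCommGroup W] [NormedSpace ℝ W] {h : ℝ × V → W},
      ContDiffAt ℝ ∞ h (0, 0) → (∀ᶠ s in 𝓝 (0 : ℝ), Flat N (fun a => h (s, a)) 0) →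
      fderiv ℝ h (0, 0) (1, 0) = 0 ∧ ContDiffAt ℝ ∞ (fun a => fderiv ℝ h (0, a) (1, 0)) 0 := by
    intro N W _ _ h hh hf
    refine ⟨?_, (ContDiffAt.comp (f := fun a : V => (((0 : ℝ), a) : ℝ × V)) 0
      (hh.fderiv_right (m := ∞) (by simp)) (by fun_prop)).clm_apply contDiffAt_const⟩
    exact (HasFDerivAt.comp_hasDerivAt (f := fun s : ℝ => ((s, 0) : ℝ × V)) (0 : ℝ)
      (hh.differentiableAt (by simp)).hasFDerivAt
      ((hasDerivAt_id' (0 : ℝ)).prodMk (hasDerivAt_const (0 : ℝ) (0 : V)))).unique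
      ((hasDerivAt_const (0 : ℝ) (0 : W)).congr_of_eventuallyEq (hf.mono fun s hs => hs.eq_zero))
  induction N with
  | zero =>
    intro W _ _ h hh hf
    obtain ⟨k1, k2⟩ := key 0 hh.self_of_nhds hf
    exact flat_zero_iff.2 (k1 ▸ k2.continuousAt.tendsto)
  | succ N ih =>
    intro W _ _ h hh hf
    obtain ⟨k1, k2⟩ := key _ hh.self_of_nhds hf
    have h1 := ih (h := fun p => fderiv ℝ h p ∘L ContinuousLinearMap.inr ℝ ℝ V)
      (hh.mono fun p hp => (hp.fderiv_right (m := ∞) (by simp)).clm_comp contDiffAt_const) (by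
        filter_upwards [hf, c1.eventually hh.eventually_nhds] with s a1 a2
        refine (a1.fderiv ((ContDiffAt.comp (f := fun a : V => ((s, a) : ℝ × V)) 0 a2.self_of_nhds
          (by fun_prop)).of_le (by exact_mod_cast le_top))).congr ?_
        filter_upwards [(c2 s).eventually a2] with a ha
        exact (HasFDerivAt.comp (f := fun a : V => ((s, a) : ℝ × V)) a
          (ha.differentiableAt (by simp)).hasFDerivAt (hasFDerivAt_prodMk_right s a)).fderiv.symm)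
    have h2 : Flat N (fderiv ℝ fun a => fderiv ℝ h (0, a) (1, 0)) 0 := by
      refine h1.congr ?_
      filter_upwards [(c2 0).eventually hh] with a ha
      have a1 := ((ha.fderiv_right (m := ∞) (by simp)).differentiableAt (by simp)).hasFDerivAt
      have a2 := ha.isSymmSndFDerivAt (by
        rw [minSmoothness_of_isRCLikeNormedField]
        exact WithTop.coe_le_coe.2 le_top)
      refine ((HasFDerivAt.comp (f := fun a : V => (((0 : ℝ), a) : ℝ × V)) a a1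
        (hasFDerivAt_prodMk_right 0 a)).clm_apply (hasFDerivAt_const _ a)).fderiv.trans ?_
      rw [(a1.clm_comp (hasFDerivAt_const _ _)).fderiv]
      ext v
      simpa using congrArg (fun T : W => T) (a2 (0, v) (1, 0))
    have h3 := jet_eq_zero_iff.1 ((flat_iff_jet ((k2.fderiv_right (m := ∞) (by simp)).of_le
      (by exact_mod_cast le_top))).1 h2)
    refine flat_of_jet _ (k2.of_le (by exact_mod_cast le_top)) (jet_eq_zero_iff.2 fun i hi => ?_)
    rw [← norm_eq_zero]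
    cases i with
    | zero => rw [norm_iteratedFDeriv_zero, k1, norm_zero]
    | succ i => rw [← norm_iteratedFDeriv_fderiv, h3 i (by omega), norm_zero]

/-- the derivative in a parameter of a flat family is flat -/
theorem dflat {N : ℕ} {W : Type} [NormedAddCommGroup W] [NormedSpace ℝ W] {h : ℝ × V → W}
    {g : V → W} (hh : ∀ᶠ p in 𝓝 ((0, 0) : ℝ × V), ContDiffAt ℝ ∞ h p)
    (hf : ∀ᶠ s in 𝓝 (0 : ℝ), Flat N (fun a => h (s, a)) 0)
    (hg : ∀ᶠ a in 𝓝 (0 : V), HasDerivAt (fun s => h (s, a)) (g a) 0) : Flat N g 0 := by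
  have c2 : ContinuousAt (fun a : V => (((0 : ℝ), a) : ℝ × V)) 0 := by fun_prop
  refine (dflat0 N hh hf).congr ?_
  filter_upwards [hg, c2.eventually hh] with a a1 a2
  exact a1.unique (HasFDerivAt.comp_hasDerivAt (f := fun s : ℝ => ((s, a) : ℝ × V)) (0 : ℝ)
    (a2.differentiableAt (by simp)).hasFDerivAt
    ((hasDerivAt_id' (0 : ℝ)).prodMk (hasDerivAt_const (0 : ℝ) a)))

theorem poly_smul {W : Type} [NormedAddCommGroup W] [NormedSpace ℝ W] {N : ℕ} (s : ℝ)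
    (a : Jet N V W) (q : V) : poly (s • a) q = s • poly a q := by
  rw [← polyL_apply, map_smul, polyL_apply]

theorem norm_poly_zero {W : Type} [NormedAddCommGroup W] [NormedSpace ℝ W] {N : ℕ}
    (a : Jet N V W) : ‖poly a 0‖ ≤ ‖a‖ := by
  rw [poly_zero]
  refine ((a 0).le_opNorm fun _ => 0).trans ((mul_le_of_le_one_right (norm_nonneg _)
    (Finset.prod_le_one (fun _ _ => norm_nonneg _) fun _ _ => ?_)).trans (norm_le_pi_norm a 0))
  rw [norm_zero]
  exact zero_le_one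

end TrC

open TrC

variable {Γ X B E V : Type} [Group Γ] [Countable Γ] [MetricSpace X] [ProperSpace X]
  [MulAction Γ X] [IsIsometricSMul Γ X] [MeasurableSpace X] [BorelSpace X]
  [TopologicalSpace B] [CompactSpace B] [T2Space B] [SecondCountableTopology B] [MulAction Γ B]
  [ContinuousConstSMul Γ B] [MeasurableSpace B] [BorelSpace B]
  [NormedAddCommGroup E] [InnerProductSpace ℝ E] [FiniteDimensional ℝ E]
  [NormedAddCommGroup V] [NormedSpace ℝ V] [FiniteDimensional ℝ V]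
  {F : Type} [NormedAddCommGroup F] [NormedSpace ℝ F] [FiniteDimensional ℝ F]

variable {S : Sys Γ X B E V}

namespace TrC

theorem exists_adj (L : V →L[ℝ] E) : ∃ β : (E →L[ℝ] V) →L[ℝ] E →L[ℝ] E,
    ∀ M w u, inner ℝ (β M w) u = inner ℝ w (L (M u)) := by
  have := FiniteDimensional.complete ℝ E
  exact ⟨((ContinuousLinearMap.adjoint (𝕜 := ℝ) (E := E)
    (F := E)).toLinearIsometry.toContinuousLinearMap : (E →L[ℝ] E) →L[ℝ] E →L[ℝ] E) ∘L
      ContinuousLinearMap.compL ℝ E V E L, fun M w u =>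
    ContinuousLinearMap.adjoint_inner_left (L ∘L M) u w⟩

theorem fderiv_tθ {N : ℕ} {β : (E →L[ℝ] V) →L[ℝ] E →L[ℝ] E}
    (hβ : ∀ M w u, inner ℝ (β M w) u = inner ℝ w (S.pU (M u))) {x y : X} (h : S.pt x = S.pt y)
    (η : Jet N E E) : fderiv ℝ (S.tθ x y) 0 η = jet N (fun a =>
      β (fderiv ℝ (fun a => S.τ y x (S.iU a)) a) (poly η (S.pU (S.τ y x (S.iU a))))) 0 := by
  have he : S.ep x = S.ep y := congrArg Prod.snd h
  have hm : S.em y = S.em x := (congrArg Prod.fst h).symm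
  have h0 : S.tD x y (0 : Jet N E E) := ⟨he, by
    rw [← polyL_apply, map_zero, map_zero]
    exact Sys.zero_dom h⟩
  have h1 : ∀ᶠ ζ in 𝓝 (0 : Jet N E E), S.tD x y ζ ∧ ContDiffAt ℝ ∞ (S.tθ x y) ζ :=
    eventually_of_mem ((P207.N3.isOpen_slice Sys.jc_tθ.isOpen ⟨(x, y), he⟩).mem_nhds h0)
      fun ζ hζ => ⟨hζ, Sys.jc_tθ.contDiffAt (p := (⟨(x, y), he⟩, ζ)) hζ⟩
  have h2 := (h1.self_of_nhds.2.differentiableAt (by simp)).hasFDerivAt
  have h3 : ∀ a : Jet N E E, jetL N (fun q => q) (fun _ => ContinuousLinearMap.id ℝ E) a =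
      jet N (poly a) 0 := jetL_apply contDiffAt_id contDiffAt_const
  have h4 : fderiv ℝ (S.tθ x y) 0 η = jet N (poly (fderiv ℝ (S.tθ x y) 0 η)) 0 := by
    rw [← h3]
    exact congrArg (fun T : Jet N E E →L[ℝ] Jet N E E => T η) (h2.unique
      (((jetL N (fun q => q) fun _ =>
        ContinuousLinearMap.id ℝ E).hasFDerivAt.comp 0 h2).congr_of_eventuallyEq
        (h1.mono fun ζ hζ => ((h3 _).trans (Sys.isTθ hζ.1).1).symm)))
  have g0 : ∀ (s : ℝ) a, S.tγ (s • η) a = s • S.iS (poly η a) + S.iU a := fun s a => by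
    rw [Sys.tγ, poly_smul, map_smul]
  have g1 : ContDiff ℝ ∞ fun p : ℝ × E => S.tγ (p.1 • η) p.2 := by
    simp only [g0]
    exact (contDiff_fst.smul (S.iS.contDiff.comp ((contDiff_poly η).comp contDiff_snd))).add
      (S.iU.contDiff.comp contDiff_snd)
  have g2 : Tendsto (fun s : ℝ => s • η) (𝓝 0) (𝓝 0) :=
    (by fun_prop : Continuous fun s : ℝ => s • η).tendsto' 0 0 (zero_smul _ _)
  have g3 : ∀ {x y : X}, S.pt x = S.pt y → ∀ᶠ a in 𝓝 (0 : E), S.iU a ∈ S.dom x y := fun h =>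
    S.iU.continuous.tendsto' 0 0 S.iU.map_zero (Sys.dom_nhds (Sys.zero_dom h))
  have g4 := dflat (N := N) (h := fun p : ℝ × E =>
      poly (S.tθ x y (p.1 • η)) (S.tA x y (p.1 • η) p.2) - S.tW x y (p.1 • η) p.2)
    (g := fun a => poly (fderiv ℝ (S.tθ x y) 0 η) (S.pU (S.τ x y (S.iU a))) -
      S.pS (fderiv ℝ (S.τ x y) (S.iU a) (S.iS (poly η a)))) (by
      filter_upwards [g1.continuous.tendsto' (0, 0) 0 (by rw [g0]; simp)
        (Sys.dom_nhds (Sys.zero_dom h)), (g2.comp (continuous_fst.tendsto (0, (0 : E)))).eventually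
        h1] with p a1 a2
      have a3 := (Sys.contDiffAt_τ a1).comp p g1.contDiffAt
      exact (contDiff_poly₂.contDiffAt.comp p ((a2.2.comp p (by fun_prop)).prodMk
        (S.pU.contDiff.contDiffAt.comp p a3))).sub (S.pS.contDiff.contDiffAt.comp p a3))
    ((g2.eventually h1).mono fun s hs => (Sys.isTθ hs.1).2) (by
      filter_upwards [g3 h] with a ha
      have a1 : HasDerivAt (fun s : ℝ => S.τ x y (S.tγ (s • η) a))
          (fderiv ℝ (S.τ x y) (S.iU a) (S.iS (poly η a))) 0 := by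
        refine HasFDerivAt.comp_hasDerivAt_of_eq _ (Sys.differentiableAt_τ ha).hasFDerivAt ?_
          (by rw [g0]; simp)
        simpa [g0] using ((hasDerivAt_id' (0 : ℝ)).smul_const (S.iS (poly η a))).add_const (S.iU a)
      have a2 : HasDerivAt (fun s : ℝ => S.tθ x y (s • η)) (fderiv ℝ (S.tθ x y) 0 η) 0 := by
        refine HasFDerivAt.comp_hasDerivAt_of_eq _ h2 ?_ (by simp)
        simpa using (hasDerivAt_id' (0 : ℝ)).smul_const η
      have a3 := ((((contDiff_polyL (k := N) (V := E) (W := E)).differentiable (by simp) _).comp (0 : ℝ)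
        (S.pU.hasFDerivAt.comp_hasDerivAt _ a1).differentiableAt).hasDerivAt.clm_apply a2).fun_sub
        (S.pS.hasFDerivAt.comp_hasDerivAt _ a1)
      simpa [Sys.tθ_zero h, polyL_apply, g0, Sys.tA, Sys.tW, Function.comp_def] using a3)
  have g5 : ContDiffAt ℝ ∞ (fun a => S.τ y x (S.iU a)) 0 :=
    (Sys.contDiffAt_τ (g3 h.symm).self_of_nhds).comp 0 S.iU.contDiff.contDiffAt
  have g6 := S.pU.contDiff.contDiffAt.comp 0 g5
  refine h4.trans ((jet_eq_iff (contDiffAt_poly _ _ _) (((β.contDiff.contDiffAt.comp 0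
    (g5.fderiv_right (m := ∞) (by simp))).clm_apply ((contDiff_poly η).contDiffAt.comp 0 g6)).of_le
      (by exact_mod_cast le_top))).2 ?_)
  refine (Flat.comp (τ := fun a => S.pU (S.τ y x (S.iU a))) (by
    rw [map_zero, Sys.τ_zero h.symm, map_zero]
    exact g4) (g6.differentiableAt (by simp))).congr ?_
  filter_upwards [g3 h.symm] with a ha
  have a1 : S.iU (S.pU (S.τ y x (S.iU a))) = S.τ y x (S.iU a) := by
    have := S.iS_add (S.τ y x (S.iU a))
    rwa [(Sys.pS_τ hm ha).2 (S.pS_iU a), map_zero, zero_add] at this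
  simp only [Function.comp_apply]
  rw [a1, Sys.τ_τ ha, S.pU_iU]
  congr 1
  refine ext_inner_right ℝ fun u => ?_
  have a2 := Sys.om_τ ha (fderiv ℝ (S.τ x y) (S.τ y x (S.iU a))
    (S.iS (poly η (S.pU (S.τ y x (S.iU a)))))) (S.iU u)
  rw [← ContinuousLinearMap.mul_apply, Sys.fderiv_τ_inv' ha] at a2
  rw [hβ, show fderiv ℝ (fun a => S.τ y x (S.iU a)) a = _ from
    ((Sys.differentiableAt_τ ha).hasFDerivAt.comp a S.iU.hasFDerivAt).fderiv]
  simpa [S.om_apply, S.pS_iS, S.pU_iS, S.pS_iU, S.pU_iU] using a2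

theorem ckB_U (S : Sys Γ X B E V) (k : ℕ) : ∃ n, ∀ y, ∀ t ≥ (0 : ℝ),
    CkB (k + 1) n (fun a => S.τ y (S.φ (-t) y) (S.iU a)) ∧ CkB k n fun a =>
      Real.exp (S.lam * t) • fderiv ℝ (fun a => S.τ y (S.φ (-t) y) (S.iU a)) a := by
  choose! C hC using S.contrU
  obtain ⟨n₁, -, a1, a2⟩ :=
    CalcAux.exists_ckB (V := E) (W := V) (fun i => |C i| + 1) (k + 1) 0 S.ρ_pos
  obtain ⟨n, b0, b1, b2⟩ :=
    CalcAux.exists_ckB (V := E) (W := E →L[ℝ] V) (fun i => C (i + 1)) k n₁ S.ρ_pos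
  refine ⟨n, fun y t ht => ?_⟩
  have sm : ∀ a ∈ ball (0 : E) S.ρ, ContDiffAt ℝ ∞ (fun a => S.τ y (S.φ (-t) y) (S.iU a)) a :=
    fun a ha => (Sys.contDiffAt_τ (S.domU y t ht a ha)).comp a S.iU.contDiff.contDiffAt
  have sd : ∀ a ∈ ball (0 : E) S.ρ, ∀ i : ℕ, ContDiffAt ℝ i
      (fderiv ℝ fun a => S.τ y (S.φ (-t) y) (S.iU a)) a := fun a ha i =>
    ((sm a ha).fderiv_right (m := ∞) (by simp)).of_le (by exact_mod_cast le_top)
  refine ⟨(a2 _ (fun a ha => ((sm a (ball_subset_ball a1 ha)).of_le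
    (by exact_mod_cast le_top)).contDiffWithinAt) fun i _ a ha => ?_).mono le_rfl b0,
    b2 _ (fun a ha => ((sd a (ball_subset_ball b1 ha) k).const_smul _).contDiffWithinAt)
      fun i _ a ha => ?_⟩
  · have h1 := ball_subset_ball a1 ha
    rcases i.eq_zero_or_pos with rfl | hi
    · rw [norm_iteratedFDeriv_zero]
      linarith [mem_ball_zero_iff.1 (Sys.τ_ball (S.domU y t ht a h1)), abs_nonneg (C 0)]
    · have h2 : Real.exp (-S.lam * t) ≤ 1 := Real.exp_le_one_iff.2 (by nlinarith [S.lam_pos])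
      refine (hC i hi y t ht a h1).trans ?_
      nlinarith [le_abs_self (C i), abs_nonneg (C i), Real.exp_pos (-S.lam * t)]
  · have h1 := ball_subset_ball b1 ha
    rw [iteratedFDeriv_const_smul_apply' (sd a h1 i), norm_smul, norm_iteratedFDeriv_fderiv,
      Real.norm_of_nonneg (Real.exp_pos _).le, ← le_inv_mul_iff₀ (Real.exp_pos _), ← Real.exp_neg,
      mul_comm, ← neg_mul]
    exact hC (i + 1) (by omega) y t ht a h1

theorem norm_fderiv_tθ (S : Sys Γ X B E V) (N : ℕ) : ∃ C : ℝ, ∀ x, ∀ t ≥ (0 : ℝ),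
    ‖fderiv ℝ (S.tθ (N := N) x (S.φ t x)) 0‖ ≤ C * Real.exp (-S.lam * t) := by
  obtain ⟨β, hβ⟩ := exists_adj S.pU
  obtain ⟨n₀, h0⟩ := ckB_U S N
  obtain ⟨n₁, l1, h1⟩ := ckB_clm (V := E) S.pU (N + 1) n₀
  choose C _ hC using poly_bound (V := E) (W := E) N
  obtain ⟨n₂, l2, r2, h2⟩ := CalcAux.exists_ckB (V := E) (W := E) C N n₁ one_pos
  obtain ⟨n₃, l3, h3⟩ := ckB_comp (V := E) (V' := E) (W := E) N n₂
  obtain ⟨n, -, h4⟩ := ckB_bilin (V := E) β N n₃
  refine ⟨n, fun x t ht => ContinuousLinearMap.opNorm_le_of_unit_norm (by positivity)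
    fun η hη => ?_⟩
  obtain ⟨a1, a2⟩ := h0 (S.φ t x) t ht
  rw [← S.φ_add, neg_add_cancel, S.φ_zero] at a1 a2
  have a3 := h4 _ _ (a2.mono le_rfl (by omega)) (h3 (poly η) _ (h2 _
    (fun a _ => (contDiffAt_poly η N a).contDiffWithinAt) fun i _ a ha => by
      simpa [hη] using hC i η a (ball_subset_closedBall (ball_subset_ball r2 ha)))
    ((h1 _ a1).mono le_rfl l2) (by rw [map_zero, Sys.τ_zero (S.pt_φ t x), map_zero])).1
  have a4 := mem_ball_self (x := (0 : E)) (rad_pos n)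
  have a5 := jet_smul (Real.exp (-S.lam * t)) (a3.contDiffAt a4)
  simp only [map_smul, ContinuousLinearMap.smul_apply, smul_smul, ← Real.exp_add, neg_mul,
    neg_add_cancel, Real.exp_zero, one_smul] at a5 a3
  rw [fderiv_tθ hβ (S.pt_φ t x).symm, a5, norm_smul, Real.norm_of_nonneg (Real.exp_pos _).le,
    mul_comm, neg_mul]
  exact mul_le_mul_of_nonneg_right (norm_jet_le n.cast_nonneg fun i hi => a3.bd i hi 0 a4)
    (Real.exp_pos _).le

end TrC

theorem Bun.tsys_contr (𝔉 : Bun S F) (N : ℕ) : ∃ t₁ r₀ : ℝ, 0 < r₀ ∧ ∀ r, 0 < r → r ≤ r₀ →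
    (𝔉.tsys N).Contr t₁ r ∧ ∀ x, ∀ ζ ∈ ball (0 : Jet N E E) r, S.tD x (S.φ t₁ x) ζ := by
  obtain ⟨C, hC⟩ := norm_fderiv_tθ S N
  obtain ⟨t, t0, ht⟩ : ∃ t : ℝ, 0 < t ∧ C * Real.exp (-S.lam * t) < 1 / 4 :=
    ((eventually_gt_atTop 0).and (((Real.tendsto_exp_atBot.comp
      (tendsto_id.const_mul_atTop_of_neg (neg_lt_zero.2 S.lam_pos))).const_mul C).eventually_lt_const
        (by norm_num))).exists
  have hD : ∀ x, ∀ ζ ∈ ball (0 : Jet N E E) S.ρ, S.tD x (S.φ t x) ζ := fun x ζ hζ =>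
    ⟨(S.ep_φ t x).symm, S.domS x t t0.le _
      (mem_ball_zero_iff.2 ((norm_poly_zero ζ).trans_lt (mem_ball_zero_iff.1 hζ)))⟩
  have hc : Continuous fun x => (⟨(x, S.φ t x), (S.pt_φ t x).symm⟩ : S.Pair) :=
    (continuous_id.prodMk (S.φ_cont.comp (continuous_const.prodMk continuous_id))).subtype_mk _
  have j1 : JC (fun x => (𝔉.tsys N).θ x (S.φ t x)) (univ ×ˢ ball 0 S.ρ) :=
    ((𝔉.tsys N).θ_jc.pullback hc).mono (isOpen_univ.prod isOpen_ball) fun p hp => hD p.1 p.2 hp.2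
  have j2 : JC (fun x => (𝔉.tsys N).L x (S.φ t x)) (univ ×ˢ ball 0 S.ρ) :=
    ((𝔉.tsys N).L_jc.pullback hc).mono (isOpen_univ.prod isOpen_ball) fun p hp => hD p.1 p.2 hp.2
  have u1 := S.unif_one j1 (fun g x ζ hζ => by
    rw [S.φ_smul]
    exact Sys.tθ_smul g (hD x ζ hζ)) (half_lt_self S.ρ_pos)
  have u2 := S.unif_one j2 (fun g x ζ hζ => by
    change preL _ _ (𝔉.tP (S.φ t (g • x)) (g • x) (S.tθ (g • x) (S.φ t (g • x)) ζ)) =
      preL _ _ (𝔉.tP (S.φ t x) x (S.tθ x (S.φ t x) ζ))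
    rw [S.φ_smul, Sys.tθ_smul g (hD x ζ hζ), 𝔉.tP_smul g (hD x ζ hζ).symm]) (half_lt_self S.ρ_pos)
  obtain ⟨C₂, c0, c1⟩ := u1 2
  have hρ := S.ρ_pos
  refine ⟨t, min (S.ρ / 2) (1 / (4 * (C₂ + 1))), by positivity, fun r r0 hr => ?_⟩
  have r1 : r ≤ S.ρ / 2 := hr.trans (min_le_left _ _)
  have r2 : r * (4 * (C₂ + 1)) ≤ 1 := (le_div_iff₀ (by positivity)).1 (hr.trans (min_le_right _ _))
  have sb : ball (0 : Jet N E E) r ⊆ ball 0 S.ρ := ball_subset_ball (by linarith)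
  have nb : ∀ ζ ∈ ball (0 : Jet N E E) r, ‖ζ‖ ≤ S.ρ / 2 := fun ζ hζ =>
    (mem_ball_zero_iff.1 hζ).le.trans r1
  refine ⟨⟨t0, r0, fun x => (j1.smooth x).mono fun ζ hζ => ⟨trivial, sb hζ⟩,
    fun x => (j2.smooth x).mono fun ζ hζ => ⟨trivial, sb hζ⟩, fun x q hq => ?_, fun k => ?_⟩,
    fun x ζ hζ => hD x ζ (sb hζ)⟩
  · have a1 := (convex_ball (0 : Jet N E E) r).norm_image_sub_le_of_norm_fderiv_le (𝕜 := ℝ)
      (f := fderiv ℝ ((𝔉.tsys N).θ x (S.φ t x))) (C := C₂)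
      (fun ζ hζ => j1.fderiv.differentiableAt (p := (x, ζ)) ⟨trivial, sb hζ⟩)
      (fun ζ hζ => by
        rw [← norm_iteratedFDeriv_one, norm_iteratedFDeriv_fderiv]
        exact c1 x ζ (nb ζ hζ) 2 le_rfl) (mem_ball_self r0) hq
    have a2 : ‖fderiv ℝ ((𝔉.tsys N).θ x (S.φ t x)) 0‖ < 1 / 4 := (hC x t t0.le).trans_lt ht
    have a3 := norm_le_norm_add_norm_sub' (fderiv ℝ ((𝔉.tsys N).θ x (S.φ t x)) q)
      (fderiv ℝ ((𝔉.tsys N).θ x (S.φ t x)) 0)
    rw [sub_zero] at a1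
    nlinarith [mem_ball_zero_iff.1 hq, norm_nonneg q]
  · obtain ⟨A, -, a1⟩ := u1 k
    obtain ⟨A', -, a2⟩ := u2 k
    exact ⟨max A A', fun x q hq => ⟨(a1 x q (nb q hq) k le_rfl).trans (le_max_left _ _),
      (a2 x q (nb q hq) k le_rfl).trans (le_max_right _ _)⟩⟩

end Vale.Agent.P207Z
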