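import Vale.Agent.P207Z.TrA
import Vale.Agent.P207Z.An.LK

/-!
# P207: the jets of the unstable leaves along the stable axis (block TR3)
-/

set_option linter.all false

open Set Filter Topology Metric MeasureTheory Asymptotics
open scoped ContDiff

noncomputable section

namespace Vale.Agent.P207Z

open Vale.Agent.P207.N3 (JC)

variable {Γ X B E V : Type} [Group Γ] [Countable Γ] [MetricSpace X] [ProperSpace X]
  [MulAction Γ X] [IsIsometricSMul Γ X] [MeasurableSpace X] [BorelSpace X]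
  [TopologicalSpace B] [CompactSpace B] [T2Space B] [SecondCountableTopology B] [MulAction Γ B]
  [ContinuousConstSMul Γ B] [MeasurableSpace B] [BorelSpace B]
  [NormedAddCommGroup E] [InnerProductSpace ℝ E] [FiniteDimensional ℝ E]
  [NormedAddCommGroup V] [NormedSpace ℝ V] [FiniteDimensional ℝ V]

variable {S : Sys Γ X B E V}

namespace Sys

variable {ε : ℝ} (G' : S.rev.GrS ε) (N : ℕ)

theorem tu_nr (S : Sys Γ X B E V) (x : X) {w : E} {r : ℝ} (hw : ‖w‖ < r) :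
    ∃ z ∈ ball (0 : V) r, (S.rev.c x z).2 = (S.c x (S.iS w)).1 :=
  ⟨S.iS w, by rwa [mem_ball_zero_iff, S.norm_iS], rfl⟩

theorem tu_z2 : (0 : E) ∈ ball (0 : E) (2 * G'.r) := mem_ball_self (by linarith [G'.r_pos])

theorem tu_uniq (x : X) {w : E} (hw : ‖w‖ < G'.r) {z : V} (hz : ‖z‖ < 2 * G'.r)
    (h : (S.c x z).1 = (S.c x (S.iS w)).1) :
    S.pS z = G'.g x (S.c x (S.iS w)).1 (S.pU z) :=
  G'.uniq x _ (S.tu_nr x hw) z (mem_ball_zero_iff.2 hz) h

theorem tu_on (x : X) {w : E} (hw : ‖w‖ < G'.r) {a : E} (ha : a ∈ ball (0 : E) (2 * G'.r)) :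
    ‖G'.g x (S.c x (S.iS w)).1 a‖ < 2 * G'.r ∧
      (S.c x (S.iS (G'.g x (S.c x (S.iS w)).1 a) + S.iU a)).1 = (S.c x (S.iS w)).1 := by
  rw [add_comm]
  exact G'.on x _ (S.tu_nr x hw) a ha

theorem tu_smooth (x : X) {w : E} (hw : ‖w‖ < G'.r) {a : E} (ha : a ∈ ball (0 : E) (2 * G'.r)) :
    ContDiffAt ℝ ∞ (G'.g x (S.c x (S.iS w)).1) a :=
  (G'.smooth x _ (S.tu_nr x hw)).contDiffAt (isOpen_ball.mem_nhds ha)

theorem tu_g0 (x : X) {w : E} (hw : ‖w‖ < G'.r) : G'.g x (S.c x (S.iS w)).1 0 = w := by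
  have := tu_uniq G' x hw (z := S.iS w) (by rw [S.norm_iS]; linarith [G'.r_pos]) rfl
  rw [S.pS_iS, S.pU_iS] at this
  exact this.symm

theorem tu_base (x : X) {w : E} (hw : ‖w‖ < G'.r) : poly (tu G' N x w) 0 = w := by
  rw [tu, poly_jet_zero, tu_g0 G' x hw]

theorem tu_cont (x : X) : ContinuousOn (tu G' N x) (ball 0 G'.r) :=
  continuousOn_pi.2 fun i => (G'.cont i x).comp (f := fun w : E => ((S.iS w, 0) : V × E))
    (by fun_prop) fun w hw => ⟨by rwa [mem_ball_zero_iff, S.norm_iS, ← mem_ball_zero_iff],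
      tu_z2 G'⟩

theorem tu_small {δ : ℝ} (hδ : 0 < δ) :
    ∃ r > 0, ∀ x, ∀ w : E, ‖w‖ < r → ‖tu G' N x w‖ < δ := by
  choose r hr h using fun i : Fin (N + 1) => G'.small i (δ / 2) (half_pos hδ)
  obtain ⟨i₀, hi₀⟩ := Finite.exists_min r
  refine ⟨r i₀, hr i₀, fun x w hw => lt_of_le_of_lt ?_ (half_lt_self hδ)⟩
  exact norm_jet_le (half_pos hδ).le fun i hi => h ⟨i, Nat.lt_succ_of_le hi⟩ x _
    (S.tu_nr x (hw.trans_le (hi₀ _))) 0 (tu_z2 G')

theorem tu_zero (x : X) : tu G' N x 0 = 0 := by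
  have h : G'.g x (S.c x (S.iS 0)).1 =ᶠ[𝓝 0] fun _ => 0 := by
    filter_upwards [isOpen_ball.mem_nhds (tu_z2 G')] with a ha
    rw [mem_ball_zero_iff] at ha
    have h1 : S.iU a ∈ ball (0 : V) 1 := by
      rw [mem_ball_zero_iff, S.norm_iU]
      linarith [G'.r_le, G'.r_pos]
    have := tu_uniq G' x (w := 0) (by simpa using G'.r_pos) (z := S.iU a) (by rwa [S.norm_iU]) (by
      rw [(S.c_U x _ h1).2 (S.pS_iU a), map_zero, S.c_zero])
    rw [S.pS_iU, S.pU_iU] at this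
    exact this.symm
  rw [tu, jet_congr h]
  funext i
  simp [jet]

/-- naturality -/
theorem tθ_tu' {x y : X} {w w' : E} (hw : ‖w‖ < G'.r) (hw' : ‖w'‖ < G'.r) (he : S.ep x = S.ep y)
    (h : S.c y (S.iS w') = S.c x (S.iS w)) : S.tθ x y (tu G' N x w) = tu G' N y w' := by
  have hb : ∀ {w : E}, ‖w‖ < G'.r → S.iS w ∈ ball (0 : V) 1 := fun hw => by
    rw [mem_ball_zero_iff, S.norm_iS]
    linarith [G'.r_le, G'.r_pos]
  have hd : S.iS w ∈ S.dom x y := mem_dom (hb hw) (hb hw') h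
  have hτ : S.τ x y (S.iS w) = S.iS w' := τ_eq (hb hw') h
  have hg := tu_smooth G' x hw (tu_z2 G')
  have hg' := tu_smooth G' y hw' (tu_z2 G')
  refine IsTθ.eq ⟨he, by rwa [tu_base G' N x hw]⟩
    ⟨jet_poly_jet (hg'.of_le (by exact_mod_cast le_top)), ?_⟩
  set g := G'.g x (S.c x (S.iS w)).1 with hgd
  set g' := G'.g y (S.c y (S.iS w')).1 with hgd'
  set γ : E → V := fun a => S.iS (g a) + S.iU a with hγ
  have hγ0 : γ 0 = S.iS w := by simp only [hγ, hgd, tu_g0 G' x hw, map_zero, add_zero]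
  have hγd : DifferentiableAt ℝ γ 0 :=
    (S.iS.differentiableAt.comp 0 (hg.differentiableAt (by simp))).add S.iU.differentiableAt
  have hτγ : DifferentiableAt ℝ (fun a => S.τ x y (γ a)) 0 :=
    DifferentiableAt.comp 0 (by rw [hγ0]; exact differentiableAt_τ hd) hγd
  have h1 : Flat N (fun a => S.tγ (tu G' N x w) a - γ a) 0 :=
    (((flat_taylor (k := N) (hg.of_le (by exact_mod_cast le_top))).neg).clm S.iS).congr
      (Eventually.of_forall fun a => by simp [tγ, tu, hγ, hgd])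
  have h2 := h1.map (Φ := fun q => poly (tu G' N y w') (S.pU (S.τ x y q)) - S.pS (S.τ x y q))
    hγd.continuousAt (by
      rw [hγ0]
      have h3 := contDiffAt_τ hd
      exact ((((contDiff_poly _).contDiffAt.comp _ (S.pU.contDiff.contDiffAt.comp _ h3)).sub
        (S.pS.contDiff.contDiffAt.comp _ h3))).of_le (by exact_mod_cast le_top))
  have hA0 : S.pU (S.τ x y (γ 0)) = 0 := by rw [hγ0, hτ, S.pU_iS]
  have h3 : Flat N (fun q => g' q - poly (jet N g' 0) (q - 0)) (S.pU (S.τ x y (γ 0))) := by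
    rw [hA0]
    exact flat_taylor (hg'.of_le (by exact_mod_cast le_top))
  have h4 := Flat.comp (τ := fun a => S.pU (S.τ x y (γ a))) h3
    (S.pU.differentiableAt.comp 0 hτγ)
  refine (h2.sub h4).congr ?_
  have e1 : ∀ᶠ a in 𝓝 (0 : E), γ a ∈ S.dom x y :=
    hγd.continuousAt.eventually (by rw [hγ0]; exact dom_nhds hd)
  have e2 : ∀ᶠ a in 𝓝 (0 : E), ‖S.τ x y (γ a)‖ < 2 * G'.r :=
    hτγ.continuousAt.norm.eventually (gt_mem_nhds (by
      show ‖S.τ x y (γ 0)‖ < _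
      rw [hγ0, hτ, S.norm_iS]
      linarith [G'.r_pos]))
  filter_upwards [e1, e2, isOpen_ball.mem_nhds (tu_z2 G')] with a a1 a2 a3
  have h5 := tu_uniq G' y hw' a2 (by rw [c_τ a1, h]; exact (tu_on G' x hw a3).2)
  simp only [tA, tW, h5, sub_zero, tu, hgd']
  abel

theorem tu_ep {x y : X} {w : E} (hw : ‖w‖ < G'.r) (h : S.pt y = S.c x (S.iS w)) :
    S.ep x = S.ep y :=
  ((S.c_S x _ (by
    rw [mem_ball_zero_iff, S.norm_iS]
    linarith [G'.r_le, G'.r_pos])).2 (S.pU_iS w)).symm.trans (congrArg Prod.snd h).symm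

theorem tθ_tu {x y : X} {w : E} (hw : ‖w‖ < G'.r) (h : S.pt y = S.c x (S.iS w)) :
    S.tθ x y (tu G' N x w) = 0 := by
  rw [tθ_tu' G' N hw (w' := 0) (by simpa using G'.r_pos) (tu_ep G' hw h)
    (by rw [map_zero, S.c_zero', h]), tu_zero]

/-- the Hoelder bound at the centre -/
theorem tu_bound : ∃ α C r : ℝ, 0 < α ∧ 0 ≤ C ∧ 0 < r ∧ ∀ x, ∀ w : E, ‖w‖ < r →
    ‖tu G' N x w‖ ≤ C * ‖w‖ ^ α := by
  obtain ⟨r₁, C, α, hr₁, hC, hα, -, hH⟩ := S.rev.holderS
  obtain ⟨r₂, hr₂, hs⟩ := G'.small 0 (r₁ / 2) (half_pos hr₁)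
  obtain ⟨D, hD⟩ := G'.bd (N + 1)
  obtain ⟨K, hK, hL⟩ := An.lk_ball.{0} (N + 1)
  have hr := G'.r_pos
  set β := α / (N + 1 : ℕ) with hβ
  have hβ0 : 0 < β := by positivity
  set ρ := min (min r₁ G'.r / 2) 1 with hρ
  have hρ0 : 0 < ρ := by positivity
  have hρ1 : ρ < r₁ := by linarith [min_le_left (min r₁ G'.r / 2) 1, min_le_left r₁ G'.r]
  have hρ2 : ρ < 2 * G'.r := by linarith [min_le_left (min r₁ G'.r / 2) 1, min_le_right r₁ G'.r]
  refine ⟨β, K * (C + |D|), min (min r₁ r₂) (min G'.r (ρ ^ β⁻¹)), hβ0, by positivity,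
    by positivity, fun x w hw => ?_⟩
  simp only [lt_min_iff] at hw
  obtain ⟨⟨w1, w2⟩, w3, w4⟩ := hw
  rcases eq_or_ne w 0 with rfl | hw0
  · rw [tu_zero, norm_zero]
    positivity
  have hn : 0 < ‖w‖ := norm_pos_iff.2 hw0
  set s := ‖w‖ ^ β with hsd
  have hs0 : 0 < s := by positivity
  have hsρ : s ≤ ρ := by
    rw [← Real.rpow_inv_rpow hρ0.le hβ0.ne']
    exact Real.rpow_le_rpow hn.le w4.le hβ0.le
  have hsp : s ^ (N + 1) = ‖w‖ ^ α := by
    rw [hsd, ← Real.rpow_natCast, ← Real.rpow_mul hn.le, hβ, div_mul_cancel₀ _ (by positivity)]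
  have hin : ∀ a ∈ closedBall (0 : E) s, a ∈ ball (0 : E) (2 * G'.r) := fun a ha =>
    closedBall_subset_ball (hsρ.trans_lt hρ2) ha
  have h1 := hL (G'.g x (S.c x (S.iS w)).1) 0 s (C * s ^ (N + 1)) |D| hs0
    (fun a ha => (tu_smooth G' x w3 (hin a ha)).of_le (by exact_mod_cast le_top))
    (fun a ha => by
      have h2 := hs x _ (S.tu_nr x w2) a (hin a ha)
      rw [norm_iteratedFDeriv_zero] at h2
      have h3 := hH x (S.iS w) (by rwa [mem_ball_zero_iff, S.norm_iS])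
        (S.iS (G'.g x (S.c x (S.iS w)).1 a) + S.iU a) (by
          rw [mem_ball_zero_iff, S.norm_add, max_lt_iff]
          exact ⟨by linarith, (mem_closedBall_zero_iff.1 ha).trans_lt (hsρ.trans_lt hρ1)⟩)
        (tu_on G' x w3 (hin a ha)).2.symm
      change ‖S.pS _‖ ≤ C * ‖S.pS _‖ ^ α at h3
      rwa [map_add, S.pS_iS, S.pS_iS, S.pS_iU, add_zero, ← hsp] at h3)
    fun a ha => (hD x _ (S.tu_nr x w3) a (hin a ha)).trans (le_abs_self D)
  refine norm_jet_le (by positivity) fun i hi => ?_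
  refine le_of_mul_le_mul_right ((h1 i (Nat.le_succ_of_le hi)).trans ?_) (pow_pos hs0 i)
  have h2 : s ^ (N + 1) ≤ s * s ^ i := by
    rw [← pow_succ']
    exact pow_le_pow_of_le_one hs0.le (hsρ.trans (min_le_right _ _)) (Nat.succ_le_succ hi)
  calc K * (C * s ^ (N + 1) + |D| * s ^ (N + 1)) = K * (C + |D|) * s ^ (N + 1) := by ring
    _ ≤ K * (C + |D|) * (s * s ^ i) := mul_le_mul_of_nonneg_left h2 (by positivity)
    _ = _ := by ring

theorem tu_holder : ∃ α : ℝ, 0 < α ∧ ∀ x, ∀ w₀ : E, ‖w₀‖ < G'.r → ∃ C : ℝ,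
    ∀ᶠ w in 𝓝 w₀, ‖tu G' N x w - tu G' N x w₀‖ ≤ C * ‖w - w₀‖ ^ α := by
  obtain ⟨α, C, r, hα, hC, hr, hb⟩ := tu_bound G' N
  refine ⟨α, hα, fun x w₀ hw₀ => ?_⟩
  have h0 : ‖(0 : E)‖ < G'.r := by simpa using G'.r_pos
  have hb₀ : S.iS w₀ ∈ ball (0 : V) 1 := by
    rw [mem_ball_zero_iff, S.norm_iS]
    linarith [G'.r_le, G'.r_pos]
  obtain ⟨y, hy, -⟩ := S.exists_frame_lv (S.c_ne x _ hb₀) 0
  have he := tu_ep G' hw₀ hy
  have hc : S.c y 0 = S.c x (S.iS w₀) := by rw [S.c_zero', hy]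
  have hd : S.iS w₀ ∈ S.dom x y := mem_dom hb₀ (mem_ball_self one_pos) hc
  set u : E → E := fun w => S.pS (S.τ x y (S.iS w)) with hu
  have hu0 : u w₀ = 0 := by
    simp only [hu]
    rw [τ_eq (mem_ball_self one_pos) hc, map_zero]
  have hud : DifferentiableAt ℝ u w₀ := S.pS.differentiableAt.comp w₀
    ((differentiableAt_τ hd).comp w₀ S.iS.differentiableAt)
  have hut : Tendsto u (𝓝 w₀) (𝓝 0) := hu0 ▸ hud.continuousAt.tendsto
  have hD : S.tD y x (0 : Jet N E E) := ⟨he.symm, by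
    rw [← tu_zero G' N y, tu_base G' N y h0, map_zero]
    exact zero_dom' hb₀ hy⟩
  have hθ : DifferentiableAt ℝ (S.tθ y x) (0 : Jet N E E) :=
    jc_tθ.differentiableAt (p := (⟨(y, x), he.symm⟩, 0)) hD
  obtain ⟨K, hK, h1⟩ := hθ.isBigO_sub.exists_pos
  obtain ⟨K', hK', h2⟩ := hud.isBigO_sub.exists_pos
  have ht : Tendsto (fun w => tu G' N y (u w)) (𝓝 w₀) (𝓝 0) := by
    have := ((tu_cont G' N y).continuousAt (ball_mem_nhds 0 G'.r_pos)).tendsto
    rw [tu_zero] at this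
    exact this.comp hut
  have e0 : S.tθ y x (0 : Jet N E E) = tu G' N x w₀ := by
    rw [← tu_zero G' N y]
    exact tθ_tu' G' N h0 hw₀ he.symm (by rw [map_zero, hc])
  refine ⟨K * (C * K' ^ α), ?_⟩
  filter_upwards [ht.eventually h1.bound, h2.bound, hut.norm.eventually (gt_mem_nhds h0),
    hut.norm.eventually (gt_mem_nhds (show ‖(0 : E)‖ < r by simpa using hr)),
    S.iS.continuous.continuousAt.eventually (dom_nhds hd),
    continuous_norm.continuousAt.eventually (gt_mem_nhds hw₀)] with w a1 a2 a3 a4 a5 a6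
  have e1 : S.tθ y x (tu G' N y (u w)) = tu G' N x w := by
    refine tθ_tu' G' N a3 a6 he.symm ?_
    have h3 := S.iS_add (S.τ x y (S.iS w))
    rw [(pU_τ he a5).2 (S.pU_iS w), map_zero, add_zero] at h3
    rw [show S.iS (u w) = _ from h3, c_τ a5]
  rw [e0, e1, sub_zero] at a1
  rw [hu0, sub_zero] at a2
  calc _ ≤ K * ‖tu G' N y (u w)‖ := a1
    _ ≤ K * (C * (K' * ‖w - w₀‖) ^ α) := by
      refine mul_le_mul_of_nonneg_left ((hb y _ a4).trans ?_) hK.le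
      exact mul_le_mul_of_nonneg_left (Real.rpow_le_rpow (norm_nonneg _) a2 hα.le) hC
    _ = _ := by
      rw [Real.mul_rpow hK'.le (norm_nonneg _)]
      ring

end Sys

end Vale.Agent.P207Z
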